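import Vale.Agent.P046.Gap.Defs
import Vale.Agent.P046.Track.Mass

/-!
P046, exact order: the damped supermartingale of the full Lyapunov function.
-/

namespace Vale.Agent.P046.Gap

open Finset Vale.Agent.P046.Track MeasureTheory

variable {V : Type} [Fintype V] [DecidableEq V]

theorem avgPot_nonneg (τ : ℝ) (A : Finset (Finset V)) : 0 ≤ avgPot τ A := by
  refine intervalIntegral.integral_nonneg (by norm_num) fun r hr => ?_
  refine sum_nonneg fun B _ => mul_nonneg (mul_nonneg ?_ ?_) (psiSum_nonneg τ B)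
  · exact pow_nonneg hr.1 _
  · exact pow_nonneg (by linarith [hr.2]) _

theorem pot2_nonneg (A : Finset (Finset V)) : 0 ≤ pot2 A :=
  div_nonneg (sum_nonneg fun _ _ => mul_nonneg (by positivity) (avgPot_nonneg _ _))
    (Nat.cast_nonneg _)

theorem lyap_nonneg (A : Finset (Finset V)) : 0 ≤ lyap A :=
  mul_nonneg (dd_nonneg A) (err_nonneg (fun y _ => psi_nonneg y) A)

theorem full_nonneg {ε : ℝ} (hε : 0 ≤ ε) (A : Finset (Finset V)) : 0 ≤ full ε A :=
  add_nonneg (lyap_nonneg A) (mul_nonneg hε (pot2_nonneg A))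

/-- The full Lyapunov function damped by `(L/E)^a`, with the budget for its source. -/
noncomputable def damp (ε a K' L : ℝ) (A : Finset (Finset V)) : ℝ :=
  if (A.card : ℝ) ≤ L then 0
  else (L / A.card) ^ a * full ε A + K' * (1 - (L / A.card) ^ a)

variable {ε a K' L : ℝ}

theorem weight_bounds (ha : 0 ≤ a) (hL : 0 < L) {E : ℝ} (hE : L < E) :
    0 < (L / E) ^ a ∧ (L / E) ^ a ≤ 1 :=
  ⟨Real.rpow_pos_of_pos (div_pos hL (hL.trans hE)) a,
    Real.rpow_le_one (div_pos hL (hL.trans hE)).le ((div_le_one (hL.trans hE)).2 hE.le) ha⟩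

theorem damp_nonneg (hε : 0 ≤ ε) (ha : 0 ≤ a) (hK : 0 ≤ K') (hL : 0 < L)
    (A : Finset (Finset V)) : 0 ≤ damp ε a K' L A := by
  unfold damp
  split_ifs with h
  · rfl
  · obtain ⟨h1, h2⟩ := weight_bounds ha hL (not_le.1 h)
    exact add_nonneg (mul_nonneg h1.le (full_nonneg hε A)) (mul_nonneg hK (by linarith))

theorem damp_le (hε : 0 ≤ ε) (ha : 0 ≤ a) (hK : 0 ≤ K') (hL : 0 < L) (A : Finset (Finset V)) :
    damp ε a K' L A ≤ full ε A + K' := by
  have h0 := full_nonneg hε A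
  unfold damp
  split_ifs with h
  · linarith
  · obtain ⟨h1, h2⟩ := weight_bounds ha hL (not_le.1 h)
    exact add_le_add (mul_le_of_le_one_left h0 h2) (mul_le_of_le_one_right hK (by linarith))

/-- While the damped function is small the state is on the track. -/
theorem damp_err (hε : 0 ≤ ε) (ha : 0 ≤ a) (ha' : a ≤ 2) (hK : 0 ≤ K') (hL : 0 < L)
    {A : Finset (Finset V)} (hA : L < A.card) :
    4 * L ^ 2 / (Fintype.card V : ℝ) ^ 3 * err A ≤ damp ε a K' L A := by
  have hE : (0 : ℝ) < A.card := hL.trans hA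
  obtain ⟨h1, h2⟩ := weight_bounds ha hL hA
  have hw : (L / (A.card : ℝ)) ^ 2 ≤ (L / (A.card : ℝ)) ^ a := by
    rw [← Real.rpow_natCast (L / (A.card : ℝ)) 2]
    exact Real.rpow_le_rpow_of_exponent_ge (div_pos hL hE) ((div_le_one hE).2 hA.le)
      (by norm_num; linarith)
  have hl : lyap A ≤ full ε A := le_add_of_nonneg_right (mul_nonneg hε (pot2_nonneg A))
  rw [damp, if_neg (not_le.2 hA)]
  refine le_trans (le_of_eq ?_) ((mul_le_mul hw hl (lyap_nonneg A) h1.le).trans
    (le_add_of_nonneg_right (mul_nonneg hK (by linarith))))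
  rw [lyap, dd]
  field_simp

theorem weight_step {c : ℝ} (hc : 0 < c) (hc1 : c ≤ 1) (hL : 0 < L) {E : ℝ} (hE : 100 ≤ E) :
    (L / (E - 3)) ^ (c / 4) * (1 - c / E) ≤ (L / E) ^ (c / 4) ∧
      (L / E) ^ (c / 4) ≤ (L / (E - 3)) ^ (c / 4) * (1 - 3 * c / (8 * E)) := by
  have h3 : 0 < E - 3 := by linarith
  have hE0 : 0 < E := by linarith
  have h0 : 0 ≤ (L / (E - 3)) ^ (c / 4) := (Real.rpow_pos_of_pos (div_pos hL h3) _).le
  have hu : (L / E) ^ (c / 4) = (L / (E - 3)) ^ (c / 4) * ((E - 3) / E) ^ (c / 4) := by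
    rw [← Real.mul_rpow (by positivity) (by positivity)]
    congr 1
    field_simp
  rw [hu]
  have hr : 0 < (E - 3) / E := div_pos h3 hE0
  have hlog1 : -(4 / E) ≤ Real.log ((E - 3) / E) := by
    refine le_trans ?_ (Real.one_sub_inv_le_log_of_pos hr)
    rw [inv_div, one_sub_div h3.ne', le_div_iff₀ h3, neg_mul, div_mul_eq_mul_div, neg_le,
      le_div_iff₀ hE0]
    linarith
  have hlog2 : Real.log ((E - 3) / E) ≤ -(3 / E) := by
    refine (Real.log_le_sub_one_of_pos hr).trans (le_of_eq ?_)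
    field_simp
    ring
  rw [Real.rpow_def_of_pos hr]
  refine ⟨mul_le_mul_of_nonneg_left ?_ h0, mul_le_mul_of_nonneg_left ?_ h0⟩
  · refine le_trans ?_ (Real.exp_le_exp.2 (mul_le_mul_of_nonneg_right hlog1 (by linarith)))
    rw [show -(4 / E) * (c / 4) = -(c / E) by ring]
    linarith [Real.add_one_le_exp (-(c / E))]
  · refine (Real.exp_le_exp.2 (mul_le_mul_of_nonneg_right hlog2 (by linarith))).trans ?_
    set x := 3 * c / (4 * E) with hx
    have hx0 : 0 ≤ x := by rw [hx]; positivity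
    have hx1 : x ≤ 1 := by rw [hx, div_le_one (by positivity)]; linarith
    rw [show -(3 / E) * (c / 4) = -x by rw [hx]; ring,
      show 1 - 3 * c / (8 * E) = 1 - x / 2 by rw [hx]; ring, Real.exp_neg,
      inv_eq_one_div, div_le_iff₀ (Real.exp_pos x)]
    refine le_trans ?_ (mul_le_mul_of_nonneg_left (Real.add_one_le_exp x) (by linarith))
    nlinarith

/-- One step does not increase the damped function in the mean. -/
theorem damp_drift {K c : ℝ} (hε : 0 ≤ ε) (hK : 0 ≤ K) (hc : 0 < c) (hc1 : c ≤ 1) (hL : 0 < L)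
    {A : Finset (Finset V)} (hA : L < A.card) (hE : 100 ≤ A.card)
    (hstep : ∑ t ∈ tri A, full ε (A \ pairs t)
      ≤ (tri A).card * (full ε A * (1 - c / A.card) + K / A.card)) :
    ∑ t ∈ tri A, damp ε (c / 4) (8 * K / (3 * c)) L (A \ pairs t)
      ≤ (tri A).card * damp ε (c / 4) (8 * K / (3 * c)) L A := by
  have hK' : 0 ≤ 8 * K / (3 * c) := by positivity
  have hE' : (100 : ℝ) ≤ A.card := by exact_mod_cast hE
  have he : ∀ t ∈ tri A, ((A \ pairs t).card : ℝ) = (A.card : ℝ) - 3 :=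
    fun t ht => card_sdiff_cast ht
  rcases le_or_gt ((A.card : ℝ) - 3) L with hl | hl
  · refine le_trans (le_of_eq (sum_eq_zero fun t ht => ?_))
      (mul_nonneg (Nat.cast_nonneg _) (damp_nonneg hε (by linarith) hK' hL A))
    rw [damp, he t ht, if_pos hl]
  · obtain ⟨w1, w2⟩ := weight_step hc hc1 hL hE'
    obtain ⟨p1, p2⟩ := weight_bounds (a := c / 4) (by linarith) hL hl
    set u' := (L / ((A.card : ℝ) - 3)) ^ (c / 4)
    set u := (L / (A.card : ℝ)) ^ (c / 4) with hu
    have e1 : ∀ t ∈ tri A, damp ε (c / 4) (8 * K / (3 * c)) L (A \ pairs t)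
        = u' * full ε (A \ pairs t) + 8 * K / (3 * c) * (1 - u') := fun t ht => by
      rw [damp, he t ht, if_neg (not_le.2 hl)]
    rw [sum_congr rfl e1, sum_add_distrib, ← mul_sum, sum_const, nsmul_eq_mul, damp,
      if_neg (not_le.2 hA), ← hu]
    refine (add_le_add_left (mul_le_mul_of_nonneg_left hstep p1.le) _).trans ?_
    rw [mul_left_comm, ← mul_add]
    refine mul_le_mul_of_nonneg_left ?_ (Nat.cast_nonneg _)
    have k1 := mul_le_mul_of_nonneg_right w1 (full_nonneg hε A)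
    have k2 := mul_le_mul_of_nonneg_left w2 hK'
    have e2 : 8 * K / (3 * c) * (u' * (1 - 3 * c / (8 * (A.card : ℝ))))
        = 8 * K / (3 * c) * u' - u' * (K / A.card) := by
      field_simp
    linarith

end Vale.Agent.P046.Gap
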