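import Vale.Agent.P046.Gap.Damped
import Vale.Agent.P046.Track.Recursion

/-!
P046, exact order: the upper bound for the leave.
-/

namespace Vale.Agent.P046.Gap

open Finset Vale.Agent.P046.Track

/-- The tail of the leave from the contraction of the full Lyapunov function. -/
theorem tail_of_order {V : Type} [Fintype V] [DecidableEq V] {ε K c θ : ℝ} (hε : 0 < ε)
    (hK : 0 ≤ K) (hc : 0 < c) (hc1 : c ≤ 1) (hθ : 0 < θ) (hθ5 : θ ≤ 5)
    (A₀ : Finset (Finset V))
    (hstep : ∀ A ⊆ A₀, 100 ≤ A.card → 1 ≤ dd A → err A ≤ θ →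
      ∑ t ∈ tri A, full ε (A \ pairs t)
        ≤ (tri A).card * (full ε A * (1 - c / A.card) + K / A.card))
    (hV : 0 < (Fintype.card V : ℝ)) {L : ℝ} (hL : 100 ≤ L)
    (hLn : (Fintype.card V : ℝ) ^ 3 ≤ 4 * L ^ 2) (hA₀ : L < A₀.card) :
    probGT L A₀ ≤ (Fintype.card V : ℝ) ^ 3 * (full ε A₀ + 8 * K / (3 * c)) / (4 * θ * L ^ 2) := by
  set N := (Fintype.card V : ℝ) ^ 3 with hN
  have hN0 : 0 < N := by positivity
  have hL0 : 0 < L := by linarith
  have hK' : 0 ≤ 8 * K / (3 * c) := by positivity
  have key := tail_le A₀ (damp ε (c / 4) (8 * K / (3 * c)) L) (C := 0)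
    (θ := 4 * L ^ 2 / N * θ) le_rfl hL0 (by positivity) hA₀
    (fun A _ => damp_nonneg hε.le (by linarith) hK' hL0 A)
    (fun A _ hA he => ?_) (fun A hsub hA _ hz => ?_)
  · refine key.trans ?_
    have hb : budget 0 L A₀.card = 0 := by simp [budget]
    rw [hb, add_zero]
    refine (div_le_div_of_nonneg_right (damp_le hε.le (by linarith) hK' hL0 A₀)
      (by positivity)).trans (le_of_eq ?_)
    field_simp
  · refine le_trans ?_ (damp_err hε.le (by linarith) (by linarith) hK' hL0 hA)
    refine mul_le_mul_of_nonneg_left ?_ (by positivity)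
    have ht : tw A = -1 := by simp [tw, he]
    have h5 := five_sq_le_err (fun y _ => psi_nonneg y) A
    rw [ht] at h5
    linarith
  · rw [zero_div, add_zero]
    have h100 : 100 ≤ A.card := by
      have : ((100 : ℕ) : ℝ) ≤ A.card := by push_cast; linarith
      exact_mod_cast this
    have hdd : 1 ≤ dd A := by
      rw [dd, ← hN, le_div_iff₀ hN0, one_mul]
      have : L ^ 2 ≤ (A.card : ℝ) ^ 2 := pow_le_pow_left₀ hL0.le hA.le 2
      linarith
    have herr : err A ≤ θ := by
      have h := (damp_err hε.le (by linarith) (by linarith) hK' hL0 hA).trans hz.le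
      exact le_of_mul_le_mul_left h (by positivity)
    exact damp_drift hε.le hK hc hc1 hL0 hA h100 (hstep A hsub h100 hdd herr)

/-- **The upper bound of exact order.** -/
theorem order_upper (hO : OrderStep) (hI : PotInit) : OrderUpper := by
  obtain ⟨ε, K, c, θ, hε, hK, hc, hc1, hθ, hθ', hstep⟩ := hO
  obtain ⟨P, hP⟩ := hI
  set B := (2 + ε * |P| + 8 * K / (3 * c)) / (4 * θ) with hBdef
  have hB : 0 ≤ B := by positivity
  refine ⟨400 + B, fun n hn => ?_⟩
  have hn' : (3 : ℝ) ≤ n := by exact_mod_cast hn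
  set s := (n : ℝ) ^ ((3 : ℝ) / 2) with hsdef
  have hs2 : s ^ 2 = (n : ℝ) ^ 3 := by
    rw [hsdef, ← Real.rpow_natCast ((n : ℝ) ^ ((3 : ℝ) / 2)) 2, ← Real.rpow_mul (by linarith),
      show (3 : ℝ) / 2 * ((2 : ℕ) : ℝ) = ((3 : ℕ) : ℝ) by norm_num, Real.rpow_natCast]
  have hns : (n : ℝ) ≤ s := by
    rw [hsdef]; exact Real.self_le_rpow_of_one_le (by linarith) (by norm_num)
  have hs5 : 5 ≤ s := by
    have : (3 : ℝ) ^ 3 ≤ (n : ℝ) ^ 3 := by gcongr
    nlinarith
  have htail : ∀ L : ℝ, 20 * s ≤ L → probGT L (complete n) ≤ B * s ^ 2 / L ^ 2 := by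
    intro L hL
    rcases le_or_gt ((complete n).card : ℝ) L with hc' | hc'
    · rw [probGT_eq_zero hc']; positivity
    have hn4 : 4 ≤ n := by
      by_contra h
      have h3 : n = 3 := by omega
      subst h3
      rw [card_powersetCard, card_univ, Fintype.card_fin] at hc'
      norm_num [Nat.choose] at hc'
      linarith
    have hN : (Fintype.card (Fin n) : ℝ) = n := by rw [Fintype.card_fin]
    have h := tail_of_order hε hK hc hc1 hθ (by linarith) (complete n)
      (fun A hA => hstep (Fin n) A fun e he => (mem_powersetCard.1 (hA he)).2)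
      (by rw [hN]; linarith) (show 100 ≤ L by linarith)
      (by rw [hN, ← hs2]; nlinarith) hc'
    rw [hN, ← hs2] at h
    refine h.trans ?_
    have hfull : full ε (complete n) ≤ 2 + ε * |P| :=
      add_le_add (lyap_complete (fun _ h => psi_small h) hn4)
        (mul_le_mul_of_nonneg_left ((hP n hn4).trans (le_abs_self P)) hε.le)
    refine (div_le_div_of_nonneg_right (mul_le_mul_of_nonneg_left (add_le_add_left hfull _)
      (sq_nonneg s)) (by positivity)).trans (le_of_eq ?_)
    rw [hBdef]; field_simp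
  refine ⟨?_, fun M hM => ?_⟩
  · have h := expLeave_le_of_tail (complete n) (B := B * s ^ 2) (L₀ := 20 * s)
      (by positivity) (by positivity) (fun k hk _ => htail k hk)
    have e : B * s ^ 2 / (20 * s) = B * s / 20 := by field_simp
    rw [e] at h
    have h0 : 0 ≤ B * s := by positivity
    linarith
  · rcases lt_or_ge M 20 with hM20 | hM20
    · refine (probGT_le_one _ _).trans ?_
      rw [le_div_iff₀ (by positivity)]
      nlinarith
    · refine (htail _ (by nlinarith)).trans ?_
      rw [mul_pow, div_le_div_iff₀ (by positivity) (by positivity)]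
      have : 0 ≤ s ^ 2 * M ^ 2 := by positivity
      linarith

end Vale.Agent.P046.Gap
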