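import Vale.Agent.P046.Gap.Damped

/-!
P046, exact order: the full Lyapunov function contracts.
-/

namespace Vale.Agent.P046.Gap

open Finset Vale.Agent.P046.Track

/-- The dissipation and the second potential close the gap, and keep any further gain `Ω` of the
second potential. -/
theorem order_step_keep (hm : LyapMargin) (hg : GapRel) {C c₂ : ℝ} (hC : 0 ≤ C) (hc₂ : 0 < c₂) :
    ∃ ε K c θ : ℝ, 0 < ε ∧ 0 ≤ K ∧ 0 < c ∧ c ≤ 1 ∧ 0 < θ ∧ θ ≤ 1 / 64 ∧
      ∀ (V : Type) [Fintype V] [DecidableEq V] (A : Finset (Finset V)),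
        (∀ e ∈ A, e.card = 2) → 100 ≤ A.card → 1 ≤ dd A → err A ≤ θ → ∀ Ω : ℝ, 0 ≤ Ω →
          ∑ t ∈ tri A, pot2 (A \ pairs t)
            ≤ (tri A).card * (pot2 A * (1 - c₂ / A.card)
                + (C * (1 + diss A) - c₂ * (psiSum (1 / 5) A / A.card) - c₂ * Ω) / A.card) →
          ∑ t ∈ tri A, full ε (A \ pairs t)
            ≤ (tri A).card * (full ε A * (1 - c / A.card) + (K - c * Ω) / A.card) := by
  obtain ⟨K, c₁, hK, hc₁, hlyap⟩ := hm
  obtain ⟨G, hG, hrel⟩ := hg
  set ε := c₁ / (2 * (C + 1)) with hεdef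
  have hε : 0 < ε := by positivity
  set m := min (c₁ / 2) (ε * c₂) with hmdef
  have hm0 : 0 < m := lt_min (by linarith) (mul_pos hε hc₂)
  set β := m / (2 * (G + 1) * (K + 1)) with hβdef
  have hβ : 0 < β := by positivity
  set c := min 1 (min (m / (2 * (G + 1))) (min c₂ (ε * c₂))) with hcdef
  have hc : 0 < c := lt_min one_pos (lt_min (by positivity) (lt_min hc₂ (mul_pos hε hc₂)))
  refine ⟨ε, K + ε * C, c, min (1 / 64) (β ^ 2), hε, by positivity, hc, min_le_left _ _,
    lt_min (by norm_num) (by positivity), min_le_left _ _, ?_⟩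
  intro V _ _ A h2 hE hD herr Ω hΩ hP
  have herr4 : err A ≤ 1 / 4 := (herr.trans (min_le_left _ _)).trans (by norm_num)
  have hA := onTrack_of_err h2 hE hD herr4
  have hl := hlyap V A h2 hE hD herr4
  have hR := hrel V A h2 hE hD herr4
  have hE0 := hA.card_pos
  set d := diss A
  set Ψ := psiSum (1 / 5) A / (A.card : ℝ)
  set l := lyap A with hldef
  set p := pot2 A with hpdef
  have hl0 : 0 ≤ l := lyap_nonneg A
  have hp0 : 0 ≤ p := pot2_nonneg A
  have hd0 : 0 ≤ d := by
    have := hA.dd_pos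
    refine add_nonneg (div_nonneg (add_nonneg ?_ ?_) (Nat.cast_nonneg _)) (by positivity)
    · exact sum_nonneg fun s _ => le_min (sq_nonneg _) (abs_nonneg _)
    · positivity
  have hΨ0 : 0 ≤ Ψ := div_nonneg (psiSum_nonneg _ A) (Nat.cast_nonneg _)
  have htw : |tw A| ≤ β := by
    refine (sq_le_sq.1 ?_).trans_eq (abs_of_pos hβ)
    have h5 := five_sq_le_err (fun y _ => psi_nonneg y) A
    linarith [sq_nonneg (tw A), min_le_right (1 / 64 : ℝ) (β ^ 2)]
  have hεC : ε * C ≤ c₁ / 2 := by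
    rw [hεdef, div_mul_eq_mul_div, div_le_iff₀ (by positivity)]
    linarith
  have hgain : m / (G + 1) * l ≤ (c₁ - ε * C) * d + ε * c₂ * Ψ := by
    have h1 : m / (G + 1) * l ≤ m * (d + Ψ) := by
      rw [div_mul_eq_mul_div, div_le_iff₀ (by linarith), mul_assoc]
      refine mul_le_mul_of_nonneg_left (hR.trans ?_) hm0.le
      linarith
    have h2 := mul_le_mul_of_nonneg_right
      (show m ≤ c₁ - ε * C by linarith [min_le_left (c₁ / 2) (ε * c₂)]) hd0
    have h3 := mul_le_mul_of_nonneg_right (show m ≤ ε * c₂ from min_le_right _ _) hΨ0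
    linarith
  have hdr : K * |tw A| * l ≤ m / (2 * (G + 1)) * l := by
    refine mul_le_mul_of_nonneg_right ?_ hl0
    refine (mul_le_mul (show K ≤ K + 1 by linarith) htw (abs_nonneg _) (by linarith)).trans
      (le_of_eq ?_)
    rw [hβdef]; field_simp
  have hcl : c * l ≤ m / (2 * (G + 1)) * l :=
    mul_le_mul_of_nonneg_right ((min_le_right _ _).trans (min_le_left _ _)) hl0
  have hcp : c * (ε * p) ≤ c₂ * (ε * p) :=
    mul_le_mul_of_nonneg_right
      (((min_le_right _ _).trans (min_le_right _ _)).trans (min_le_left _ _)) (mul_nonneg hε.le hp0)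
  have hcΩ : c * Ω ≤ ε * (c₂ * Ω) := by
    rw [← mul_assoc]
    exact mul_le_mul_of_nonneg_right
      (((min_le_right _ _).trans (min_le_right _ _)).trans (min_le_right _ _)) hΩ
  have hhalf : m / (G + 1) * l = m / (2 * (G + 1)) * l + m / (2 * (G + 1)) * l := by
    field_simp
    ring
  simp only [full, sum_add_distrib, ← mul_sum]
  refine (add_le_add hl (mul_le_mul_of_nonneg_left hP hε.le)).trans ?_
  rw [mul_left_comm ε, ← mul_add]
  refine mul_le_mul_of_nonneg_left ?_ (Nat.cast_nonneg _)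
  rw [← hldef, ← hpdef]
  have key : (K * |tw A| * l + (K - c₁ * d)) + ε * (-c₂ * p + (C * (1 + d) - c₂ * Ψ - c₂ * Ω))
      ≤ -c * (l + ε * p) + (K + ε * C - c * Ω) := by linarith
  have e1 : l * (1 + K * |tw A| / A.card) + (K - c₁ * d) / A.card
      + ε * (p * (1 - c₂ / A.card) + (C * (1 + d) - c₂ * Ψ - c₂ * Ω) / A.card)
      = (l + ε * p) + ((K * |tw A| * l + (K - c₁ * d))
          + ε * (-c₂ * p + (C * (1 + d) - c₂ * Ψ - c₂ * Ω))) / A.card := by ring
  have e2 : (l + ε * p) * (1 - c / A.card) + (K + ε * C - c * Ω) / A.card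
      = (l + ε * p) + (-c * (l + ε * p) + (K + ε * C - c * Ω)) / A.card := by ring
  rw [e1, e2]
  exact add_le_add_right (div_le_div_of_nonneg_right key hE0.le) _

/-- The dissipation and the second potential close the gap. -/
theorem order_step_of (hm : LyapMargin) (hg : GapRel) (hp : PotStep) : OrderStep := by
  obtain ⟨C, c₂, hC, hc₂, hpot⟩ := hp
  obtain ⟨ε, K, c, θ, hε, hK, hc, hc1, hθ, hθ', h⟩ := order_step_keep hm hg hC hc₂
  refine ⟨ε, K, c, θ, hε, hK, hc, hc1, hθ, hθ', fun V _ _ A h2 hE hD herr => ?_⟩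
  have herr4 : err A ≤ 1 / 4 := (herr.trans hθ').trans (by norm_num)
  have := h V A h2 hE hD herr 0 le_rfl (by
    simpa using hpot V A h2 hE hD (onTrack_of_err h2 hE hD herr4).tw_le)
  simpa using this

end Vale.Agent.P046.Gap
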