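import Vale.Agent.P046.Gap.MarginCore
import Vale.Agent.P046.Track.Step

/-!
P046, exact order: the drift of the Lyapunov function with its dissipation.
-/

namespace Vale.Agent.P046.Gap

open Finset Vale.Agent.P046.Track

variable {V : Type} [Fintype V] [DecidableEq V] {A : Finset (Finset V)}

/-- The pointwise inequality with margin, summed over the triangles. -/
theorem core_sum_margin (hA : OnTrack A) :
    (∑ s ∈ tri A, ∑ e ∈ pairs s, dpsi (dev A e) * (2 * dd A - (sdeg A s - codeg A e))) / dd A
      ≤ (∑ e ∈ A, (codeg A e : ℝ) * psi (dev A e)) + dd A * mass A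
        - (usq A + dd A * (lowEdges A).card) / 1000000000 := by
  have hD := hA.dd_pos
  have h : ∀ s ∈ tri A,
      (∑ e ∈ pairs s, dpsi (dev A e) * (2 * dd A - (sdeg A s - codeg A e))) / dd A
        ≤ ∑ e ∈ pairs s, (psi (dev A e) + psi (dev A e) / (1 + dev A e)
            - lowW (dev A e) / 1000000000) - hU (usum A s) / 1000000000 := by
    intro s hs
    obtain ⟨a, b, d, hab, had, hbd, he⟩ := card_eq_three.1 (pairs_card hs)
    have gt : ∀ e ∈ pairs s, -1 < dev A e := fun e he => by
      have : (1 : ℝ) ≤ codeg A e := by exact_mod_cast codeg_pos hs he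
      have : 0 < (codeg A e : ℝ) / dd A := by positivity
      rw [dev]; linarith
    have ga := gt a (by simp [he])
    have gb := gt b (by simp [he])
    have gd := gt d (by simp [he])
    have hc := core_margin ga gb gd
    have es : ∀ F : Finset V → ℝ, ∑ e ∈ ({a, b, d} : Finset (Finset V)), F e = F a + F b + F d :=
      fun F => by simp [hab, had, hbd]; ring
    simp only [own] at hc
    simp only [usum, sdeg, he, es, hA.codeg_eq]
    rw [div_le_iff₀ hD]
    have hpos : ∀ y : ℝ, -1 < y → psi y * (2 + y) / (1 + y) = psi y + psi y / (1 + y) := by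
      intro y hy
      have : (1 + y) ≠ 0 := by linarith
      field_simp; ring
    rw [hpos _ ga, hpos _ gb, hpos _ gd] at hc
    have := mul_le_mul_of_nonneg_left hc hD.le
    linarith
  rw [sum_div]
  refine (sum_le_sum h).trans ?_
  rw [sum_sub_distrib, sum_tri_pairs (g := fun e => psi (dev A e) + psi (dev A e) / (1 + dev A e)
    - lowW (dev A e) / 1000000000), ← sum_div, ← usq]
  have hlow : dd A * ((lowEdges A).card : ℝ)
      = ∑ e ∈ A, if dev A e ≤ -(1 / 4) then dd A else 0 := by
    rw [← sum_filter, lowEdges, sum_const, nsmul_eq_mul, mul_comm]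
  have hpt : ∀ e ∈ A, (codeg A e : ℝ) * (psi (dev A e) + psi (dev A e) / (1 + dev A e)
      - lowW (dev A e) / 1000000000)
      ≤ (codeg A e : ℝ) * psi (dev A e) + dd A * psi (dev A e)
        - (if dev A e ≤ -(1 / 4) then dd A else 0) / 1000000000 := by
    intro e _
    rcases eq_or_ne (codeg A e) 0 with h0 | h0
    · have hy : dev A e = -1 := by rw [dev, h0]; simp
      rw [h0, hy, if_pos (by norm_num), (psi_of_low (show (-1 : ℝ) ≤ -(1 / 8) by norm_num)).1]
      push_cast
      linarith
    · have hc := hA.codeg_eq e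
      have hp : (0 : ℝ) < 1 + dev A e := by
        have : (0 : ℝ) < codeg A e := by exact_mod_cast Nat.pos_of_ne_zero h0
        by_contra hn
        nlinarith
      rw [hc, lowW]
      refine le_of_eq ?_
      split_ifs
      · field_simp
      · field_simp; ring
  have := sum_le_sum hpt
  simp only [sum_sub_distrib, sum_add_distrib, ← sum_div, ← mul_sum, ← hlow] at this
  rw [mass]
  linarith

/-- The main part of the change, with margin. -/
theorem main_part_margin (hA : OnTrack A) :
    2 * (1 + tw A) * dd A * (∑ e ∈ A, dpsi (dev A e) * (1 + dev A e))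
      - (∑ s ∈ tri A, ∑ e ∈ pairs s, dpsi (dev A e) * (sdeg A s - codeg A e)) / dd A
      ≤ (∑ e ∈ A, (codeg A e : ℝ) * psi (dev A e)) + (1 + tw A) * dd A * mass A
        + 4 * tw A ^ 2 * A.card * dd A + 1000 * |tw A| * (dd A * mass A)
        - (usq A + dd A * (lowEdges A).card) / 1000000000 := by
  have hD := hA.dd_pos
  set G := ∑ e ∈ A, dpsi (dev A e) * (1 + dev A e) with hGdef
  have hcore : 2 * dd A * G
      - (∑ s ∈ tri A, ∑ e ∈ pairs s, dpsi (dev A e) * (sdeg A s - codeg A e)) / dd A
      ≤ (∑ e ∈ A, (codeg A e : ℝ) * psi (dev A e)) + dd A * mass A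
        - (usq A + dd A * (lowEdges A).card) / 1000000000 := by
    refine le_trans (le_of_eq ?_) (core_sum_margin hA)
    have eG : ∑ s ∈ tri A, ∑ e ∈ pairs s, dpsi (dev A e) = dd A * G := by
      rw [sum_tri_pairs, hGdef, mul_sum]
      exact sum_congr rfl fun e _ => by rw [hA.codeg_eq]; ring
    simp only [mul_sub, sum_sub_distrib, ← sum_mul, sub_div, eG]
    field_simp
  have hlin : 2 * G - mass A = 4 * ((A.card : ℝ) * tw A)
      + ∑ e ∈ A, (2 * (1 + dev A e) * dpsi (dev A e) - psi (dev A e) - 4 * dev A e) := by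
    rw [← hA.sum_dev, hGdef, mass, mul_sum, mul_sum, ← sum_sub_distrib, ← sum_add_distrib]
    exact sum_congr rfl fun e _ => by ring
  set R := ∑ e ∈ A, (2 * (1 + dev A e) * dpsi (dev A e) - psi (dev A e) - 4 * dev A e) with hR
  have hres : |R| ≤ 1000 * mass A := by
    rw [hR]
    refine (abs_sum_le_sum_abs _ _).trans ?_
    rw [mass, mul_sum]
    exact sum_le_sum fun e _ => psi_lin (dev_ge' A e)
  have hw2 : tw A * dd A * R ≤ |tw A| * dd A * (1000 * mass A) := by
    refine (le_abs_self _).trans ?_
    rw [abs_mul, abs_mul, abs_of_pos hD]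
    exact mul_le_mul_of_nonneg_left hres (by positivity)
  linarith [show tw A * dd A * (2 * G - mass A) = tw A * dd A * (4 * ((A.card : ℝ) * tw A) + R)
      by rw [hlin],
    show 2 * (1 + tw A) * dd A * G
      = 2 * dd A * G + tw A * dd A * (2 * G - mass A) + tw A * dd A * mass A by ring,
    show tw A * dd A * (4 * ((A.card : ℝ) * tw A) + R)
      = 4 * tw A ^ 2 * A.card * dd A + tw A * dd A * R by ring]

/-- The mean change of the mass, with margin. -/
theorem mass_step_margin (hA : OnTrack A) :
    ∑ t ∈ tri A, mass (A \ pairs t) ≤ ((tri A).card : ℝ) * mass A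
      + 3 * ((tri A).card : ℝ) * mass A / A.card
      + 4 * tw A ^ 2 * A.card * dd A + 1000 * |tw A| * (dd A * mass A)
      + 4000000000 * A.card - (usq A + dd A * (lowEdges A).card) / 1000000000 := by
  have hE := hA.card_pos
  have main := hA.mass_taylor
  have hl := hA.linear_eq
  have hm := main_part_margin hA
  have he := hA.error_part
  set G := ∑ e ∈ A, dpsi (dev A e) * (1 + dev A e)
  set Q2 := ∑ e ∈ A, dpsi (dev A e) * (codeg A e : ℝ) ^ 2 / dd A
  set X := (∑ s ∈ tri A, ∑ e ∈ pairs s, dpsi (dev A e) * (sdeg A s - codeg A e)) / dd A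
  have e3 : 3 * ((tri A).card : ℝ) * mass A / A.card = (1 + tw A) * dd A * mass A := by
    rw [hA.tri_eq]; field_simp
  have e4 : (rho A - 1) * ((tri A).card : ℝ) * G
      = (rho A - 1 - 6 / A.card) * ((tri A).card : ℝ) * G + 2 * (1 + tw A) * dd A * G := by
    rw [hA.tri_eq]; field_simp; ring
  rw [e3]
  linarith [show rho A * X = X + (rho A - 1) * X by ring]

theorem usq_sum_nonneg (A : Finset (Finset V)) : 0 ≤ usq A := sum_nonneg fun _ _ => hU_nonneg _

/-- **The drift of the Lyapunov function with its dissipation.** -/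
theorem lyapMargin : LyapMargin := by
  refine ⟨40000000000, 1 / 2000000000, by norm_num, by norm_num, ?_⟩
  intro V _ _ A h2 hE100 hD1 herr
  have hA := onTrack_of_err h2 hE100 hD1 herr
  have hD := hA.dd_pos
  have hE := hA.card_pos
  have h100 := hA.card_ge
  have hm0 : 0 ≤ mass A := sum_nonneg fun e _ => psi_nonneg _
  set T := ((tri A).card : ℝ) with hT
  have hms := mass_step_margin hA
  have hts := hA.tw_step
  rw [← hT] at hms hts
  set M := usq A + dd A * ((lowEdges A).card : ℝ) with hM
  have hM0 : 0 ≤ M := add_nonneg (usq_sum_nonneg A) (by positivity)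
  have hexp : ∀ t ∈ tri A, lyap (A \ pairs t)
      = dd A * ((A.card : ℝ) - 3) / (A.card : ℝ) ^ 2 * mass (A \ pairs t)
        + 5 * (dd (A \ pairs t) * tw (A \ pairs t) ^ 2) := by
    intro t ht
    have h3 : (0 : ℝ) < (A.card : ℝ) - 3 := by linarith
    have hd : dd (A \ pairs t) = dd A * ((A.card : ℝ) - 3) ^ 2 / (A.card : ℝ) ^ 2 := by
      rw [eq_div_iff (by positivity), dd_sdiff ht]
    rw [lyap, err, card_sdiff_cast ht, hd]
    field_simp
  rw [sum_congr rfl hexp, sum_add_distrib, ← mul_sum, ← mul_sum]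
  set B := 4 * tw A ^ 2 * A.card * dd A + 1000 * |tw A| * (dd A * mass A)
      + 4000000000 * A.card with hB
  have hB0 : 0 ≤ B := by rw [hB]; positivity
  set q := ((A.card : ℝ) - 3) / A.card with hq
  have hq1 : q ≤ 1 := by rw [hq, div_le_one hE]; linarith
  have hq2 : 1 / 2 ≤ q := by rw [hq, le_div_iff₀ hE]; linarith
  have hMass : dd A * ((A.card : ℝ) - 3) / (A.card : ℝ) ^ 2 * ∑ t ∈ tri A, mass (A \ pairs t)
      ≤ T * (dd A * (mass A / A.card)) + dd A / A.card * B
        - dd A * (M / A.card) / 2000000000 := by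
    have h0 : 0 ≤ dd A * ((A.card : ℝ) - 3) / (A.card : ℝ) ^ 2 :=
      div_nonneg (mul_nonneg hD.le (by linarith)) (by positivity)
    refine (mul_le_mul_of_nonneg_left (hms.trans (le_of_eq (show _
      = T * mass A * (1 + 3 / A.card) + B - M / 1000000000 by rw [hB]; ring))) h0).trans ?_
    have e : dd A * ((A.card : ℝ) - 3) / (A.card : ℝ) ^ 2
          * (T * mass A * (1 + 3 / A.card) + B - M / 1000000000)
        = T * (dd A * (mass A / A.card)) * (1 - 9 / (A.card : ℝ) ^ 2)
          + q * (dd A / A.card * B) - q * (dd A * (M / A.card) / 1000000000) := by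
      rw [hq]; field_simp; ring
    rw [e]
    have x0 : 0 ≤ T * (dd A * (mass A / A.card)) * (9 / (A.card : ℝ) ^ 2) := by positivity
    have x1 := mul_le_mul_of_nonneg_right hq1 (show 0 ≤ dd A / A.card * B by positivity)
    have x2 := mul_le_mul_of_nonneg_right hq2
      (show 0 ≤ dd A * (M / A.card) / 1000000000 by positivity)
    linarith
  have hmle : dd A * (mass A / A.card) ≤ lyap A := by
    rw [lyap, err]
    exact mul_le_mul_of_nonneg_left (by linarith [sq_nonneg (tw A)]) hD.le
  have hBe : dd A / A.card * B = 4 * (dd A * (dd A * tw A ^ 2))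
      + 1000 * dd A * (|tw A| * (dd A * (mass A / A.card))) + 4000000000 * dd A := by
    rw [hB]; field_simp
  have hTE : dd A / 4 ≤ T / A.card := by
    rw [le_div_iff₀ hE]; have := hA.tri_ge; rw [← hT] at this; linarith
  have hTD : T / A.card ≤ dd A := by
    rw [div_le_iff₀ hE, mul_comm]; exact hA.tri_le
  have hneg : 5 * (dd A * (dd A * tw A ^ 2)) ≤ 30 * T * (dd A * tw A ^ 2) / A.card := by
    rw [show 30 * T * (dd A * tw A ^ 2) / A.card = 30 * (T / A.card) * (dd A * tw A ^ 2) by ring,
      show 5 * (dd A * (dd A * tw A ^ 2)) = 5 * dd A * (dd A * tw A ^ 2) by ring]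
    exact mul_le_mul_of_nonneg_right (by linarith) (by positivity)
  have hlyap0 : 0 ≤ lyap A := by rw [lyap, err]; positivity
  have hdiss : 0 ≤ diss A := add_nonneg (by rw [← hM]; positivity) (by positivity)
  have hK : dd A * (2000000 * |tw A| * lyap A + 7000000000)
      ≤ T / A.card * (40000000000 * |tw A| * lyap A + 40000000000) := by
    calc dd A * (2000000 * |tw A| * lyap A + 7000000000)
        = dd A / 4 * (8000000 * |tw A| * lyap A + 28000000000) := by ring
      _ ≤ T / A.card * (40000000000 * |tw A| * lyap A + 40000000000) := by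
          refine mul_le_mul hTE ?_ (by positivity) (by positivity)
          nlinarith [mul_nonneg (abs_nonneg (tw A)) hlyap0]
  have h1000 := mul_le_mul_of_nonneg_left (mul_le_mul_of_nonneg_left hmle (abs_nonneg (tw A)))
    (show 0 ≤ 1000 * dd A by positivity)
  have htl : T * lyap A = T * (dd A * (mass A / A.card)) + 5 * (T * (dd A * tw A ^ 2)) := by
    rw [lyap, err]; ring
  have hdis : T / A.card * diss A ≤ dd A * (M / A.card) + dd A * (dd A * tw A ^ 2) := by
    refine (mul_le_mul_of_nonneg_right hTD hdiss).trans (le_of_eq ?_)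
    rw [diss, hM]; ring
  have hw0 : 0 ≤ dd A * (dd A * tw A ^ 2) := by positivity
  have e1 : T * (lyap A * (1 + 40000000000 * |tw A| / A.card)
        + (40000000000 - 1 / 2000000000 * diss A) / A.card)
      = T * lyap A + T / A.card * (40000000000 * |tw A| * lyap A + 40000000000)
        - T / A.card * diss A / 2000000000 := by ring
  rw [e1]
  linarith [show 5 * (6 * T * (dd A * tw A ^ 2) / A.card) = 30 * T * (dd A * tw A ^ 2) / A.card by ring,
    mul_nonneg hD.le (mul_nonneg (abs_nonneg (tw A)) hlyap0)]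

end Vale.Agent.P046.Gap
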