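import Vale.Agent.P046.Gap.Avg
import Vale.Agent.P046.Gap.Damped

/-!
P046, exact order: the family of margins, the drift of the second potential and its initial value.
-/

namespace Vale.Agent.P046.Gap

open Finset Vale.Agent.P046.Track

variable {V : Type} [Fintype V] [DecidableEq V]

/-- The gap between two consecutive margins. -/
noncomputable def gap (j : ℕ) : ℝ := (39 / 40) ^ j / 400

theorem gap_pos (j : ℕ) : 0 < gap j := by unfold gap; positivity

theorem level_sub (j : ℕ) : level j - gap j = level (j + 1) := by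
  unfold level gap; ring

theorem gap_le (j : ℕ) : gap j ≤ 1 / 400 := by
  have := pow_le_one₀ (n := j) (show (0 : ℝ) ≤ 39 / 40 by norm_num) (by norm_num)
  unfold gap; linarith

theorem level_bounds (j : ℕ) : 1 / 10 ≤ level j ∧ level j ≤ 1 / 5 := by
  have h1 := pow_le_one₀ (n := j) (show (0 : ℝ) ≤ 39 / 40 by norm_num) (by norm_num)
  have h2 : (0 : ℝ) ≤ (39 / 40) ^ j := by positivity
  unfold level; constructor <;> linarith

theorem geom_le {x : ℝ} (h0 : 0 ≤ x) (h1 : x < 1) (m : ℕ) :
    ∑ j ∈ range m, x ^ j ≤ 1 / (1 - x) := by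
  rw [le_div_iff₀ (by linarith)]
  have := geom_sum_mul x m
  have := pow_nonneg h0 m
  linarith

theorem sum_weight_gap (m : ℕ) : ∑ j ∈ range m, (19 / 20 : ℝ) ^ j / gap j ≤ 15600 := by
  have e : ∀ j : ℕ, (19 / 20 : ℝ) ^ j / gap j = 400 * (38 / 39) ^ j := fun j => by
    rw [gap, div_div_eq_mul_div, mul_div_right_comm, ← div_pow, mul_comm]
    norm_num
  simp only [e, ← mul_sum]
  refine (mul_le_mul_of_nonneg_left (geom_le (by norm_num) (by norm_num) m) (by norm_num)).trans ?_
  norm_num

theorem weight_depth (n : ℕ) : (19 / 20 : ℝ) ^ depth n * n ≤ 1 := by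
  have hn : (n : ℝ) ≤ 2 ^ (Nat.log 2 n + 1) := by
    exact_mod_cast (Nat.lt_pow_succ_log_self (b := 2) (by norm_num) n).le
  rw [depth, pow_mul]
  have h2 := pow_le_pow_left₀ (by positivity) (show (19 / 20 : ℝ) ^ 20 ≤ 1 / 2 by norm_num)
    (Nat.log 2 n + 1)
  refine (mul_le_mul h2 hn (Nat.cast_nonneg _) (by positivity)).trans (le_of_eq ?_)
  rw [← mul_pow]
  norm_num

/-- A pair is in at most `|V|` triangles. -/
theorem codeg_le_card (A : Finset (Finset V)) {e : Finset V} (he : e.card = 2) :
    codeg A e ≤ Fintype.card V := by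
  refine le_trans (card_le_card (t := univ.image fun w => insert w e) fun s hs => ?_)
    (card_image_le.trans_eq card_univ)
  obtain ⟨hsA, hes⟩ := mem_filter.1 hs
  have hsub := (mem_powersetCard.1 hes).1
  have hc : (s \ e).card = 1 := by rw [card_sdiff_of_subset hsub, tri_card hsA, he]
  obtain ⟨w, hw⟩ := card_eq_one.1 hc
  refine mem_image.2 ⟨w, mem_univ _, ?_⟩
  rw [← sdiff_union_of_subset hsub, hw, insert_eq]

theorem psiSum_le_crude {A : Finset (Finset V)} (h2 : ∀ e ∈ A, e.card = 2) {τ : ℝ} (h0 : 0 ≤ τ)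
    (h1 : τ ≤ 1 / 4) : psiSum τ A ≤ 24 * A.card * Fintype.card V := by
  have hT : 3 * ((tri A).card : ℝ) ≤ A.card * Fintype.card V := by
    rw [← sum_codeg, ← nsmul_eq_mul]
    exact sum_le_card_nsmul _ _ _ fun e he => by exact_mod_cast codeg_le_card A (h2 e he)
  rw [psiSum_eq, ← sum_neg_distrib]
  refine (sum_le_card_nsmul _ _ (72 : ℝ) fun s hs => ?_).trans ?_
  · obtain ⟨a, b, -⟩ := phiOpt_bounds (τ := τ) (tri_card hs) h0 h1 A
    linarith [neg_abs_le (phiOpt τ A s)]
  · rw [nsmul_eq_mul]; linarith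

theorem avgPot_le (hT : ThinBound) : ∃ C : ℝ, 0 ≤ C ∧
    ∀ (V : Type) [Fintype V] [DecidableEq V] (A : Finset (Finset V)),
      (∀ e ∈ A, e.card = 2) → ∀ τ δ : ℝ, 0 < δ → δ ≤ τ → τ ≤ 1 / 4 →
        avgPot τ A ≤ psiSum (τ - δ) A / 64 + C * (A.card / δ) := by
  obtain ⟨C, hC, h⟩ := hT
  refine ⟨C / 8, by positivity, fun V _ _ A h2 τ δ hδ hδτ hτ => ?_⟩
  calc avgPot τ A ≤ psiSum (τ - δ) A / 64 + C * A.card / δ / 8 := by
        rw [← integral_cubic, avgPot]
        refine intervalIntegral.integral_mono_on (by norm_num)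
          ((continuous_ex _).intervalIntegrable _ _)
          (Continuous.intervalIntegrable (by fun_prop) _ _) fun r hr => ?_
        exact (h V A h2 τ δ r hδ hδτ hτ hr.1 hr.2).trans (le_of_eq (by ring))
    _ = _ := by ring

/-- The sum over the family, shifted by one margin. -/
theorem sum_shift_le {A : Finset (Finset V)} (h2 : ∀ e ∈ A, e.card = 2) :
    ∑ j ∈ range (depth (Fintype.card V) + 1), (19 / 20 : ℝ) ^ j * psiSum (level (j + 1)) A
      ≤ 20 / 19 * ∑ j ∈ range (depth (Fintype.card V) + 1), (19 / 20 : ℝ) ^ j * psiSum (level j) A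
        + 24 * A.card := by
  set J := depth (Fintype.card V)
  set f := fun j : ℕ => (19 / 20 : ℝ) ^ j * psiSum (level j) A with hf
  have h := (sum_range_succ' f (J + 1)).symm.trans (sum_range_succ f (J + 1))
  have e : ∑ j ∈ range (J + 1), f (j + 1)
      = 19 / 20 * ∑ j ∈ range (J + 1), (19 / 20 : ℝ) ^ j * psiSum (level (j + 1)) A := by
    rw [mul_sum]
    exact sum_congr rfl fun j _ => by rw [hf]; ring
  rw [e] at h
  have h0 : 0 ≤ f 0 := mul_nonneg (by positivity) (psiSum_nonneg _ A)
  have hl := level_bounds (J + 1)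
  have htail : f (J + 1) ≤ 19 / 20 * (24 * A.card) := by
    calc f (J + 1) ≤ (19 / 20) ^ (J + 1) * (24 * A.card * Fintype.card V) :=
          mul_le_mul_of_nonneg_left (psiSum_le_crude h2 (by linarith) (by linarith)) (by positivity)
      _ = 19 / 20 * (24 * A.card) * ((19 / 20) ^ J * (Fintype.card V : ℝ)) := by ring
      _ ≤ _ := mul_le_of_le_one_right (by positivity) (weight_depth _)
  have hS : ∑ j ∈ range (J + 1), f j
      = ∑ j ∈ range (J + 1), (19 / 20 : ℝ) ^ j * psiSum (level j) A := rfl
  linarith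

/-- The sum of the averaged defects is controlled by the sum of the defects. -/
theorem sum_avg_le (hT : ThinBound) : ∃ C : ℝ, 0 ≤ C ∧
    ∀ (V : Type) [Fintype V] [DecidableEq V] (A : Finset (Finset V)),
      (∀ e ∈ A, e.card = 2) →
        ∑ j ∈ range (depth (Fintype.card V) + 1), (19 / 20 : ℝ) ^ j * avgPot (level j) A
          ≤ (∑ j ∈ range (depth (Fintype.card V) + 1),
              (19 / 20 : ℝ) ^ j * psiSum (level (j + 1)) A) / 64 + C * A.card := by
  obtain ⟨C, hC, h⟩ := avgPot_le hT
  refine ⟨15600 * C, by positivity, fun V _ _ A h2 => ?_⟩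
  rw [sum_div]
  calc _ ≤ ∑ j ∈ range (depth (Fintype.card V) + 1),
        ((19 / 20 : ℝ) ^ j * psiSum (level (j + 1)) A / 64
          + C * A.card * ((19 / 20 : ℝ) ^ j / gap j)) := by
        refine sum_le_sum fun j _ => ?_
        have hl := level_bounds j
        have hg := gap_le j
        have := mul_le_mul_of_nonneg_left (h V A h2 (level j) (gap j) (gap_pos j) (by linarith)
          (by linarith)) (show (0 : ℝ) ≤ (19 / 20) ^ j by positivity)
        rw [level_sub] at this
        refine this.trans (le_of_eq ?_)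
        ring
    _ ≤ _ := by
      rw [sum_add_distrib, ← mul_sum]
      refine add_le_add_right ?_ _
      have := mul_le_mul_of_nonneg_left (sum_weight_gap (depth (Fintype.card V) + 1))
        (show (0 : ℝ) ≤ C * A.card by positivity)
      linarith

/-- The drift of the second potential, keeping the defect at two of the margins. -/
theorem potStep_keep (hA : AvgStep) (hT : ThinBound) :
    ∃ C c : ℝ, 0 ≤ C ∧ 0 < c ∧
      ∀ (V : Type) [Fintype V] [DecidableEq V] (A : Finset (Finset V)),
        (∀ e ∈ A, e.card = 2) → 100 ≤ A.card → 1 ≤ dd A → |tw A| ≤ 1 / 4 →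
          ∀ j₀ ≤ depth (Fintype.card V),
            ∑ t ∈ tri A, pot2 (A \ pairs t)
              ≤ (tri A).card * (pot2 A * (1 - c / A.card)
                  + (C * (1 + diss A) - c * (psiSum (1 / 5) A / A.card)
                    - c * ((19 / 20) ^ j₀ * psiSum (level j₀) A / A.card)) / A.card) := by
  obtain ⟨C₀, hC₀, hstep⟩ := hA
  obtain ⟨C₁, hC₁, havg⟩ := sum_avg_le hT
  refine ⟨8 * (15600 * C₀ + 8 + 30 * C₁), 1 / 400, by positivity, by norm_num, ?_⟩
  intro V _ _ A h2 hcard hdd hw j₀ hj₀
  set J := depth (Fintype.card V) with hJ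
  set E := (A.card : ℝ) with hE
  have hE' : 100 ≤ E := by rw [hE]; exact_mod_cast hcard
  set T := ((tri A).card : ℝ) with hT'
  set ρ := (19 / 20 : ℝ) with hρ
  set S := ∑ j ∈ range (J + 1), ρ ^ j * psiSum (level j) A with hS
  set U := ∑ j ∈ range (J + 1), ρ ^ j * psiSum (level (j + 1)) A with hU
  set W := ∑ j ∈ range (J + 1), ρ ^ j * avgPot (level j) A with hW
  set X := (97 / 5 : ℝ) / 64 * U - (104 / 5 : ℝ) / 64 * S + 15600 * C₀ * (E + usq A) with hX
  have hu : 0 ≤ usq A := usq_nonneg A
  have hD0 : 0 ≤ dd A := dd_nonneg A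
  have hmain : ∑ t ∈ tri A, pot2 (A \ pairs t) ≤ T * (W / E) + dd A / (E - 3) * X := by
    calc ∑ t ∈ tri A, pot2 (A \ pairs t)
        = ∑ j ∈ range (J + 1), ρ ^ j * ∑ t ∈ tri A, avgPot (level j) (A \ pairs t) / (E - 3) := by
          simp only [mul_sum]
          rw [sum_comm]
          refine sum_congr rfl fun t ht => ?_
          have hc : (((A \ pairs t).card : ℕ) : ℝ) = E - 3 := by
            rw [card_sdiff_of_subset (tri_sub ht), pairs_card ht,
              Nat.cast_sub (by omega), hE]
            norm_num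
          rw [pot2, hc, sum_div]
          exact sum_congr rfl fun j _ => by rw [hρ]; ring
      _ ≤ ∑ j ∈ range (J + 1), (T * (ρ ^ j * avgPot (level j) A / E) + dd A / (E - 3)
            * ((97 / 5 : ℝ) / 64 * (ρ ^ j * psiSum (level (j + 1)) A)
              - (104 / 5 : ℝ) / 64 * (ρ ^ j * psiSum (level j) A)
              + C₀ * (E + usq A) * (ρ ^ j / gap j))) := by
          refine sum_le_sum fun j _ => ?_
          have hl := level_bounds j
          have hg := gap_le j
          have := mul_le_mul_of_nonneg_left (hstep V A h2 hcard hdd hw (level j) (gap j)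
            (gap_pos j) (by linarith) (by linarith) (by linarith))
            (show 0 ≤ ρ ^ j by positivity)
          rw [level_sub] at this
          refine this.trans (le_of_eq ?_)
          rw [← hE, ← hT']
          ring
      _ ≤ _ := by
          rw [sum_add_distrib, ← mul_sum, ← sum_div, ← mul_sum, ← hW]
          refine add_le_add_right (mul_le_mul_of_nonneg_left ?_
            (div_nonneg hD0 (by linarith))) _
          rw [sum_add_distrib, sum_sub_distrib, ← mul_sum, ← mul_sum, ← mul_sum, ← hU, ← hS, hX]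
          have := mul_le_mul_of_nonneg_left (sum_weight_gap (J + 1))
            (show 0 ≤ C₀ * (E + usq A) by positivity)
          linarith
  -- the family telescopes
  have hUS : U ≤ 20 / 19 * S + 24 * E := sum_shift_le h2
  have hWU : W ≤ U / 64 + C₁ * E := havg V A h2
  have hP : psiSum (1 / 5) A ≤ S := by
    refine le_trans (le_of_eq ?_) (single_le_sum (f := fun j => ρ ^ j * psiSum (level j) A)
      (fun j _ => mul_nonneg (by positivity) (psiSum_nonneg _ A))
      (mem_range.2 (Nat.succ_pos J)))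
    simp [level]
  set Q := ρ ^ j₀ * psiSum (level j₀) A with hQ
  have hQS : Q ≤ S := single_le_sum (f := fun j => ρ ^ j * psiSum (level j) A)
    (fun j _ => mul_nonneg (by positivity) (psiSum_nonneg _ A))
    (mem_range.2 (Nat.lt_succ_of_le hj₀))
  have hQ0 : 0 ≤ Q := mul_nonneg (by positivity) (psiSum_nonneg _ A)
  have hW0 : 0 ≤ W := sum_nonneg fun j _ => mul_nonneg (by positivity) (avgPot_nonneg _ A)
  have hP0 : 0 ≤ psiSum (1 / 5) A := psiSum_nonneg _ A
  have hCu : 0 ≤ C₁ * usq A := by positivity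
  have hCE : 0 ≤ C₁ * E := by positivity
  clear_value S U W
  have hS2 : psiSum (1 / 5) A / 4 + Q / 4 + 30 * W ≤ S + (12 + 30 * C₁) * E := by linarith
  have hXle : X + psiSum (1 / 5) A / 800 + Q / 800 + W / 400
      ≤ (15600 * C₀ + 8 + 30 * C₁) * (E + usq A) := by
    rw [hX]; linarith
  clear_value X T E
  -- back to the number of triangles
  have hT3 : 3 * T = E * dd A * (1 + tw A) := by
    rw [tw, ← hE, ← hT', add_sub_cancel, mul_div_cancel₀]
    exact mul_ne_zero (by linarith) (by linarith)
  obtain ⟨hw1, hw2⟩ := abs_le.1 hw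
  have hden : 0 < (1 + tw A) * (E - 3) := mul_pos (by linarith) (by linarith)
  set m := 3 / ((1 + tw A) * (E - 3)) with hm
  have hm1 : 2 / E ≤ m := by
    rw [hm, div_le_div_iff₀ (by linarith) hden]
    linarith [mul_le_mul_of_nonneg_right hw2 (show 0 ≤ E - 3 by linarith)]
  have hm2 : m ≤ 8 / E := by
    rw [hm, div_le_div_iff₀ hden (by linarith)]
    linarith [mul_le_mul_of_nonneg_right (show 3 / 4 ≤ 1 + tw A by linarith)
      (show 0 ≤ E - 3 by linarith)]
  have hm0 : 0 ≤ m := le_trans (by positivity) hm1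
  have hdm : dd A / (E - 3) = T / E * m := by
    rw [hm]
    have : E - 3 ≠ 0 := by linarith
    have : 1 + tw A ≠ 0 := by linarith
    field_simp
    linear_combination -hT3
  have hdiss : usq A / E ≤ diss A := by
    have h1 : usq A / E ≤ (usq A + dd A * (lowEdges A).card) / E :=
      div_le_div_of_nonneg_right (by linarith [mul_nonneg hD0 (Nat.cast_nonneg (lowEdges A).card)])
        (by linarith)
    have h2 : 0 ≤ dd A * tw A ^ 2 := by positivity
    rw [diss, ← hE]
    linarith
  have key : m * X ≤ 8 * (15600 * C₀ + 8 + 30 * C₁) * (1 + diss A)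
      - 1 / 400 * (psiSum (1 / 5) A / E) - 1 / 400 * (Q / E) - 1 / 400 * (W / E) := by
    have k1 := mul_le_mul_of_nonneg_left hXle hm0
    have k2 := mul_le_mul_of_nonneg_right hm2 (show 0 ≤ (15600 * C₀ + 8 + 30 * C₁) * (E + usq A)
      by positivity)
    have k3 := mul_le_mul_of_nonneg_right hm1 (show 0 ≤ psiSum (1 / 5) A / 800 + Q / 800 + W / 400
      by positivity)
    have k4 : 8 / E * ((15600 * C₀ + 8 + 30 * C₁) * (E + usq A))
        = 8 * (15600 * C₀ + 8 + 30 * C₁) * (1 + usq A / E) := by
      linear_combination (8 * (15600 * C₀ + 8 + 30 * C₁)) * div_self (show E ≠ 0 by linarith)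
    have k5 : 8 * (15600 * C₀ + 8 + 30 * C₁) * (1 + usq A / E)
        ≤ 8 * (15600 * C₀ + 8 + 30 * C₁) * (1 + diss A) :=
      mul_le_mul_of_nonneg_left (by linarith) (by positivity)
    rw [k4] at k2
    have k6 : 2 / E * (psiSum (1 / 5) A / 800 + Q / 800 + W / 400)
        = 1 / 400 * (psiSum (1 / 5) A / E) + 1 / 400 * (Q / E) + 1 / 200 * (W / E) := by ring
    rw [mul_add, mul_add, mul_add] at k1
    rw [mul_add, mul_add] at k3
    rw [mul_add, mul_add] at k6
    have k7 : 0 ≤ W / E := by positivity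
    linarith
  refine hmain.trans ?_
  rw [hdm, mul_assoc]
  have hp : pot2 A = W / E := by rw [pot2, hW, hρ, hE]
  rw [hp]
  refine le_trans (add_le_add le_rfl (mul_le_mul_of_nonneg_left key ?_)) (le_of_eq ?_)
  · exact div_nonneg (hT' ▸ Nat.cast_nonneg _) (by linarith)
  · ring

/-- The drift of the second potential. -/
theorem potStep_of (hA : AvgStep) (hT : ThinBound) : PotStep := by
  obtain ⟨C, c, hC, hc, h⟩ := potStep_keep hA hT
  refine ⟨C, c, hC, hc, fun V _ _ A h2 hcard hdd hw => ?_⟩
  refine (h V A h2 hcard hdd hw 0 (Nat.zero_le _)).trans ?_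
  refine mul_le_mul_of_nonneg_left (add_le_add le_rfl
    (div_le_div_of_nonneg_right (sub_le_self _ ?_) (Nat.cast_nonneg _))) (Nat.cast_nonneg _)
  have := psiSum_nonneg (level 0) A
  positivity

/-- The link of a vertex in the complete graph has bounded defect per vertex. -/
theorem psiAt_complete (n : ℕ) (v : Fin n) {τ : ℝ} (h0 : 0 ≤ τ) :
    psiAt τ (complete n) v ≤ 8 * n := by
  set L := linkPairs (complete n) v with hL
  have hC : ∀ f ∈ L, f.card = 2 := fun f hf => linkPairs_card hf
  have hadj : ∀ u w, adj L u w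
      = if u ∈ univ.erase v ∧ w ∈ (univ.erase v).erase u then (1 : ℝ) else 0 := by
    intro u w
    refine if_congr ?_ rfl rfl
    rw [hL, linkPairs_mem]
    constructor
    · rintro ⟨hc, hv, -, -⟩
      have hne : u ≠ w := by rintro rfl; simp at hc
      simp only [mem_insert, mem_singleton, not_or] at hv
      simp [Ne.symm hv.1, Ne.symm hv.2, hne.symm]
    · simp only [mem_erase, mem_univ, and_true]
      rintro ⟨hu, hwu, hw⟩
      refine ⟨card_pair (Ne.symm hwu), by simp [Ne.symm hu, Ne.symm hw], ?_, ?_⟩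
      · simp [complete, card_pair (Ne.symm hwu)]
      · intro x hx
        rcases mem_insert.1 hx with rfl | hx
        · simp [complete, card_pair (Ne.symm hu)]
        · rw [mem_singleton] at hx
          subst hx
          simp [complete, card_pair (Ne.symm hw)]
  rw [psiAt_eq]
  obtain ⟨z, hz, e⟩ := psiL_mem τ L
  rw [e, qL_shift τ τ L z, sub_self]
  have hnn : 0 ≤ τ * ∑ u ∈ lverts L, (ldeg L u : ℝ) * z u ^ 2 :=
    mul_nonneg h0 (sum_nonneg fun u _ => by positivity)
  have e2 : ∑ u, ∑ w, adj L u w * (z u * z w) = 2 * ∑ f ∈ L, pterm 0 z f := by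
    rw [sum_adj hC, mul_sum]
    refine sum_congr rfl fun f hf => ?_
    obtain ⟨a, b, hab, rfl⟩ := card_eq_two.1 (hC f hf)
    rw [sq_sum_pair hab rfl, sum_pair hab, erase_insert (by simpa using hab), pair_comm,
      erase_insert (by simpa using hab.symm), sum_singleton, sum_singleton]
    ring
  have e3 : ∑ u, ∑ w, adj L u w * (z u * z w)
      = (∑ u ∈ univ.erase v, z u) ^ 2 - ∑ u ∈ univ.erase v, z u ^ 2 := by
    simp only [hadj, ite_mul, one_mul, zero_mul, ite_and]
    rw [← sum_subset (subset_univ (univ.erase v)) fun u _ hu => sum_eq_zero fun w _ => if_neg hu,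
      sq, sum_mul, ← sum_sub_distrib]
    refine sum_congr rfl fun u hu => ?_
    simp only [if_pos hu]
    rw [sum_ite_mem, univ_inter, ← mul_sum, ← sum_erase_add _ _ hu]
    ring
  have h16 : ∑ u ∈ univ.erase v, z u ^ 2 ≤ 16 * n := by
    refine (sum_le_card_nsmul _ _ (16 : ℝ) fun u _ => ?_).trans ?_
    · rw [show (16 : ℝ) = 4 ^ 2 by norm_num, sq_le_sq, abs_of_pos (four_pos : (0 : ℝ) < 4)]
      exact abs_le_of_mem hz u
    · rw [nsmul_eq_mul, mul_comm]
      refine mul_le_mul_of_nonneg_left ?_ (by norm_num)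
      exact_mod_cast (card_le_univ _).trans_eq (Fintype.card_fin n)
  rw [qL]
  linarith [sq_nonneg (∑ u ∈ univ.erase v, z u)]

/-- The second potential is bounded at the complete graph. -/
theorem potInit_of (hT : ThinBound) : PotInit := by
  obtain ⟨C, hC, havg⟩ := sum_avg_le hT
  refine ⟨10 + C, fun n hn => ?_⟩
  have hn' : (4 : ℝ) ≤ n := by exact_mod_cast hn
  set E := ((complete n).card : ℝ) with hE
  have hE4 : (n : ℝ) ^ 2 / 4 ≤ E := by
    rw [hE, complete, card_powersetCard, card_univ, Fintype.card_fin, Nat.cast_choose_two]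
    linarith [mul_le_mul_of_nonneg_right hn' (show (0 : ℝ) ≤ n by linarith)]
  have hE0 : 0 < E := lt_of_lt_of_le (by positivity) hE4
  have h2 : ∀ e ∈ complete n, e.card = 2 := fun e he => (mem_powersetCard.1 he).2
  have hP : ∀ j, psiSum (level j) (complete n) ≤ 32 * E := fun j => by
    have hl := (level_bounds j).1
    refine (sum_le_card_nsmul _ _ (8 * (n : ℝ)) fun v _ =>
      psiAt_complete n v (by linarith)).trans ?_
    rw [card_univ, Fintype.card_fin, nsmul_eq_mul]
    linarith
  rw [pot2, div_le_iff₀ hE0]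
  refine (havg (Fin n) (complete n) h2).trans ?_
  rw [add_mul]
  refine add_le_add ?_ le_rfl
  have : ∑ j ∈ range (depth (Fintype.card (Fin n)) + 1),
      (19 / 20 : ℝ) ^ j * psiSum (level (j + 1)) (complete n) ≤ 20 * (32 * E) := by
    calc _ ≤ ∑ j ∈ range (depth (Fintype.card (Fin n)) + 1), (19 / 20 : ℝ) ^ j * (32 * E) :=
          sum_le_sum fun j _ => mul_le_mul_of_nonneg_left (hP _) (by positivity)
      _ ≤ _ := by
        rw [← sum_mul]
        refine mul_le_mul_of_nonneg_right ?_ (by positivity)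
        exact (geom_le (by norm_num) (by norm_num) _).trans (by norm_num)
  linarith

theorem pot_step : PotStep := potStep_of avg_step thin_bound

theorem pot_init : PotInit := potInit_of thin_bound

end Vale.Agent.P046.Gap
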