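import Vale.Agent.P046.Gap.MarginCore
import Vale.Agent.P046.Track.Basic

/-!
P046, exact order: the Lyapunov function is controlled by its dissipation and the defect of the
link forms, tested on the clipped deviations.
-/

namespace Vale.Agent.P046.Gap

open Finset Vale.Agent.P046.Track

variable {V : Type} [Fintype V] [DecidableEq V] {A : Finset (Finset V)}

/-- The clipped deviation. -/
noncomputable def clip (A : Finset (Finset V)) (e : Finset V) : ℝ := min 4 (dev A e)

theorem clip_bounds (A : Finset (Finset V)) (e : Finset V) : -4 ≤ clip A e ∧ clip A e ≤ 4 :=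
  ⟨le_min (by norm_num) (by linarith [dev_ge' A e]), min_le_left _ _⟩

omit [Fintype V] in
theorem pairs_three {a b c : V} (hab : a ≠ b) (hac : a ≠ c) (hbc : b ≠ c) :
    pairs ({a, b, c} : Finset V) = {{a, b}, {a, c}, {b, c}} := by
  refine (eq_of_subset_of_card_le ?_ ?_).symm
  · intro e he
    simp only [mem_insert, mem_singleton] at he
    rcases he with rfl | rfl | rfl <;>
      · rw [pairs, mem_powersetCard]
        exact ⟨by simp [insert_subset_iff], card_pair (by assumption)⟩
  · have h1 : ({a, b} : Finset V) ≠ {a, c} := by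
      intro h
      have : b ∈ ({a, c} : Finset V) := h ▸ by simp
      simp [hab.symm, hbc] at this
    have h2 : ({a, b} : Finset V) ≠ {b, c} := by
      intro h
      have : a ∈ ({b, c} : Finset V) := h ▸ by simp
      simp [hab, hac] at this
    have h3 : ({a, c} : Finset V) ≠ {b, c} := by
      intro h
      have : a ∈ ({b, c} : Finset V) := h ▸ by simp
      simp [hab, hac] at this
    simp [pairs, hab, hac, hbc, h1, h2, h3]

omit [Fintype V] in
/-- The link forms tested on a function of the edges, triangle by triangle. -/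
theorem phi_sum (τ : ℝ) (f : Finset V → ℝ) {s : Finset V} (hs : s.card = 3) :
    ∑ v ∈ s, phi τ (fun u => f {v, u}) v s
      = 2 * τ * ∑ e ∈ pairs s, f e ^ 2
        + ((∑ e ∈ pairs s, f e) ^ 2 - ∑ e ∈ pairs s, f e ^ 2) / 2 := by
  obtain ⟨a, b, c, hab, hac, hbc, rfl⟩ := card_eq_three.1 hs
  have h1 : ({a, b} : Finset V) ≠ {a, c} := by
    intro h
    have : b ∈ ({a, c} : Finset V) := h ▸ by simp
    simp [hab.symm, hbc] at this
  have h2 : ({a, b} : Finset V) ≠ {b, c} := by
    intro h
    have : a ∈ ({b, c} : Finset V) := h ▸ by simp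
    simp [hab, hac] at this
  have h3 : ({a, c} : Finset V) ≠ {b, c} := by
    intro h
    have : a ∈ ({b, c} : Finset V) := h ▸ by simp
    simp [hab, hac] at this
  have ea : ({a, b, c} : Finset V).erase a = {b, c} := by
    rw [erase_insert]; simp [hab, hac]
  have eb : ({a, b, c} : Finset V).erase b = {a, c} := by
    rw [insert_comm, erase_insert]; simp [hab.symm, hbc]
  have ec : ({a, b, c} : Finset V).erase c = {a, b} := by
    rw [show ({a, b, c} : Finset V) = {c, a, b} by
      ext x; simp only [mem_insert, mem_singleton]; tauto, erase_insert]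
    simp [hac.symm, hbc.symm]
  simp only [pairs_three hab hac hbc, phi]
  rw [sum_insert (by simp [hab, hac]), sum_pair hbc, ea, eb, ec]
  simp only [sum_pair hbc, sum_pair hac, sum_pair hab, pair_comm b a, pair_comm c a, pair_comm c b,
    sum_insert (show ({a, b} : Finset V) ∉ ({{a, c}, {b, c}} : Finset (Finset V)) by simp [h1, h2]),
    sum_pair h3]
  ring

/-- The clipped deviations are controlled by the defect and the triangle dissipation. -/
theorem clip_sum_le (A : Finset (Finset V)) :
    ∑ e ∈ A, (codeg A e : ℝ) * clip A e ^ 2 ≤ 10 * psiSum (1 / 5) A + 60 * usq A := by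
  have h1 : -∑ s ∈ tri A, ∑ v ∈ s, phi (1 / 5) (fun u => clip A {v, u}) v s
      ≤ psiSum (1 / 5) A := by
    have e : ∑ s ∈ tri A, ∑ v ∈ s, phi (1 / 5) (fun u => clip A {v, u}) v s
        = ∑ v, ∑ s ∈ triAt A v, phi (1 / 5) (fun u => clip A {v, u}) v s :=
      sum_comm' (fun s v => by simp [triAt, and_comm])
    rw [e, ← sum_neg_distrib, psiSum]
    exact sum_le_sum fun v _ => qAt_le_psiAt (1 / 5) A v
      ⟨fun u => (clip_bounds A _).1, fun u => (clip_bounds A _).2⟩
  rw [sum_congr rfl fun s hs => phi_sum (1 / 5) (clip A) (tri_card hs)] at h1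
  have h2 : ∀ s ∈ tri A, (∑ e ∈ pairs s, clip A e) ^ 2 ≤ 12 * hU (usum A s) := by
    intro s hs
    obtain ⟨a, b, d, hab, had, hbd, he⟩ := card_eq_three.1 (pairs_card hs)
    have es : ∀ F : Finset V → ℝ, ∑ e ∈ ({a, b, d} : Finset (Finset V)), F e = F a + F b + F d :=
      fun F => by simp [hab, had, hbd]; ring
    simp only [usum, he, es]
    have ha := dev_ge' A a
    have hb := dev_ge' A b
    have hd := dev_ge' A d
    have la : clip A a ≤ dev A a := min_le_right _ _
    have lb : clip A b ≤ dev A b := min_le_right _ _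
    have ld : clip A d ≤ dev A d := min_le_right _ _
    have ga : -1 ≤ clip A a := le_min (by norm_num) ha
    have gb : -1 ≤ clip A b := le_min (by norm_num) hb
    have gd : -1 ≤ clip A d := le_min (by norm_num) hd
    have hup : |clip A a + clip A b + clip A d| ≤ 12 := by
      rw [abs_le]
      constructor <;> linarith [(clip_bounds A a).2, (clip_bounds A b).2, (clip_bounds A d).2]
    have habs : |clip A a + clip A b + clip A d| ≤ |dev A a + dev A b + dev A d| := by
      by_cases hbig : dev A a ≤ 4 ∧ dev A b ≤ 4 ∧ dev A d ≤ 4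
      · simp [clip, hbig.1, hbig.2.1, hbig.2.2]
      · have h4 : clip A a = 4 ∨ clip A b = 4 ∨ clip A d = 4 := by
          simp only [not_and_or, not_le] at hbig
          rcases hbig with h | h | h
          · exact Or.inl (min_eq_left h.le)
          · exact Or.inr (Or.inl (min_eq_left h.le))
          · exact Or.inr (Or.inr (min_eq_left h.le))
        have h0 : 0 ≤ clip A a + clip A b + clip A d := by
          rcases h4 with h | h | h <;> linarith
        rw [abs_of_nonneg h0]
        exact (by linarith : _ ≤ dev A a + dev A b + dev A d).trans (le_abs_self _)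
    rw [← sq_abs, hU, mul_min_of_nonneg _ _ (by norm_num : (0 : ℝ) ≤ 12), le_min_iff]
    constructor
    · have := pow_le_pow_left₀ (abs_nonneg _) habs 2
      rw [sq_abs (dev A a + dev A b + dev A d)] at this
      linarith [sq_nonneg (dev A a + dev A b + dev A d)]
    · rw [sq]
      exact mul_le_mul hup habs (abs_nonneg _) (by norm_num)
  have h3 := sum_le_sum h2
  rw [← mul_sum, ← usq] at h3
  have h4 : ∑ s ∈ tri A, ∑ e ∈ pairs s, clip A e ^ 2 = ∑ e ∈ A, (codeg A e : ℝ) * clip A e ^ 2 :=
    sum_tri_pairs A fun e => clip A e ^ 2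
  simp only [sum_add_distrib, ← mul_sum, ← sum_div, sum_sub_distrib, h4] at h1
  linarith

/-- The edges far above the prediction are controlled by the triangle dissipation. -/
theorem high_sum_le (A : Finset (Finset V)) :
    ∑ e ∈ A, (codeg A e : ℝ) * (if 4 < dev A e then dev A e else 0) ≤ 6 * usq A := by
  rw [← sum_tri_pairs A fun e => if 4 < dev A e then dev A e else 0, usq, mul_sum]
  refine sum_le_sum fun s hs => ?_
  have hpt : ∀ e ∈ pairs s, (if 4 < dev A e then dev A e else 0) ≤ 2 * hU (usum A s) := by
    intro e he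
    split_ifs with h
    · have : usum A s = dev A e + ∑ f ∈ (pairs s).erase e, dev A f :=
        (add_sum_erase _ _ he).symm
      have hr : -2 ≤ ∑ f ∈ (pairs s).erase e, dev A f := by
        refine le_trans (le_of_eq ?_) (sum_le_sum fun f _ => dev_ge' A f)
        rw [sum_const, card_erase_of_mem he, pairs_card hs]
        norm_num
      rw [hU, min_eq_right, abs_of_nonneg (by linarith)]
      · linarith
      · rw [abs_of_nonneg (by linarith)]; nlinarith
    · linarith [hU_nonneg (usum A s)]
  refine (sum_le_sum hpt).trans (le_of_eq ?_)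
  rw [sum_const, pairs_card hs, nsmul_eq_mul]
  norm_num
  ring

theorem psi_le_sq {y : ℝ} (_hy : -1 ≤ y) : psi y ≤ 16 * y ^ 2 := by
  rcases regime y with h | ⟨h1, h2⟩ | h
  · rw [(psi_of_nonneg h).1]
    have hp : y ^ 2 / (1 + y) ≤ y := by rw [div_le_iff₀ (by linarith)]; nlinarith
    have hp0 : 0 ≤ y ^ 2 / (1 + y) := by positivity
    have hp2 : y ^ 2 / (1 + y) ≤ y ^ 2 := div_le_self (sq_nonneg y) (by linarith)
    nlinarith [pow_le_pow_left₀ hp0 hp 2]
  · have := psi_small (y := y) (by rw [abs_le]; constructor <;> linarith)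
    linarith [sq_nonneg y]
  · rw [(psi_of_low h).1]
    nlinarith

/-- **The Lyapunov function is controlled by its dissipation and the defect.** -/
theorem gapRel : GapRel := by
  refine ⟨1500, by norm_num, ?_⟩
  intro V _ _ A h2 hE100 hD1 herr
  have hA := onTrack_of_err h2 hE100 hD1 herr
  have hD := hA.dd_pos
  have hE := hA.card_pos
  have hlow : dd A * ((lowEdges A).card : ℝ)
      = ∑ e ∈ A, if dev A e ≤ -(1 / 4) then dd A else 0 := by
    rw [← sum_filter, lowEdges, sum_const, nsmul_eq_mul, mul_comm]
  have hpt : ∀ e ∈ A, dd A * psi (dev A e) ≤ 16 * (if dev A e ≤ -(1 / 4) then dd A else 0)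
      + 22 * ((codeg A e : ℝ) * clip A e ^ 2)
      + 16 * ((codeg A e : ℝ) * (if 4 < dev A e then dev A e else 0)) := by
    intro e _
    have hy := dev_ge' A e
    have hp := mul_le_mul_of_nonneg_left (psi_le_sq hy) hD.le
    have hc := hA.codeg_eq e
    have hc0 : (0 : ℝ) ≤ codeg A e := Nat.cast_nonneg _
    have hcl : 0 ≤ (codeg A e : ℝ) * clip A e ^ 2 := mul_nonneg hc0 (sq_nonneg _)
    rcases le_or_gt (dev A e) (-(1 / 4)) with h | h
    · rw [if_pos h, if_neg (by linarith)]
      have h1 : dev A e ^ 2 ≤ 1 := by nlinarith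
      have := mul_le_mul_of_nonneg_left h1 hD.le
      linarith
    · rw [if_neg (not_le.2 h)]
      rcases le_or_gt (dev A e) 4 with g | g
      · rw [if_neg (not_lt.2 g), clip, min_eq_right g, hc]
        nlinarith [mul_nonneg (mul_nonneg hD.le (sub_nonneg.2 h.le)) (sq_nonneg (dev A e))]
      · rw [if_pos g, hc]
        rw [hc] at hcl
        nlinarith
  have hsum := sum_le_sum hpt
  simp only [sum_add_distrib, ← mul_sum, ← hlow] at hsum
  rw [← mass] at hsum
  have h1 := clip_sum_le A
  have h2' := high_sum_le A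
  have hu : 0 ≤ usq A := sum_nonneg fun _ _ => hU_nonneg _
  have hp := psiSum_nonneg (1 / 5) A
  have hm : dd A * mass A / A.card
      ≤ 1500 * ((usq A + dd A * (lowEdges A).card) / A.card + psiSum (1 / 5) A / A.card) := by
    rw [← add_div, mul_div_assoc']
    refine div_le_div_of_nonneg_right ?_ hE.le
    linarith [mul_nonneg hD.le (Nat.cast_nonneg (lowEdges A).card : (0 : ℝ) ≤ _)]
  rw [lyap, err, diss]
  linarith [show dd A * (mass A / A.card) = dd A * mass A / A.card by ring,
    mul_nonneg hD.le (sq_nonneg (tw A))]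

end Vale.Agent.P046.Gap
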