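import Vale.Agent.P046.Gap.Collapse
import Vale.Agent.P046.Gap.Damped
import Vale.Agent.P046.Track.Lower
import Vale.Agent.P046.Track.Sparse

/-!
P046, exact order: the lower half, from the drift of the full Lyapunov function.
-/

namespace Vale.Agent.P046.Gap

open Finset Vale.Agent.P046.Track

section General

variable {V : Type} [Fintype V] [DecidableEq V]

/-- On track the heavy edges are paid by the quadratic tail of the weight. -/
theorem heavySum_le {A : Finset (Finset V)} {M : ℕ} (hD : 16 ≤ dd A) (herr : err A ≤ 1 / 64)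
    (hM : 2 * dd A ≤ M) : heavySum M A * (M : ℝ) ≤ 2500 * dd A ^ 2 * A.card := by
  have hE : (0 : ℝ) < A.card := by
    by_contra hc
    have : (A.card : ℝ) = 0 := le_antisymm (not_lt.1 hc) (Nat.cast_nonneg _)
    rw [dd, this] at hD; norm_num at hD
  set D := dd A with hDdef
  have hmass : mass A ≤ (A.card : ℝ) / 64 := by
    have h := herr
    have h2 : 0 ≤ 5 * tw A ^ 2 := by positivity
    rw [err] at h
    have h3 : mass A / (A.card : ℝ) ≤ 1 / 64 := by linarith
    rw [div_le_iff₀ hE] at h3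
    linarith
  have hpt : ∀ e ∈ heavyEdges M A,
      (codeg A e : ℝ) * M ≤ 160000 * D ^ 2 * psi (dev A e) := by
    intro e he
    have hc : (M : ℝ) ≤ (codeg A e : ℝ) := by exact_mod_cast (mem_filter.1 he).2.le
    have hy : (codeg A e : ℝ) = D * (1 + dev A e) := by
      rw [dev, ← hDdef]
      have : D ≠ 0 := by linarith
      field_simp; ring
    have hy1 : 1 ≤ dev A e := by
      by_contra hlt
      nlinarith [mul_lt_mul_of_pos_left (not_le.1 hlt) (show 0 < D by linarith)]
    have h1 : (codeg A e : ℝ) ≤ 2 * D * dev A e := by rw [hy]; nlinarith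
    have h2 : (codeg A e : ℝ) * M ≤ (2 * D * dev A e) * (2 * D * dev A e) :=
      mul_le_mul h1 (hc.trans h1) (Nat.cast_nonneg _) ((Nat.cast_nonneg _).trans h1)
    have h3 := sq_le_psi (show -1 ≤ dev A e by linarith)
    have h4 := mul_le_mul_of_nonneg_left h3 (show 0 ≤ 4 * D ^ 2 by positivity)
    linarith
  rw [heavySum, sum_mul]
  refine (sum_le_sum hpt).trans ?_
  rw [← mul_sum]
  have h5 : ∑ e ∈ heavyEdges M A, psi (dev A e) ≤ mass A :=
    sum_le_sum_of_subset_of_nonneg (filter_subset _ _) fun e _ _ => psi_nonneg _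
  have h6 := mul_le_mul_of_nonneg_left (h5.trans hmass)
    (show 0 ≤ 160000 * D ^ 2 by positivity)
  linarith

/-- A codegree on track is at most of order `D √E`. -/
theorem codeg_le_track {A : Finset (Finset V)} {D E₁ : ℝ} (hD : 16 ≤ dd A) (hDle : dd A ≤ D)
    (herr : err A ≤ 1 / 64) (hE₁ : (A.card : ℝ) ≤ E₁) (e : Finset V) :
    (codeg A e : ℝ) ≤ D * (1 + 25 * Real.sqrt E₁) := by
  have hs := Real.sqrt_nonneg E₁
  have hD0 : 0 ≤ D := by linarith
  by_cases he : e ∈ A
  · have hE : (0 : ℝ) < A.card := by exact_mod_cast card_pos.2 ⟨e, he⟩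
    have hy := sq_le_psi (dev_ge A e)
    have h1 : psi (dev A e) ≤ mass A :=
      single_le_sum (f := fun e => psi (dev A e)) (fun f _ => psi_nonneg _) he
    have h2 : mass A ≤ E₁ / 64 := by
      have h := herr
      have h2 : 0 ≤ 5 * tw A ^ 2 := by positivity
      rw [err] at h
      have h3 : mass A / (A.card : ℝ) ≤ 1 / 64 := by linarith
      rw [div_le_iff₀ hE] at h3
      linarith
    have h4 : |dev A e| ≤ 25 * Real.sqrt E₁ := by
      refine (pow_le_pow_iff_left₀ (abs_nonneg _) (by positivity) two_ne_zero).1 ?_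
      rw [sq_abs, mul_pow, Real.sq_sqrt (le_trans hE.le hE₁)]
      linarith
    have h5 : (codeg A e : ℝ) = dd A * (1 + dev A e) := by
      rw [dev]
      have : dd A ≠ 0 := by linarith
      field_simp; ring
    rw [h5]
    refine mul_le_mul hDle ?_ ?_ hD0
    · linarith [le_abs_self (dev A e)]
    · linarith [dev_ge A e]
  · have : codeg A e = 0 := by
      rw [codeg, card_eq_zero, filter_eq_empty_iff]
      exact fun s hs hes => he (tri_sub hs hes)
    rw [this, Nat.cast_zero]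
    positivity

/-- The second stage from a state on track. -/
theorem second_stage' {A : Finset (Finset V)} {M : ℕ} {L Λ : ℝ}
    (h2 : ∀ e ∈ A, e.card = 2) (hV : 0 < (Fintype.card V : ℝ))
    (hΛ : 2 ≤ Λ) (hL : L = Λ * Real.sqrt ((Fintype.card V : ℝ) ^ 3)) (hL1 : 1 ≤ L)
    (hA : L < A.card) (hA2 : (A.card : ℝ) ≤ 2 * L) (herr : err A ≤ 1 / 64)
    (hM : 720000 * (16 * Λ ^ 2) ^ 3 ≤ (M : ℝ)) :
    probLT (Real.sqrt ((Fintype.card V : ℝ) ^ 3) / 160 / (1 + 12 / 5 * (M : ℝ))) A
      ≤ 24300 * ((M : ℝ) + 1) ^ 2 * (900 * Λ ^ 2 * Real.sqrt L) * (16 * Λ ^ 2 * L)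
          * 25600 / (Fintype.card V : ℝ) ^ 3 := by
  set N := (Fintype.card V : ℝ) ^ 3 with hN
  have hN0 : 0 < N := by positivity
  have hsN : 0 < Real.sqrt N := Real.sqrt_pos.2 hN0
  have hE : (0 : ℝ) < A.card := by linarith
  have hL2 : L ^ 2 = Λ ^ 2 * N := by rw [hL, mul_pow, Real.sq_sqrt hN0.le]
  have hDdef : dd A = 4 * (A.card : ℝ) ^ 2 / N := by rw [dd, ← hN]
  have hD : 16 ≤ dd A := by
    rw [hDdef, le_div_iff₀ hN0]
    have h1 : L ^ 2 ≤ (A.card : ℝ) ^ 2 := pow_le_pow_left₀ (by linarith) hA.le 2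
    have h3 : 4 * N ≤ L ^ 2 := by
      rw [hL2]
      exact mul_le_mul_of_nonneg_right (by nlinarith) hN0.le
    linarith
  have hDle : dd A ≤ 16 * Λ ^ 2 := by
    rw [hDdef, div_le_iff₀ hN0]
    have h1 : (A.card : ℝ) ^ 2 ≤ (2 * L) ^ 2 := pow_le_pow_left₀ hE.le hA2 2
    linarith
  have hΛ4 : 4 ≤ Λ ^ 2 := by nlinarith
  have hM2 : 2 * dd A ≤ (M : ℝ) := by nlinarith [pow_le_pow_left₀ (by linarith) hΛ4 2]
  have hM0 : (0 : ℝ) < M := by linarith
  have hH := heavySum_le hD herr hM2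
  have hnet := netPot_ge A M hD herr
  have hED : (A.card : ℝ) / (20 * Real.sqrt (dd A)) = Real.sqrt N / 40 := by
    rw [hDdef, Real.sqrt_div (by positivity), show 4 * (A.card : ℝ) ^ 2
      = (2 * (A.card : ℝ)) ^ 2 by ring, Real.sqrt_sq (by positivity)]
    field_simp; ring
  have hlow : 2 * (Real.sqrt N / 160) ≤ netPot' M A := by
    have h1 : 36 / 5 * heavySum M A ≤ Real.sqrt N / 80 := by
      have hr : 1 ≤ Real.sqrt (dd A) := Real.one_le_sqrt.2 (by linarith)
      have hr2 : Real.sqrt (dd A) ^ 2 = dd A := Real.sq_sqrt (by linarith)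
      have hrle : Real.sqrt (dd A) ≤ dd A := by nlinarith
      have hEr : (A.card : ℝ) = Real.sqrt N * Real.sqrt (dd A) / 2 := by
        rw [hDdef, Real.sqrt_div (by positivity), show 4 * (A.card : ℝ) ^ 2
          = (2 * (A.card : ℝ)) ^ 2 by ring, Real.sqrt_sq (by positivity)]
        field_simp
      rw [hEr] at hH
      have h3 : dd A ^ 2 * Real.sqrt (dd A) ≤ (16 * Λ ^ 2) ^ 3 := by
        refine (mul_le_mul_of_nonneg_left hrle (sq_nonneg _)).trans ?_
        rw [← pow_succ]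
        exact pow_le_pow_left₀ (by linarith) hDle 3
      have h4 : heavySum M A * M ≤ Real.sqrt N / 576 * M := by
        refine hH.trans ?_
        have h5 := mul_le_mul_of_nonneg_left h3 (show 0 ≤ 1250 * Real.sqrt N by positivity)
        have h6 := mul_le_mul_of_nonneg_left hM (show 0 ≤ Real.sqrt N / 576 by positivity)
        linarith
      have := le_of_mul_le_mul_right h4 hM0
      linarith
    unfold netPot'
    linarith
  set B := ⌈16 * Λ ^ 2 * (1 + 25 * Real.sqrt (2 * L))⌉₊ with hB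
  have hcB : ∀ e, codeg A e ≤ B := fun e => by
    have h := (codeg_le_track hD hDle herr hA2 e).trans (Nat.le_ceil _)
    rw [← hB] at h
    exact_mod_cast h
  have hBle : (B : ℝ) ≤ 900 * Λ ^ 2 * Real.sqrt L := by
    have h := Nat.ceil_lt_add_one (show 0 ≤ 16 * Λ ^ 2 * (1 + 25 * Real.sqrt (2 * L)) by positivity)
    rw [← hB] at h
    have hs1 : 1 ≤ Real.sqrt L := Real.one_le_sqrt.2 hL1
    have hs2 : Real.sqrt (2 * L) ≤ 2 * Real.sqrt L := by
      rw [Real.sqrt_le_left (by positivity), mul_pow, Real.sq_sqrt (by linarith)]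
      linarith
    have h5 := mul_le_mul_of_nonneg_left hs2 (show 0 ≤ 16 * Λ ^ 2 * 25 by positivity)
    have h6 := mul_le_mul_of_nonneg_left hs1 (show 0 ≤ 17 * Λ ^ 2 by positivity)
    linarith
  have hT : ((tri A).card : ℝ) ≤ 16 * Λ ^ 2 * L := by
    have hw : |tw A| ≤ 1 / 2 := by
      have := five_sq_le_err (fun y _ => psi_nonneg y) A
      rw [abs_le]; constructor <;> nlinarith
    have hT := tri_card_le (A := A) (mul_pos hE (by linarith)) hw
    have := mul_le_mul hA2 hDle (by linarith) (by linarith)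
    linarith
  refine (lower_tail' h2 hcB (by positivity) hlow).trans ?_
  rw [div_pow, Real.sq_sqrt hN0.le, div_div_eq_mul_div]
  refine div_le_div_of_nonneg_right ?_ hN0.le
  rw [show (160 : ℝ) ^ 2 = 25600 by norm_num]
  gcongr

/-- Tracking and no collapse, in one supermartingale. -/
theorem lower_general' {ε K c θ : ℝ} (hε : 0 ≤ ε) (hK : 0 ≤ K) (hc : 0 < c) (hc1 : c ≤ 1)
    (hθ : 0 < θ) (hθ' : θ ≤ 1 / 64)
    (hstep : ∀ A : Finset (Finset V),
      (∀ e ∈ A, e.card = 2) → 100 ≤ A.card → 1 ≤ dd A → err A ≤ θ →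
        ∑ t ∈ tri A, full ε (A \ pairs t)
          ≤ (tri A).card * (full ε A * (1 - c / A.card) + K / A.card))
    (A₀ : Finset (Finset V)) (h2 : ∀ e ∈ A₀, e.card = 2) (hV : 0 < (Fintype.card V : ℝ))
    {L Λ : ℝ} {M : ℕ} (hΛ : 2 ≤ Λ) (hL : L = Λ * Real.sqrt ((Fintype.card V : ℝ) ^ 3))
    (hL100 : 100 ≤ L) (hM : 720000 * (16 * Λ ^ 2) ^ 3 ≤ (M : ℝ)) (hA₀ : 2 * L < A₀.card) :
    probLT (Real.sqrt ((Fintype.card V : ℝ) ^ 3) / 160 / (1 + 12 / 5 * (M : ℝ))) A₀
      ≤ 24300 * ((M : ℝ) + 1) ^ 2 * (900 * Λ ^ 2 * Real.sqrt L) * (16 * Λ ^ 2 * L)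
          * 25600 / (Fintype.card V : ℝ) ^ 3
        + (full ε A₀ + 8 * K / (3 * c)) / (4 * Λ ^ 2 * θ) := by
  set N := (Fintype.card V : ℝ) ^ 3 with hN
  have hN0 : 0 < N := by positivity
  have hL0 : 0 < L := by linarith
  have hL2 : L ^ 2 = Λ ^ 2 * N := by rw [hL, mul_pow, Real.sq_sqrt hN0.le]
  have hLN : 4 * L ^ 2 / N = 4 * Λ ^ 2 := by rw [hL2]; field_simp
  have hK' : 0 ≤ 8 * K / (3 * c) := by positivity
  set g : Finset (Finset V) → ℝ := fun X =>
    if (X.card : ℝ) < Real.sqrt N / 160 / (1 + 12 / 5 * (M : ℝ)) then 1 else 0 with hg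
  set ε₂ := 24300 * ((M : ℝ) + 1) ^ 2 * (900 * Λ ^ 2 * Real.sqrt L) * (16 * Λ ^ 2 * L)
          * 25600 / N with hε₂
  have hε₂0 : 0 ≤ ε₂ := by positivity
  let Z : Finset (Finset V) → ℝ := fun A =>
    damp ε (c / 4) (8 * K / (3 * c)) L A / (4 * Λ ^ 2 * θ)
  have hZ0 : ∀ A, 0 ≤ Z A := fun A =>
    div_nonneg (damp_nonneg hε (by linarith) hK' hL0 A) (by positivity)
  have hgood : ∀ A : Finset (Finset V), L < A.card → Z A < 1 → err A ≤ θ := by
    intro A hA hz
    simp only [Z] at hz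
    rw [div_lt_one (by positivity)] at hz
    have h := damp_err (K' := 8 * K / (3 * c)) hε (show 0 ≤ c / 4 by linarith) (by linarith) hK'
      hL0 hA
    rw [← hN, hLN] at h
    by_contra hc'
    nlinarith [mul_lt_mul_of_pos_left (not_le.1 hc') (show 0 < 4 * Λ ^ 2 by positivity)]
  have hp1 : ∀ A, procVal g A ≤ 1 := fun A => probLT_le_one _ A
  have hsecond : ∀ A ⊆ A₀, L < A.card → (A.card : ℝ) ≤ 2 * L → procVal g A ≤ ε₂ + Z A := by
    intro A hsub hA hA2
    rcases le_or_gt 1 (Z A) with hz | hz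
    · linarith [hp1 A]
    · have h := second_stage' (fun e he => h2 e (hsub he)) hV hΛ hL (by linarith) hA hA2
        ((hgood A hA hz).trans hθ') hM
      exact h.trans (le_add_of_nonneg_right (hZ0 A))
  let W : Finset (Finset V) → ℝ := fun A =>
    if (A.card : ℝ) ≤ 2 * L then procVal g A else min 1 (ε₂ + Z A)
  have hW1 : ∀ A, W A ≤ 1 := fun A => by
    simp only [W]; split_ifs
    · exact hp1 A
    · exact min_le_left _ _
  have key : procVal g A₀ ≤ W A₀ := by
    refine procVal_le g W A₀ (fun A _ he => ?_) (fun A hsub hne => ?_)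
    · simp only [W]
      split_ifs with hl
      · rw [procVal_of_empty g he]
      · have h1 : g A ≤ 1 := by simp only [hg]; split_ifs <;> norm_num
        have hA : L < A.card := by linarith [not_le.1 hl]
        have h5 : ¬ err A ≤ θ := by
          have h := five_sq_le_err (fun y _ => psi_nonneg y) A
          rw [show tw A = -1 by simp [tw, he]] at h
          intro h'; linarith
        have hz : 1 ≤ Z A := not_lt.1 fun hz => h5 (hgood A hA hz)
        exact le_min h1 (h1.trans (by linarith))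
    · rcases le_or_gt (A.card : ℝ) (2 * L) with hl | hl
      · simp only [W]
        rw [if_pos hl, procVal_of_ne g hne, mul_div_cancel₀]
        · refine le_of_eq (sum_congr rfl fun t ht => if_pos (le_trans ?_ hl))
          exact_mod_cast card_le_card sdiff_subset
        · exact_mod_cast (card_pos.2 (nonempty_iff_ne_empty.2 hne)).ne'
      · have e : W A = min 1 (ε₂ + Z A) := if_neg (not_le.2 hl)
        rw [e, mul_min_of_nonneg _ _ (Nat.cast_nonneg _), mul_one]
        refine le_min (le_trans (sum_le_sum fun t _ => hW1 _) (by simp)) ?_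
        have hA : L < A.card := by linarith
        rcases le_or_gt 1 (Z A) with hz | hz
        · refine le_trans (sum_le_sum fun t _ => hW1 _) ?_
          rw [sum_const, nsmul_eq_mul, mul_one]
          exact le_mul_of_one_le_right (Nat.cast_nonneg _) (by linarith)
        have hcard : 100 ≤ A.card := by
          have : ((100 : ℕ) : ℝ) ≤ A.card := by push_cast; linarith
          exact_mod_cast this
        have hdd : 1 ≤ dd A := by
          rw [dd, ← hN, le_div_iff₀ hN0]
          have h1 : L ^ 2 ≤ (A.card : ℝ) ^ 2 := pow_le_pow_left₀ hL0.le hA.le 2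
          have h3 : 1 * N ≤ Λ ^ 2 * N := mul_le_mul_of_nonneg_right (by nlinarith) hN0.le
          linarith
        have hd := damp_drift hε hK hc hc1 hL0 hA hcard
          (hstep A (fun e he => h2 e (hsub he)) hcard hdd (hgood A hA hz))
        have hch : ∀ t ∈ tri A, W (A \ pairs t) ≤ ε₂ + Z (A \ pairs t) := by
          intro t ht
          simp only [W]
          split_ifs with hl'
          · refine hsecond _ (sdiff_subset.trans hsub) ?_ hl'
            rw [card_sdiff_pairs ht, Nat.cast_sub (by omega)]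
            push_cast; linarith
          · exact min_le_right _ _
        refine (sum_le_sum hch).trans ?_
        rw [sum_add_distrib, sum_const, nsmul_eq_mul, mul_add]
        refine add_le_add le_rfl ?_
        simp only [Z]
        rw [← sum_div, mul_div_assoc']
        gcongr
  refine key.trans ?_
  simp only [W]
  rw [if_neg (not_le.2 hA₀)]
  refine (min_le_right _ _).trans (add_le_add le_rfl ?_)
  simp only [Z]
  gcongr
  exact damp_le hε (by linarith) hK' hL0 A₀

end General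

theorem complete_sqrt {n : ℕ} :
    Real.sqrt ((Fintype.card (Fin n) : ℝ) ^ 3) = (n : ℝ) ^ ((3 : ℝ) / 2) := by
  rw [Fintype.card_fin, Real.sqrt_eq_rpow, ← Real.rpow_natCast (n : ℝ) 3,
    ← Real.rpow_mul (Nat.cast_nonneg n)]
  norm_num

/-- The leave is of order at least `n ^ (3/2)` with high probability. -/
theorem lower_prob (hstep : OrderStep) (hinit : PotInit) {η : ℝ} (hη : 0 < η) :
    ∃ c : ℝ, 0 < c ∧ ∃ n₀ : ℕ, ∀ n : ℕ, n₀ ≤ n →
      probLT (c * (n : ℝ) ^ ((3 : ℝ) / 2)) (complete n) ≤ η := by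
  obtain ⟨ε, K, c, θ, hε, hK, hc, hc1, hθ, hθ', hs⟩ := hstep
  obtain ⟨C₀, hC₀⟩ := hinit
  set G := max 0 (2 + ε * C₀ + 8 * K / (3 * c)) with hG
  set Λ := Real.sqrt (G / (2 * θ * η)) + 2 with hΛdef
  have hr := Real.sqrt_nonneg (G / (2 * θ * η))
  have hΛ : 2 ≤ Λ := by linarith
  have hΛG : G ≤ 2 * θ * η * Λ ^ 2 := by
    have h0 : 0 ≤ G / (2 * θ * η) := div_nonneg (le_max_left _ _) (by positivity)
    have h1 := Real.mul_self_sqrt h0
    have h2 : G / (2 * θ * η) ≤ Λ ^ 2 := by rw [hΛdef]; nlinarith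
    rw [div_le_iff₀ (by positivity)] at h2
    linarith
  set M := ⌈720000 * (16 * Λ ^ 2) ^ 3⌉₊ with hMdef
  have hM : 720000 * (16 * Λ ^ 2) ^ 3 ≤ (M : ℝ) := Nat.le_ceil _
  set c₀ := 1 / 160 / (1 + 12 / 5 * (M : ℝ)) with hc₀
  set C₂ := 24300 * ((M : ℝ) + 1) ^ 2 * (900 * Λ ^ 2) * (16 * Λ ^ 2) * 25600 * (Λ * Real.sqrt Λ)
    with hC₂
  refine ⟨c₀, by rw [hc₀]; positivity,
    max 100 (max ⌈(2 * C₂ / η) ^ 2⌉₊ ⌈64 * Λ ^ 2⌉₊), fun n hn => ?_⟩
  simp only [max_le_iff, Nat.ceil_le] at hn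
  obtain ⟨hn1, hn2, hn3⟩ := hn
  have hn' : (100 : ℝ) ≤ n := by exact_mod_cast hn1
  set s := (n : ℝ) ^ ((3 : ℝ) / 2) with hs'
  have hsn : (n : ℝ) ≤ s := Real.self_le_rpow_of_one_le (by linarith) (by norm_num)
  have hs0 : 0 < s := by linarith
  have hs2 : s ^ 2 = (n : ℝ) ^ 3 := by
    rw [hs', ← Real.rpow_natCast ((n : ℝ) ^ ((3 : ℝ) / 2)) 2, ← Real.rpow_mul (by linarith),
      show (3 : ℝ) / 2 * ((2 : ℕ) : ℝ) = ((3 : ℕ) : ℝ) by norm_num, Real.rpow_natCast]
  have hcard : 2 * (Λ * s) < ((complete n).card : ℝ) := by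
    have h1 : (8 * Λ * s) ^ 2 ≤ ((n : ℝ) ^ 2) ^ 2 := by
      rw [mul_pow, hs2]
      have := mul_le_mul_of_nonneg_right hn3 (show 0 ≤ (n : ℝ) ^ 3 by positivity)
      linarith
    have h2 : 8 * Λ * s ≤ (n : ℝ) ^ 2 :=
      (pow_le_pow_iff_left₀ (by positivity) (by positivity) two_ne_zero).1 h1
    rw [Track.complete_card]
    nlinarith
  have hfull : full ε (complete n) + 8 * K / (3 * c) ≤ G := by
    have h1 := lyap_complete (fun y h => psi_small h) (n := n) (by omega)
    have h2 := mul_le_mul_of_nonneg_left (hC₀ n (by omega)) hε.le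
    refine le_trans ?_ (le_max_right _ _)
    unfold full
    linarith
  have h := lower_general' hε.le hK hc hc1 hθ hθ' (hs (Fin n)) (complete n)
    (fun e he => (mem_powersetCard.1 he).2) (by rw [Fintype.card_fin]; linarith)
    (L := Λ * s) hΛ (by rw [complete_sqrt]) (by nlinarith) hM hcard
  rw [complete_sqrt] at h
  rw [show c₀ * s = s / 160 / (1 + 12 / 5 * (M : ℝ)) by rw [hc₀]; ring]
  refine h.trans ?_
  have h2 : (full ε (complete n) + 8 * K / (3 * c)) / (4 * Λ ^ 2 * θ) ≤ η / 2 := by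
    rw [div_le_iff₀ (by positivity)]
    linarith
  have hss : Real.sqrt s ^ 2 = s := Real.sq_sqrt hs0.le
  have h1 : 24300 * ((M : ℝ) + 1) ^ 2 * (900 * Λ ^ 2 * Real.sqrt (Λ * s))
      * (16 * Λ ^ 2 * (Λ * s)) * 25600 / (Fintype.card (Fin n) : ℝ) ^ 3 ≤ η / 2 := by
    rw [Fintype.card_fin, ← hs2, Real.sqrt_mul (by linarith), div_le_iff₀ (by positivity),
      show 24300 * ((M : ℝ) + 1) ^ 2 * (900 * Λ ^ 2 * (Real.sqrt Λ * Real.sqrt s))
        * (16 * Λ ^ 2 * (Λ * s)) * 25600 = C₂ * (s * Real.sqrt s) by rw [hC₂]; ring,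
      show η / 2 * s ^ 2 = η / 2 * Real.sqrt s * (s * Real.sqrt s) by
        linear_combination (-(η / 2) * s) * hss]
    refine mul_le_mul_of_nonneg_right ?_ (by positivity)
    have h3 : 2 * C₂ / η ≤ Real.sqrt s := Real.le_sqrt_of_sq_le (hn2.trans hsn)
    rw [div_le_iff₀ hη] at h3
    linarith
  linarith

/-- The lower half of the order conjecture. -/
theorem order_lower (hstep : OrderStep) (hinit : PotInit) : OrderLower := by
  refine ⟨?_, fun η hη => lower_prob hstep hinit hη⟩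
  obtain ⟨c, hc, n₀, h⟩ := lower_prob hstep hinit (show (0 : ℝ) < 1 / 2 by norm_num)
  refine ⟨c / 2, by linarith, n₀, fun n hn => ?_⟩
  set T := c * (n : ℝ) ^ ((3 : ℝ) / 2) with hT
  have hT0 : 0 ≤ T := by positivity
  refine le_trans ?_ (expLeave_ge T (complete n))
  refine le_trans (le_of_eq ?_) (mul_le_mul_of_nonneg_left
    (show (1 : ℝ) / 2 ≤ 1 - probLT T (complete n) by linarith [h n hn]) hT0)
  rw [hT]; ring

end Vale.Agent.P046.Gap
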