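import Vale.Agent.P046.Gap.Pot
import Vale.Agent.P046.Gap.Margin
import Vale.Agent.P046.Gap.Rel
import Vale.Agent.P046.Gap.Assemble
import Vale.Agent.P046.Gap.Upper
import Vale.Agent.P046.Gap.Lower

/-!
P046: the leave of random triangle removal has order n^(3/2).
-/

namespace Vale.Agent.P046.Gap

/-- The contraction of the full Lyapunov function. -/
theorem order_step : OrderStep := order_step_of lyapMargin gapRel pot_step

/-- The exact order of the leave. -/
theorem leave_order : OrderUpper ∧ OrderLower :=
  ⟨order_upper order_step pot_init, order_lower order_step pot_init⟩

end Vale.Agent.P046.Gap
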