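import Vale.Agent.P046.Gap.Defs

/-!
P046, exact order: the change of the link defect when one edge is removed.
-/

namespace Vale.Agent.P046.Gap

open Finset Vale.Agent.P046.Track

variable {V : Type} [Fintype V] [DecidableEq V] {τ : ℝ} {A B : Finset (Finset V)}

/-- The form of a triangle at the maximisers of its three vertices. -/
noncomputable def phiOpt (τ : ℝ) (B : Finset (Finset V)) (s : Finset V) : ℝ :=
  ∑ v ∈ s, phi τ (zOpt τ B v) v s

/-- The squares of the maximisers on a triangle. -/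
noncomputable def sqOpt (τ : ℝ) (B : Finset (Finset V)) (s : Finset V) : ℝ :=
  ∑ v ∈ s, ∑ u ∈ s.erase v, zOpt τ B v u ^ 2

/-- The squares of the maximisers on all triangles. -/
noncomputable def sqSum (τ : ℝ) (B : Finset (Finset V)) : ℝ := ∑ s ∈ tri B, sqOpt τ B s

/-- The increase of the defect when the edge `e` is removed. -/
noncomputable def delta (τ : ℝ) (B : Finset (Finset V)) (e : Finset V) : ℝ :=
  psiSum τ (B.erase e) - psiSum τ B

/-- The triangles through an edge. -/
def triEdge (B : Finset (Finset V)) (e : Finset V) : Finset (Finset V) :=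
  (tri B).filter fun s => e ∈ pairs s

/-- The first-order increase of the defect when the edge `e` is removed. -/
noncomputable def lin (τ : ℝ) (B : Finset (Finset V)) (e : Finset V) : ℝ :=
  ∑ s ∈ triEdge B e, phiOpt τ B s

theorem tri_mono (h : B ⊆ A) : tri B ⊆ tri A := fun s hs => by
  simp only [tri, mem_filter] at hs ⊢
  exact ⟨hs.1, hs.2.trans h⟩

theorem qAt_eq_sum_ite (τ : ℝ) (B : Finset (Finset V)) (v : V) (z : V → ℝ) :
    qAt τ B v z = -∑ s ∈ tri B, if v ∈ s then phi τ z v s else 0 := by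
  rw [qAt, triAt, sum_filter]

theorem sum_vertex (τ : ℝ) (S : Finset (Finset V)) (z : V → V → ℝ) :
    ∑ v, ∑ s ∈ S, (if v ∈ s then phi τ (z v) v s else 0) = ∑ s ∈ S, ∑ v ∈ s, phi τ (z v) v s := by
  rw [sum_comm]
  exact sum_congr rfl fun s _ => by rw [← sum_filter, filter_univ_mem]

theorem sum_qAt (τ : ℝ) (B : Finset (Finset V)) (z : V → V → ℝ) :
    ∑ v, qAt τ B v (z v) = -∑ s ∈ tri B, ∑ v ∈ s, phi τ (z v) v s := by
  simp only [qAt_eq_sum_ite, sum_neg_distrib, sum_vertex]

theorem psiSum_eq (τ : ℝ) (B : Finset (Finset V)) :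
    psiSum τ B = -∑ s ∈ tri B, phiOpt τ B s :=
  sum_qAt τ B (zOpt τ B)

/-- Any choice of weights bounds the defect from below. -/
theorem le_psiSum (τ : ℝ) (B : Finset (Finset V)) {z : V → V → ℝ} (hz : ∀ v, z v ∈ box V) :
    -∑ s ∈ tri B, ∑ v ∈ s, phi τ (z v) v s ≤ psiSum τ B := by
  rw [← sum_qAt]
  exact sum_le_sum fun v _ => qAt_le_psiAt τ B v (hz v)

theorem tri_erase (B : Finset (Finset V)) (e : Finset V) :
    tri (B.erase e) = (tri B).filter fun s => e ∉ pairs s := by
  ext s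
  simp only [tri, mem_filter, subset_erase, and_assoc]

theorem sum_tri_erase (B : Finset (Finset V)) (e : Finset V) (g : Finset V → ℝ) :
    ∑ s ∈ tri (B.erase e), g s = ∑ s ∈ tri B, g s - ∑ s ∈ triEdge B e, g s := by
  rw [tri_erase, triEdge, ← sum_filter_add_sum_filter_not (tri B) (fun s => e ∈ pairs s) g]
  ring

theorem lin_le_delta (τ : ℝ) (B : Finset (Finset V)) (e : Finset V) :
    lin τ B e ≤ delta τ B e := by
  have h := le_psiSum τ (B.erase e) (z := zOpt τ B) (zOpt_mem τ B)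
  have h' : -∑ s ∈ tri (B.erase e), ∑ v ∈ s, phi τ (zOpt τ B v) v s = psiSum τ B + lin τ B e := by
    rw [sum_tri_erase B e fun s => ∑ v ∈ s, phi τ (zOpt τ B v) v s, psiSum_eq]
    simp only [lin, phiOpt]
    ring
  rw [delta]
  linarith

theorem delta_le (τ : ℝ) (B : Finset (Finset V)) (e : Finset V) :
    delta τ B e ≤ ∑ s ∈ triEdge B e, phiOpt τ (B.erase e) s := by
  have h := le_psiSum τ B (z := zOpt τ (B.erase e)) (zOpt_mem τ _)
  have h' := sum_tri_erase B e (phiOpt τ (B.erase e))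
  rw [delta, psiSum_eq τ (B.erase e)]
  simp only [phiOpt] at h' ⊢
  linarith

omit [Fintype V] in
theorem phi_bounds {v : V} {s : Finset V} {z : V → ℝ} (hs : s.card = 3) (hv : v ∈ s)
    (h0 : 0 ≤ τ) (h1 : τ ≤ 1 / 4) (hz : z ∈ box V) :
    |phi τ z v s| ≤ 3 / 4 * ∑ u ∈ s.erase v, z u ^ 2 ∧ ∑ u ∈ s.erase v, z u ^ 2 ≤ 32 := by
  have hc : (s.erase v).card = 2 := by rw [card_erase_of_mem hv, hs]
  obtain ⟨u, w, huw, he⟩ := card_eq_two.1 hc
  simp only [phi, he, sum_pair huw]
  have hu : z u ^ 2 ≤ 16 := by nlinarith [(hz.1 u), (hz.2 u)]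
  have hw : z w ^ 2 ≤ 16 := by nlinarith [(hz.1 w), (hz.2 w)]
  refine ⟨?_, by linarith⟩
  have hq : 0 ≤ z u ^ 2 + z w ^ 2 := by positivity
  have hτ : τ * (z u ^ 2 + z w ^ 2) ≤ 1 / 4 * (z u ^ 2 + z w ^ 2) :=
    mul_le_mul_of_nonneg_right h1 hq
  have hτ0 := mul_nonneg h0 hq
  rw [abs_le]
  constructor <;> nlinarith [sq_nonneg (z u + z w), sq_nonneg (z u - z w)]

theorem phiOpt_bounds {s : Finset V} (hs : s.card = 3) (h0 : 0 ≤ τ) (h1 : τ ≤ 1 / 4)
    (C : Finset (Finset V)) :
    |phiOpt τ C s| ≤ 3 / 4 * sqOpt τ C s ∧ sqOpt τ C s ≤ 96 ∧ 0 ≤ sqOpt τ C s := by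
  have h := fun v (hv : v ∈ s) => phi_bounds hs hv h0 h1 (zOpt_mem τ C v)
  refine ⟨?_, ?_, sum_nonneg fun v _ => sum_nonneg fun u _ => sq_nonneg _⟩
  · rw [sqOpt, mul_sum]
    exact (abs_sum_le_sum_abs _ _).trans (sum_le_sum fun v hv => (h v hv).1)
  · refine (sum_le_card_nsmul _ _ (32 : ℝ) fun v hv => (h v hv).2).trans (le_of_eq ?_)
    rw [hs]; norm_num

theorem abs_sum_triEdge_le (hB : B ⊆ A) (e : Finset V) (h0 : 0 ≤ τ) (h1 : τ ≤ 1 / 4)
    (C : Finset (Finset V)) :
    |∑ s ∈ triEdge B e, phiOpt τ C s| ≤ 72 * (codeg A e : ℝ) := by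
  refine (abs_sum_le_sum_abs _ _).trans ((sum_le_card_nsmul _ _ (72 : ℝ) fun s hs => ?_).trans ?_)
  · obtain ⟨a1, a2, -⟩ := phiOpt_bounds (tri_card (mem_filter.1 hs).1) h0 h1 C
    linarith
  · have hc : (triEdge B e).card ≤ codeg A e :=
      card_le_card (filter_subset_filter _ (tri_mono hB))
    have : ((triEdge B e).card : ℝ) ≤ codeg A e := by exact_mod_cast hc
    rw [nsmul_eq_mul]
    linarith

theorem abs_lin_le (hB : B ⊆ A) (e : Finset V) (h0 : 0 ≤ τ) (h1 : τ ≤ 1 / 4) :
    |lin τ B e| ≤ 72 * (codeg A e : ℝ) :=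
  abs_sum_triEdge_le hB e h0 h1 B

theorem abs_delta_le (hB : B ⊆ A) (e : Finset V) (h0 : 0 ≤ τ) (h1 : τ ≤ 1 / 4) :
    |delta τ B e| ≤ 72 * (codeg A e : ℝ) := by
  have a1 := abs_le.1 (abs_lin_le hB e h0 h1)
  have a2 := abs_le.1 (abs_sum_triEdge_le hB e h0 h1 (B.erase e))
  have a3 := lin_le_delta τ B e
  have a4 := delta_le τ B e
  rw [abs_le]
  constructor <;> linarith [a1.1, a2.2]

theorem sum_triEdge (hB : B ⊆ A) (g : Finset V → ℝ) (h : Finset V → ℝ) :
    ∑ e ∈ A, g e * ∑ s ∈ triEdge B e, h s = ∑ s ∈ tri B, (∑ e ∈ pairs s, g e) * h s := by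
  simp only [mul_sum, sum_mul]
  rw [sum_comm' (t' := tri B) (s' := fun s => pairs s)]
  intro e s
  simp only [triEdge, mem_filter]
  exact ⟨fun h => ⟨h.2.2, h.2.1⟩, fun h => ⟨hB (tri_sub h.2 h.1), h.2, h.1⟩⟩

/-- The edges with deviation above `4` are paid by the dissipation. -/
theorem sum_high_le (A : Finset (Finset V)) :
    ∑ e ∈ A, (if 4 < dev A e then dev A e * (codeg A e : ℝ) else 0) ≤ 6 * usq A := by
  have h : ∀ e ∈ A, (if 4 < dev A e then dev A e * (codeg A e : ℝ) else 0)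
      = (if 4 < dev A e then dev A e else 0) * ∑ _s ∈ triEdge A e, (1 : ℝ) := fun e _ => by
    rw [sum_const, nsmul_eq_mul, mul_one, ite_mul, zero_mul]; rfl
  rw [sum_congr rfl h, sum_triEdge subset_rfl, usq, mul_sum]
  refine sum_le_sum fun s hs => ?_
  rw [mul_one]
  have hc := pairs_card hs
  have key : ∀ e ∈ pairs s, (if 4 < dev A e then dev A e else 0) ≤ 2 * hU (usum A s) := by
    intro e he
    split_ifs with hy
    · have h2 : ((pairs s).erase e).card = 2 := by rw [card_erase_of_mem he, hc]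
      have h3 : dev A e - 2 ≤ usum A s := by
        rw [usum, ← sum_erase_add _ _ he]
        have := card_nsmul_le_sum ((pairs s).erase e) (dev A) (-1) fun f _ => dev_ge A f
        rw [h2] at this
        norm_num at this
        linarith
      have h4 : hU (usum A s) = usum A s := by
        rw [hU, abs_of_nonneg (by linarith), min_eq_right]; nlinarith
      linarith
    · exact mul_nonneg two_pos.le (le_min (sq_nonneg _) (abs_nonneg _))
  refine (sum_le_card_nsmul _ _ _ key).trans (le_of_eq ?_)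
  rw [hc]; norm_num; ring

theorem hU_mul_le {U x p η : ℝ} (hp : |p| ≤ 3 / 4 * x) (hx : x ≤ 96) (hx0 : 0 ≤ x)
    (hη : 0 < η) (hη1 : η ≤ 1) :
    U * p ≤ η * x + 72 / η * hU U := by
  have h1 : U * p ≤ |U| * (3 / 4 * x) :=
    (le_abs_self _).trans (by rw [abs_mul]; exact mul_le_mul_of_nonneg_left hp (abs_nonneg U))
  rcases le_or_gt |U| 1 with hU1 | hU1
  · have hU' : hU U = U ^ 2 := min_eq_left (by nlinarith [sq_abs U, abs_nonneg U])
    refine h1.trans ?_
    rw [hU', ← sub_nonneg]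
    have : η * x + 72 / η * U ^ 2 - |U| * (3 / 4 * x)
        = (x * (η - 3 / 8 * |U|) ^ 2 + (72 - x * (9 / 64)) * |U| ^ 2) / η := by
      rw [sq_abs]; field_simp; rw [← sq_abs U]; ring
    rw [this]
    exact div_nonneg (add_nonneg (mul_nonneg hx0 (sq_nonneg _))
      (mul_nonneg (by linarith) (sq_nonneg _))) hη.le
  · have hU' : hU U = |U| := min_eq_right (by nlinarith [sq_abs U])
    have h2 : 72 ≤ 72 / η := by rw [le_div_iff₀ hη]; linarith
    have h3 := mul_le_mul_of_nonneg_right h2 (abs_nonneg U)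
    have h4 := mul_nonneg hη.le hx0
    rw [hU']
    nlinarith [abs_nonneg U]

theorem sqSum_nonneg (τ : ℝ) (B : Finset (Finset V)) : 0 ≤ sqSum τ B :=
  sum_nonneg fun _ _ => sum_nonneg fun _ _ => sum_nonneg fun _ _ => sq_nonneg _

theorem usq_nonneg (A : Finset (Finset V)) : 0 ≤ usq A :=
  sum_nonneg fun _ _ => le_min (sq_nonneg _) (abs_nonneg _)

/-- Lowering the margin raises the defect by the squares of the maximisers. -/
theorem psiSum_margin (τ d : ℝ) (B : Finset (Finset V)) :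
    psiSum τ B + d * sqSum τ B ≤ psiSum (τ - d) B := by
  refine le_trans (le_of_eq ?_) (le_psiSum (τ - d) B (z := zOpt τ B) (zOpt_mem τ B))
  rw [psiSum_eq, sqSum, mul_sum, neg_add_eq_sub, ← sum_sub_distrib, ← sum_neg_distrib]
  refine sum_congr rfl fun s _ => ?_
  simp only [phiOpt, sqOpt, mul_sum, ← sum_neg_distrib, ← sum_sub_distrib]
  exact sum_congr rfl fun v _ => by simp only [phi, ← mul_sum]; ring

theorem sum_lin (hB : B ⊆ A) : ∑ e ∈ A, lin τ B e = -3 * psiSum τ B := by
  have h := sum_triEdge (g := fun _ => (1 : ℝ)) (h := phiOpt τ B) hB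
  simp only [one_mul] at h
  rw [psiSum_eq, show ∑ e ∈ A, lin τ B e = _ from h, neg_mul_neg, mul_sum]
  exact sum_congr rfl fun s hs => by rw [sum_const, pairs_card hs]; norm_num

/-- The weighted increases along one edge set, in terms of their plain sum. -/
theorem delta_sums (hB : B ⊆ A) (hD : dd A ≠ 0) (h0 : 0 ≤ τ) (h1 : τ ≤ 1 / 4) {η : ℝ}
    (hη : 0 < η) (hη1 : η ≤ 1) :
    ∑ e ∈ A, (codeg A e : ℝ) * delta τ B e
        ≤ dd A * (5 * ∑ e ∈ A, delta τ B e + 12 * psiSum τ B + η * sqSum τ B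
            + (864 + 72 / η) * usq A) ∧
      ∑ e ∈ A, (codeg A e : ℝ) * |delta τ B e|
        ≤ dd A * (5 * ∑ e ∈ A, delta τ B e + 15 * psiSum τ B + 12 * sqSum τ B
            + 2592 * usq A) := by
  have hD0 : 0 ≤ dd A := dd_nonneg A
  have hc : ∀ e, (codeg A e : ℝ) = dd A * (1 + dev A e) := fun e => by
    rw [dev]; field_simp; ring
  have hy : ∀ e, -1 ≤ dev A e := dev_ge A
  set hi := fun e => (if 4 < dev A e then dev A e * (codeg A e : ℝ) else 0) with hhi
  have hsum : ∑ e ∈ A, hi e ≤ 6 * usq A := sum_high_le A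
  have hlin : ∑ e ∈ A, lin τ B e = -3 * psiSum τ B := sum_lin hB
  have hU : ∑ e ∈ A, dev A e * lin τ B e ≤ η * sqSum τ B + 72 / η * usq A := by
    rw [show ∑ e ∈ A, dev A e * lin τ B e = _ from sum_triEdge hB (dev A) (phiOpt τ B),
      sqSum, mul_sum, usq, mul_sum]
    refine le_trans ?_ (add_le_add le_rfl (sum_le_sum_of_subset_of_nonneg (tri_mono hB)
      fun s _ _ => mul_nonneg (by positivity) (le_min (sq_nonneg _) (abs_nonneg _))))
    rw [← sum_add_distrib]
    refine sum_le_sum fun s hs => ?_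
    obtain ⟨a1, a2, a3⟩ := phiOpt_bounds (tri_card hs) h0 h1 B
    exact hU_mul_le a1 a2 a3 hη hη1
  have habs : ∑ e ∈ A, |lin τ B e| ≤ 9 / 4 * sqSum τ B := by
    refine le_trans (sum_le_sum fun e _ => abs_sum_le_sum_abs _ _) ?_
    have h := sum_triEdge (g := fun _ => (1 : ℝ)) (h := fun s => |phiOpt τ B s|) hB
    simp only [one_mul] at h
    rw [h, sqSum, mul_sum]
    refine sum_le_sum fun s hs => ?_
    rw [sum_const, pairs_card hs]
    have := (phiOpt_bounds (tri_card hs) h0 h1 B).1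
    norm_num
    linarith
  have hg : ∀ e, 0 ≤ delta τ B e - lin τ B e := fun e => sub_nonneg.2 (lin_le_delta τ B e)
  have hg' : ∀ e, delta τ B e - lin τ B e ≤ 144 * (codeg A e : ℝ) := fun e => by
    have := abs_le.1 (abs_delta_le hB e h0 h1)
    have := abs_le.1 (abs_lin_le hB e h0 h1)
    linarith
  constructor
  · have key : ∀ e ∈ A, (codeg A e : ℝ) * delta τ B e
        ≤ dd A * (5 * delta τ B e - 4 * lin τ B e + dev A e * lin τ B e + 144 * hi e) := by
      intro e _
      have hk : dev A e * (delta τ B e - lin τ B e)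
          ≤ 4 * (delta τ B e - lin τ B e) + 144 * hi e := by
        simp only [hhi]
        split_ifs with h4
        · have := mul_le_mul_of_nonneg_left (hg' e) (show 0 ≤ dev A e by linarith)
          linarith [hg e]
        · have := mul_le_mul_of_nonneg_right (not_lt.1 h4) (hg e)
          linarith
      rw [hc e, mul_assoc]
      exact mul_le_mul_of_nonneg_left (by linarith) hD0
    refine (sum_le_sum key).trans ?_
    rw [← mul_sum]
    refine mul_le_mul_of_nonneg_left ?_ hD0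
    simp only [sum_add_distrib, sum_sub_distrib, ← mul_sum]
    linarith
  · have key : ∀ e ∈ A, (codeg A e : ℝ) * |delta τ B e|
        ≤ dd A * (5 * |lin τ B e| + 5 * (delta τ B e - lin τ B e) + 432 * hi e) := by
      intro e _
      have ht : |delta τ B e| ≤ |lin τ B e| + (delta τ B e - lin τ B e) := by
        have h := abs_add_le (lin τ B e) (delta τ B e - lin τ B e)
        rwa [add_sub_cancel, abs_of_nonneg (hg e)] at h
      rw [hc e, mul_assoc]
      refine mul_le_mul_of_nonneg_left ?_ hD0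
      refine (mul_le_mul_of_nonneg_left ht (by linarith [hy e])).trans ?_
      simp only [hhi]
      have hx : 0 ≤ |lin τ B e| + (delta τ B e - lin τ B e) := add_nonneg (abs_nonneg _) (hg e)
      split_ifs with h4
      · have h5 := mul_le_mul_of_nonneg_left
          (show |lin τ B e| + (delta τ B e - lin τ B e) ≤ 216 * (codeg A e : ℝ) by
            linarith [abs_lin_le hB e h0 h1, hg' e]) (show 0 ≤ 2 * dev A e by linarith)
        have h6 := mul_le_mul_of_nonneg_right (show 1 + dev A e ≤ 2 * dev A e by linarith) hx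
        linarith [abs_nonneg (lin τ B e), hg e]
      · have h6 := mul_le_mul_of_nonneg_right (show 1 + dev A e ≤ 5 by linarith) hx
        linarith
    refine (sum_le_sum key).trans ?_
    rw [← mul_sum]
    refine mul_le_mul_of_nonneg_left ?_ hD0
    simp only [sum_add_distrib, sum_sub_distrib, ← mul_sum]
    linarith [sqSum_nonneg τ B]

end Vale.Agent.P046.Gap
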