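import Vale.Agent.P046.Gap.ExpectDrift
import Vale.Agent.P046.Gap.Delta
import Vale.Agent.P046.Gap.Thin.Main

/-!
P046, exact order: the drift of the averaged link defect under one removal step.
-/

namespace Vale.Agent.P046.Gap

open Finset Vale.Agent.P046.Track

variable {V : Type} [Fintype V] [DecidableEq V]

/-- An arbitrary numbering of the vertex sets. -/
noncomputable def rank (e : Finset V) : ℕ := Fintype.equivFin (Finset V) e

omit [DecidableEq V] in
theorem rank_injective : Function.Injective (rank : Finset V → ℕ) := fun _ _ h =>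
  (Fintype.equivFin (Finset V)).injective (Fin.ext h)

/-- The edges of `t` removed before `e`. -/
noncomputable def before (t e : Finset V) : Finset (Finset V) :=
  (pairs t).filter fun a => rank a < rank e

/-- The total correlation correction at an edge. -/
noncomputable def corr (r : ℝ) (A : Finset (Finset V)) (e : Finset V)
    (B : Finset (Finset V)) : ℝ :=
  ∑ t ∈ triEdge A e, (∏ a ∈ before t e, wgt r B a - 1)

variable {A : Finset (Finset V)} {τ r : ℝ}

theorem ex_corr_sq_le (h0 : 0 ≤ r) (h1 : r ≤ 1 / 2) (e : Finset V) :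
    ex r A (fun B => corr r A e B * corr r A e B) ≤ 3 * (codeg A e : ℝ) := by
  have hr : r ≠ 1 := by linarith
  have hsub : ∀ t ∈ triEdge A e, before t e ⊆ A := fun t ht =>
    (filter_subset _ _).trans (tri_sub (mem_filter.1 ht).1)
  have hdis : ∀ t ∈ triEdge A e, ∀ t' ∈ triEdge A e, t ≠ t' →
      Disjoint (before t e) (before t' e) := by
    intro t ht t' ht' hne
    obtain ⟨hta, hte⟩ := mem_filter.1 ht
    obtain ⟨hta', hte'⟩ := mem_filter.1 ht'
    refine disjoint_left.2 fun a ha ha' => hne ?_
    obtain ⟨hat, hlt⟩ := mem_filter.1 ha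
    exact eq_of_two_pairs hta hta' (fun h => (lt_irrefl _) (h ▸ hlt)) hat hte (mem_filter.1 ha').1 hte'
  calc ex r A (fun B => corr r A e B * corr r A e B)
      = ∑ t ∈ triEdge A e, ∑ t' ∈ triEdge A e, ex r A (fun B =>
          (∏ a ∈ before t e, wgt r B a - 1) * (∏ a ∈ before t' e, wgt r B a - 1)) := by
        simp only [corr, sum_mul_sum, ex_sum]
    _ ≤ ∑ t ∈ triEdge A e, ∑ t' ∈ triEdge A e, if t = t' then (3 : ℝ) else 0 := by
        refine sum_le_sum fun t ht => sum_le_sum fun t' ht' => ?_
        have e1 : ∀ B, (∏ a ∈ before t e, wgt r B a - 1) * (∏ a ∈ before t' e, wgt r B a - 1)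
            = (∏ a ∈ before t e, wgt r B a) * (∏ a ∈ before t' e, wgt r B a)
              - ∏ a ∈ before t e, wgt r B a - ∏ a ∈ before t' e, wgt r B a + 1 := fun B => by ring
        rw [ex_congr A fun B _ => e1 B, ex_add, ex_sub, ex_sub, ex_const,
          ex_prod_wgt hr (hsub t ht), ex_prod_wgt hr (hsub t' ht')]
        split_ifs with htt
        · subst htt
          rw [ex_prod_wgt_sq hr (hsub t ht)]
          have hcard : (before t e).card ≤ 2 := by
            have hlt : (before t e).card < (pairs t).card :=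
              card_lt_card ⟨filter_subset _ _, fun h =>
                lt_irrefl _ (mem_filter.1 (h (mem_filter.1 ht).2)).2⟩
            rw [pairs_card (mem_filter.1 ht).1] at hlt
            omega
          have hb : (1 - r)⁻¹ ≤ 2 := by
            rw [inv_le_comm₀ (by linarith) two_pos]; linarith
          have hb1 : 1 ≤ (1 - r)⁻¹ := (one_le_inv₀ (by linarith)).2 (by linarith)
          have := (pow_le_pow_right₀ hb1 hcard).trans (pow_le_pow_left₀ (by linarith) hb 2)
          linarith
        · rw [ex_congr (g := fun B => ∏ a ∈ before t e ∪ before t' e, wgt r B a) A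
            (fun B _ => (prod_union (hdis t ht t' ht' htt)).symm),
            ex_prod_wgt hr (union_subset (hsub t ht) (hsub t' ht'))]
          norm_num
    _ = 3 * (codeg A e : ℝ) := by
        rw [sum_congr rfl fun t ht => by rw [sum_ite_eq, if_pos ht], sum_const, nsmul_eq_mul,
          mul_comm]
        rfl

theorem ex_delta_mul_le (h0 : 0 ≤ r) (h1 : r ≤ 1 / 2) (hτ : 0 ≤ τ) (hτ' : τ ≤ 1 / 4) {η : ℝ}
    (hη : 0 < η) (e : Finset V) :
    ex r A (fun B => delta τ B e * corr r A e B)
      ≤ 72 * η * ((codeg A e : ℝ) * ex r A (fun B => |delta τ B e|))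
        + 3 / (4 * η) * (codeg A e : ℝ) := by
  have h := ex_mono A h0 (by linarith : r ≤ 1)
    (f := fun B => delta τ B e * corr r A e B)
    (g := fun B => 72 * η * (codeg A e : ℝ) * |delta τ B e|
      + 1 / (4 * η) * (corr r A e B * corr r A e B)) fun B hB => ?_
  · refine h.trans ?_
    rw [ex_add, ex_mul_left, ex_mul_left]
    have h2 := mul_le_mul_of_nonneg_left (ex_corr_sq_le (A := A) h0 h1 e)
      (show 0 ≤ 1 / (4 * η) by positivity)
    rw [show 1 / (4 * η) * (3 * (codeg A e : ℝ)) = 3 / (4 * η) * (codeg A e : ℝ) by ring] at h2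
    linarith
  · have hb := mul_le_mul_of_nonneg_left
      (mul_le_mul_of_nonneg_left (abs_delta_le hB e hτ hτ') (abs_nonneg (delta τ B e))) hη.le
    rw [abs_mul_abs_self] at hb
    have hq : delta τ B e * corr r A e B
        ≤ η * (delta τ B e * delta τ B e) + 1 / (4 * η) * (corr r A e B * corr r A e B) := by
      rw [← sub_nonneg]
      have : η * (delta τ B e * delta τ B e) + 1 / (4 * η) * (corr r A e B * corr r A e B)
          - delta τ B e * corr r A e B
          = (2 * η * delta τ B e - corr r A e B) ^ 2 / (4 * η) := by field_simp; ring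
      rw [this]
      positivity
    linarith

/-- The change of the mean defect over one step, at one retention probability. -/
theorem step_ex (h0 : 0 ≤ r) (h1 : r ≤ 1 / 2) (hτ : 0 ≤ τ) (hτ' : τ ≤ 1 / 4) {η : ℝ}
    (hη : 0 < η) (hη' : η ≤ 1 / 1800) (hD : dd A ≠ 0) (hE : A.card ≠ 0)
    (hw : |tw A| ≤ 1 / 4) :
    ∑ t ∈ tri A, (ex r (A \ pairs t) (psiSum τ) - ex r A (psiSum τ))
      ≤ dd A * (26 / 5 * ∑ e ∈ A, ex r A (fun B => delta τ B e)
          + 63 / 5 * ex r A (psiSum τ) + 865 * η * ex r A (sqSum τ)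
          + 187560 * (usq A + A.card) / η) := by
  have hr : r ≠ 1 := by linarith
  have hr1 : r ≤ 1 := by linarith
  have hD0 : 0 ≤ dd A := dd_nonneg A
  have e1 : ∀ t ∈ tri A, ex r (A \ pairs t) (psiSum τ) - ex r A (psiSum τ)
      = ∑ e ∈ pairs t, ex r A (fun B => delta τ B e * ∏ a ∈ before t e, wgt r B a) := by
    intro t ht
    rw [← ex_inter r sdiff_subset (psiSum τ),
      ex_congr (g := fun B => psiSum τ (B \ pairs t)) A fun B hB => by
        rw [← inter_sdiff_assoc, inter_eq_left.2 hB]]
    exact ex_sdiff_telescope hr rank rank_injective (tri_sub ht) (psiSum τ)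
  have e2 : ∑ t ∈ tri A, (ex r (A \ pairs t) (psiSum τ) - ex r A (psiSum τ))
      = ∑ e ∈ A, ((codeg A e : ℝ) * ex r A (fun B => delta τ B e)
          + ex r A (fun B => delta τ B e * corr r A e B)) := by
    rw [sum_congr rfl e1, sum_comm' (t' := A) (s' := fun e => triEdge A e)]
    · refine sum_congr rfl fun e _ => ?_
      rw [← ex_sum, ← ex_mul_left, ← ex_add]
      refine ex_congr A fun B _ => ?_
      rw [corr, sum_sub_distrib, sum_const, nsmul_eq_mul, mul_one, ← mul_sum,
        show ((triEdge A e).card : ℝ) = (codeg A e : ℝ) from rfl]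
      ring
    · intro t e
      simp only [triEdge, mem_filter]
      exact ⟨fun ⟨ht, he⟩ => ⟨⟨ht, he⟩, tri_sub ht he⟩, fun h => h.1⟩
  rw [e2]
  refine (sum_le_sum fun e _ => add_le_add le_rfl (ex_delta_mul_le h0 h1 hτ hτ' hη e)).trans ?_
  have e3 : ∑ e ∈ A, ((codeg A e : ℝ) * ex r A (fun B => delta τ B e)
      + (72 * η * ((codeg A e : ℝ) * ex r A (fun B => |delta τ B e|))
        + 3 / (4 * η) * (codeg A e : ℝ)))
      = ex r A (fun B => ∑ e ∈ A, (codeg A e : ℝ) * delta τ B e
          + 72 * η * ∑ e ∈ A, (codeg A e : ℝ) * |delta τ B e|)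
        + 3 / (4 * η) * ∑ e ∈ A, (codeg A e : ℝ) := by
    simp only [sum_add_distrib, ← mul_sum, ex_add, ex_mul_left, ex_sum]
    ring
  rw [e3]
  have hpt : ex r A (fun B => ∑ e ∈ A, (codeg A e : ℝ) * delta τ B e
        + 72 * η * ∑ e ∈ A, (codeg A e : ℝ) * |delta τ B e|)
      ≤ ex r A (fun B => dd A * (26 / 5 * ∑ e ∈ A, delta τ B e + 63 / 5 * psiSum τ B
          + 865 * η * sqSum τ B + 187559 * usq A / η)) := by
    refine ex_mono A h0 hr1 fun B hB => ?_
    obtain ⟨a1, a2⟩ := delta_sums hB hD hτ hτ' hη (by linarith)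
    have a3 := mul_le_mul_of_nonneg_left a2 (show 0 ≤ 72 * η by positivity)
    have a4 : 0 ≤ ∑ e ∈ A, delta τ B e + 3 * psiSum τ B := by
      have := sum_le_sum fun e (_ : e ∈ A) => lin_le_delta τ B e
      rw [sum_lin hB] at this
      linarith
    have a5 : 0 ≤ (1 / 5 - 360 * η) * (∑ e ∈ A, delta τ B e + 3 * psiSum τ B) :=
      mul_nonneg (by linarith) a4
    have a6 : (864 + 72 / η + 186624 * η) * usq A ≤ 187559 * usq A / η := by
      rw [mul_div_assoc, mul_comm (187559 : ℝ), div_mul_eq_mul_div, mul_comm]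
      refine (le_div_iff₀ hη).2 ?_
      have : (864 + 72 / η + 186624 * η) * η ≤ 187559 := by
        rw [add_mul, add_mul, div_mul_cancel₀ _ hη.ne']
        nlinarith
      rw [mul_assoc]
      exact mul_le_mul_of_nonneg_left this (usq_nonneg A)
    refine (add_le_add a1 a3).trans ?_
    rw [mul_left_comm (72 * η), ← mul_add]
    exact mul_le_mul_of_nonneg_left (by linarith) hD0
  refine (add_le_add hpt le_rfl).trans ?_
  rw [ex_mul_left, ex_add, ex_add, ex_add, ex_mul_left, ex_mul_left, ex_mul_left, ex_sum,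
    ex_const]
  have hsum : ∑ e ∈ A, (codeg A e : ℝ) = (A.card : ℝ) * dd A * (1 + tw A) := by
    rw [sum_codeg, tw, add_sub_cancel, mul_div_cancel₀]
    exact mul_ne_zero (Nat.cast_ne_zero.2 hE) hD
  have h7 : 3 / (4 * η) * ∑ e ∈ A, (codeg A e : ℝ) ≤ dd A * ((A.card : ℝ) / η) := by
    rw [hsum, show 3 / (4 * η) * ((A.card : ℝ) * dd A * (1 + tw A))
      = dd A * ((A.card : ℝ) / η) * (3 / 4 * (1 + tw A)) by field_simp]
    refine mul_le_of_le_one_right (by positivity) ?_
    linarith [(abs_le.1 hw).2]
  have h8 : 0 ≤ (A.card : ℝ) / η := by positivity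
  have h9 : 0 ≤ usq A / η := div_nonneg (usq_nonneg A) hη.le
  refine (add_le_add le_rfl h7).trans ?_
  rw [← mul_add]
  refine mul_le_mul_of_nonneg_left ?_ hD0
  rw [mul_div_assoc, mul_div_assoc, add_div]
  linarith

/-- The mean defect is at least its value at the weights that are best for `A`. -/
theorem le_ex_psiSum (h0 : 0 ≤ r) (h1 : r ≤ 1) :
    r ^ 3 * psiSum τ A ≤ ex r A (psiSum τ) := by
  have h := ex_mono A h0 h1
    (f := fun B => -∑ s ∈ tri A, (if pairs s ⊆ B then 1 else 0) * phiOpt τ A s)
    (g := psiSum τ) fun B hB => ?_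
  · refine le_trans (le_of_eq ?_) h
    rw [ex_neg, ex_sum, psiSum_eq, mul_neg, mul_sum]
    refine congrArg _ (sum_congr rfl fun s hs => ?_)
    rw [ex_mul_right, ex_contains r (tri_sub hs), pairs_card hs]
  · refine le_trans (le_of_eq ?_) (le_psiSum τ B (z := zOpt τ A) (zOpt_mem τ A))
    simp only [ite_mul, one_mul, zero_mul, ← sum_filter, phiOpt]
    congr 1
    refine sum_congr ?_ fun _ _ => rfl
    ext s
    simp only [tri, mem_filter, and_assoc]
    exact ⟨fun h => ⟨h.1, h.2.2⟩, fun h => ⟨h.1, h.2.trans hB, h.2⟩⟩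

theorem integral_cubic (a b : ℝ) :
    ∫ r in (0 : ℝ)..(1 / 2), (r ^ 3 * a + r * b) = a / 64 + b / 8 := by
  rw [intervalIntegral.integral_add (Continuous.intervalIntegrable (by fun_prop) _ _)
    (Continuous.intervalIntegrable (by fun_prop) _ _), intervalIntegral.integral_mul_const,
    intervalIntegral.integral_mul_const, integral_pow, integral_id]
  norm_num
  ring

/-- The drift of the averaged defect, from the thinning bound. -/
theorem avgStep_of_thinBound (hthin : ThinBound) : AvgStep := by
  obtain ⟨C₁, hC₁, hT⟩ := hthin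
  refine ⟨187560 * 5000 + 5 * C₁, by positivity, ?_⟩
  intro V _ _ A h2 hcard hdd hw τ δ hδ hτ hτ' hδ1
  set E := (A.card : ℝ) with hE
  have hE' : 100 ≤ E := by rw [hE]; exact_mod_cast hcard
  have hD : dd A ≠ 0 := by linarith
  have hD0 : 0 ≤ dd A := dd_nonneg A
  set η := δ / 5000 with hηdef
  have hη : 0 < η := by positivity
  set P := psiSum (τ - δ) A with hP
  set W := avgPot τ A with hW
  set F := ex (1 / 2) A (psiSum τ) with hF
  have hint : ∀ (B : Finset (Finset V)) (f : Finset (Finset V) → ℝ),
      IntervalIntegrable (fun r => ex r B f) MeasureTheory.volume 0 (1 / 2) := fun B f =>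
    (continuous_ex f).intervalIntegrable _ _
  have hWle : W ≤ P / 64 + C₁ * E / δ / 8 := by
    rw [← integral_cubic, hW, avgPot]
    refine intervalIntegral.integral_mono_on (by norm_num) (hint _ _)
      (Continuous.intervalIntegrable (by fun_prop) _ _) fun r hr => ?_
    refine (hT V A h2 τ δ r hδ (by linarith) hτ' hr.1 hr.2).trans (le_of_eq ?_)
    rw [hP, hE]; ring
  have hS : ∫ r in (0 : ℝ)..(1 / 2), ex r A (sqSum τ)
      ≤ 2 / δ * (P / 64 + 2 * C₁ * E / δ / 8) := by
    rw [← integral_cubic, ← intervalIntegral.integral_const_mul]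
    refine intervalIntegral.integral_mono_on (by norm_num) (hint _ _)
      (Continuous.intervalIntegrable (by fun_prop) _ _) fun r hr => ?_
    have hm : ex r A (sqSum τ) ≤ 2 / δ * ex r A (psiSum (τ - δ / 2)) := by
      rw [← ex_mul_left]
      refine ex_mono A hr.1 (by linarith [hr.2]) fun B _ => ?_
      have := psiSum_margin τ (δ / 2) B
      have := psiSum_nonneg τ B
      rw [div_mul_eq_mul_div, le_div_iff₀ hδ]
      linarith
    refine hm.trans (mul_le_mul_of_nonneg_left ?_ (by positivity))
    refine (hT V A h2 (τ - δ / 2) (δ / 2) r (by linarith) (by linarith) (by linarith)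
      hr.1 hr.2).trans (le_of_eq ?_)
    rw [show τ - δ / 2 - δ / 2 = τ - δ by ring, hP, hE]
    field_simp
  have hmain : ∑ t ∈ tri A, (avgPot τ (A \ pairs t) - W)
      ≤ dd A * (26 / 5 * (W - F / 2) + 63 / 5 * W
          + 865 * η * (∫ r in (0 : ℝ)..(1 / 2), ex r A (sqSum τ))
          + 187560 * (usq A + E) / η / 2) := by
    have c1 : Continuous fun r => ∑ e ∈ A, ex r A (fun B => delta τ B e) :=
      continuous_finsetSum _ fun e _ => continuous_ex _
    have c2 := continuous_ex (A := A) (psiSum τ)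
    have c3 := continuous_ex (A := A) (sqSum τ)
    have h := intervalIntegral.integral_mono_on (a := (0 : ℝ)) (b := 1 / 2) (by norm_num)
      (Continuous.intervalIntegrable (continuous_finsetSum _ fun t _ =>
        (continuous_ex (A := A \ pairs t) (psiSum τ)).sub c2) _ _)
      (Continuous.intervalIntegrable (μ := MeasureTheory.volume) (by fun_prop) _ _)
      fun r hr => step_ex (A := A) (τ := τ) hr.1 hr.2 (by linarith) hτ' hη
        (by rw [hηdef]; linarith) hD (by omega) hw
    simp only [Pi.sub_apply] at h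
    rw [intervalIntegral.integral_finsetSum fun t _ => (hint _ _).sub (hint _ _)] at h
    simp only [intervalIntegral.integral_sub (hint _ _) (hint _ _)] at h
    refine h.trans (le_of_eq ?_)
    rw [intervalIntegral.integral_const_mul,
      intervalIntegral.integral_add (Continuous.intervalIntegrable (by fun_prop) _ _)
        intervalIntegrable_const,
      intervalIntegral.integral_add (Continuous.intervalIntegrable (by fun_prop) _ _)
        (Continuous.intervalIntegrable (by fun_prop) _ _),
      intervalIntegral.integral_add (Continuous.intervalIntegrable (by fun_prop) _ _)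
        (Continuous.intervalIntegrable (by fun_prop) _ _),
      intervalIntegral.integral_const_mul, intervalIntegral.integral_const_mul,
      intervalIntegral.integral_const_mul, intervalIntegral.integral_const]
    simp only [delta, integral_ex_erase, smul_eq_mul, hW, hF, avgPot]
    ring
  have hFge : psiSum τ A / 8 ≤ F := by
    have := le_ex_psiSum (A := A) (τ := τ) (r := 1 / 2) (by norm_num) (by norm_num)
    linarith
  have hT3 : 3 * ((tri A).card : ℝ) = E * dd A * (1 + tw A) := by
    rw [tw, add_sub_cancel, mul_div_cancel₀]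
    exact mul_ne_zero (by linarith) hD
  rw [← sum_div, div_le_iff₀ (by linarith), add_mul, mul_right_comm (dd A / (E - 3)),
    div_mul_cancel₀ _ (by linarith : E - 3 ≠ 0)]
  rw [sum_sub_distrib, sum_const, nsmul_eq_mul, sub_le_iff_le_add] at hmain
  refine hmain.trans ?_
  rw [show ((tri A).card : ℝ) * (W / E) * (E - 3)
      = ((tri A).card : ℝ) * W - dd A * ((1 + tw A) * W) by
    field_simp; linear_combination (-W) * hT3]
  have key : 26 / 5 * (W - F / 2) + 63 / 5 * W
        + 865 * η * (∫ r in (0 : ℝ)..(1 / 2), ex r A (sqSum τ))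
        + 187560 * (usq A + E) / η / 2 + (1 + tw A) * W
      ≤ (97 / 5 : ℝ) / 64 * P - (104 / 5 : ℝ) / 64 * psiSum τ A
        + (187560 * 5000 + 5 * C₁) * (E + usq A) / δ := by
    obtain ⟨hw1, hw2⟩ := abs_le.1 hw
    have k1 := mul_le_mul_of_nonneg_left hWle (show 0 ≤ 94 / 5 + tw A by linarith)
    have hP0 : 0 ≤ P := psiSum_nonneg _ _
    have k2 : (94 / 5 + tw A) * (P / 64 + C₁ * E / δ / 8)
        ≤ (94 / 5 + 1 / 4) * (P / 64 + C₁ * E / δ / 8) :=
      mul_le_mul_of_nonneg_right (by linarith) (by positivity)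
    have k3 : 865 * η * (∫ r in (0 : ℝ)..(1 / 2), ex r A (sqSum τ))
        ≤ 173 / 500 * (P / 64 + 2 * C₁ * E / δ / 8) := by
      refine (mul_le_mul_of_nonneg_left hS (by positivity)).trans (le_of_eq ?_)
      rw [hηdef]; field_simp; ring
    have k4 : 187560 * (usq A + E) / η / 2 = 187560 * 2500 * ((E + usq A) / δ) := by
      rw [hηdef]; field_simp; ring
    have k6 : C₁ * E / δ ≤ C₁ * ((E + usq A) / δ) := by
      rw [mul_div_assoc]
      exact mul_le_mul_of_nonneg_left
        (div_le_div_of_nonneg_right (by linarith [usq_nonneg A]) hδ.le) hC₁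
    have k7 : 0 ≤ C₁ * ((E + usq A) / δ) :=
      mul_nonneg hC₁ (div_nonneg (by linarith [usq_nonneg A]) hδ.le)
    have k8 : 0 ≤ (E + usq A) / δ := div_nonneg (by linarith [usq_nonneg A]) hδ.le
    have k9 : 2 * C₁ * E / δ / 8 = C₁ * E / δ / 4 := by ring
    rw [k9] at k3
    rw [k4, mul_div_assoc (187560 * 5000 + 5 * C₁), add_mul (187560 * 5000) (5 * C₁),
      mul_assoc 5 C₁]
    have k10 : (94 / 5 + tw A) * W
        ≤ (94 / 5 + 1 / 4) * (P / 64) + (94 / 5 + 1 / 4) / 8 * (C₁ * E / δ) := by linarith
    have k11 : (26 / 5 * (W - F / 2) + 63 / 5 * W + (1 + tw A) * W)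
        = (94 / 5 + tw A) * W - 13 / 5 * F := by ring
    linarith
  have := mul_le_mul_of_nonneg_left key hD0
  linarith

/-- The drift of the averaged defect. -/
theorem avg_step : AvgStep :=
  avgStep_of_thinBound thin_bound

end Vale.Agent.P046.Gap
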