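import Vale.Agent.P046.Collapse

/-!
The process does not collapse into isolated triangles when few edges are heavy.
-/

namespace Vale.Agent.P046.Gap

open Finset

variable {V : Type} [Fintype V] [DecidableEq V]

/-- The edges in more than `M` triangles. -/
def heavyEdges (M : ℕ) (A : Finset (Finset V)) : Finset (Finset V) :=
  A.filter fun e => M < codeg A e

/-- The total codegree of the edges in more than `M` triangles. -/
noncomputable def heavySum (M : ℕ) (A : Finset (Finset V)) : ℝ :=
  ∑ e ∈ heavyEdges M A, (codeg A e : ℝ)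

/-- An edge outside `t` loses at most two triangles when `t` is removed. -/
theorem lost_card_le_two {A : Finset (Finset V)} {t e : Finset V} (ht : t.card = 3)
    (he : e.card = 2) (het : e ∉ pairs t) : (lost A t e).card ≤ 2 := by
  by_cases hd : Disjoint e t
  · rw [lost_eq_empty he hd]; simp
  · have h1 : lost A t e ⊆ (t \ e).image fun w => insert w e := by
      intro r hr
      obtain ⟨hrA, her, hnd⟩ := mem_filter.1 hr
      obtain ⟨f, hfr, hft⟩ := not_disjoint_iff.1 hnd
      obtain ⟨hfr', hf2⟩ := mem_powersetCard.1 hfr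
      obtain ⟨her', -⟩ := mem_powersetCard.1 her
      have h2 : (r \ e).card = 1 := by rw [card_sdiff_of_subset her', tri_card hrA, he]
      obtain ⟨w, hw⟩ := card_eq_one.1 h2
      have hwre : w ∈ r \ e := by rw [hw]; exact mem_singleton_self w
      refine mem_image.2 ⟨w, mem_sdiff.2 ⟨?_, (mem_sdiff.1 hwre).2⟩, ?_⟩
      · by_contra hwt
        have hfe : f ⊆ e := fun x hx => by
          by_contra hxe
          have : x ∈ r \ e := mem_sdiff.2 ⟨hfr' hx, hxe⟩
          rw [hw, mem_singleton] at this
          exact hwt (this ▸ (mem_powersetCard.1 hft).1 hx)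
        exact het (eq_of_subset_of_card_le hfe (by omega) ▸ hft)
      · rw [← union_sdiff_of_subset her', hw]; grind
    refine (card_le_card h1).trans (card_image_le.trans ?_)
    obtain ⟨u, hue, hut⟩ := not_disjoint_iff.1 hd
    have h2 : t \ e ⊆ t.erase u := fun x hx =>
      mem_erase.2 ⟨fun h => (mem_sdiff.1 hx).2 (h ▸ hue), (mem_sdiff.1 hx).1⟩
    have := card_le_card h2
    rw [card_erase_of_mem hut, ht] at this
    exact this

/-- The triangles that may become isolated. -/
def nearSet (A : Finset (Finset V)) : Finset (Finset V) :=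
  (lowSet A).filter fun s => ∀ e ∈ pairs s, codeg A e ≤ 3

theorem created_sub_near (A : Finset (Finset V)) {t : Finset V} (ht : t.card = 3) :
    created A t ⊆ nearSet A := by
  intro s hs
  refine mem_filter.2 ⟨created_sub A t hs, fun e he => ?_⟩
  obtain ⟨hst, hs'⟩ := mem_filter.1 (mem_sdiff.1 hs).1
  have hd := (tri_sdiff_mem hst).2
  have h := lost_card A t e
  rw [hs' e he] at h
  have := lost_card_le_two (A := A) ht (mem_powersetCard.1 he).2 (disjoint_left.1 hd he)
  omega

/-- A light edge creates few isolated triangles, a heavy one at most `6 c²`. -/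
theorem sum_created_heavy {A : Finset (Finset V)} (M : ℕ) :
    ∑ t ∈ tri A, (created A t).card
      ≤ 2 * M * (lowSet A).card + 6 * ∑ g ∈ heavyEdges M A, codeg A g ^ 2 := by
  have e1 : ∑ t ∈ tri A, (created A t).card
      = ∑ s ∈ nearSet A, ((tri A).filter fun t => s ∈ created A t).card := by
    simp only [card_eq_sum_ones, sum_filter]
    rw [sum_comm]
    refine sum_congr rfl fun t ht => ?_
    rw [← sum_filter, filter_mem_eq_inter, inter_eq_right.2 (created_sub_near A (tri_card ht))]
  -- the edges through which the triangle `s` may become isolated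
  let near : Finset V → Finset (Finset V) := fun g =>
    (((tri A).filter fun r => g ∈ pairs r).biUnion fun r => ((pairs r).erase g).filter
      fun f => codeg A f ≤ 3).biUnion fun f => (tri A).filter fun s => f ∈ pairs s
  have hnear : ∀ g, (near g).card ≤ 6 * codeg A g := by
    intro g
    refine (card_biUnion_le_card_mul _ _ 3 fun f hf => ?_).trans ?_
    · obtain ⟨r, -, hf⟩ := mem_biUnion.1 hf
      exact (mem_filter.1 hf).2
    · have h : (((tri A).filter fun r => g ∈ pairs r).biUnion fun r => ((pairs r).erase g).filter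
          fun f => codeg A f ≤ 3).card ≤ codeg A g * 2 := by
        refine card_biUnion_le_card_mul _ _ 2 fun r hr => (card_filter_le _ _).trans ?_
        rw [card_erase_of_mem (mem_filter.1 hr).2, pairs_card (mem_filter.1 hr).1]
      omega
  have hs : ∀ s ∈ nearSet A, ((tri A).filter fun t => s ∈ created A t).card
      ≤ 2 * M + ∑ g ∈ heavyEdges M A, if s ∈ near g then codeg A g else 0 := by
    intro s hs
    obtain ⟨hlow, hle⟩ := mem_filter.1 hs
    obtain ⟨hsA, -, f, hfs, hf⟩ := mem_filter.1 hlow
    obtain ⟨r, hr, hrs⟩ := exists_mem_ne (s := (tri A).filter fun r => f ∈ pairs r)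
      (show 1 < _ by unfold codeg at hf; omega) s
    obtain ⟨hrA, hfr⟩ := mem_filter.1 hr
    refine le_trans (card_le_card
      (t := ((pairs r).erase f).biUnion fun g => (tri A).filter fun t => g ∈ pairs t)
      fun t ht => ?_) ?_
    · obtain ⟨htA, htc⟩ := mem_filter.1 ht
      obtain ⟨hst, hs'⟩ := mem_filter.1 (mem_sdiff.1 htc).1
      have hfs' := hs' f hfs
      have hl : r ∈ lost A t f := by
        by_contra hr'
        have hdr : Disjoint (pairs r) (pairs t) := by
          by_contra hc
          exact hr' (mem_filter.2 ⟨hrA, hfr, hc⟩)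
        have h2 : ({s, r} : Finset (Finset V))
            ⊆ (tri (A \ pairs t)).filter fun x => f ∈ pairs x := by
          intro x hx
          simp only [mem_insert, mem_singleton] at hx
          rcases hx with rfl | rfl
          · exact mem_filter.2 ⟨hst, hfs⟩
          · exact mem_filter.2 ⟨tri_sdiff A t ▸ mem_filter.2 ⟨hrA, hdr⟩, hfr⟩
        have h3 := card_le_card h2
        rw [card_pair hrs.symm, ← codeg, hfs'] at h3
        omega
      obtain ⟨g, hgr, hgt⟩ := not_disjoint_iff.1 (mem_filter.1 hl).2.2
      refine mem_biUnion.2 ⟨g, mem_erase.2 ⟨fun h => ?_, hgr⟩, mem_filter.2 ⟨htA, hgt⟩⟩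
      exact disjoint_left.1 (tri_sdiff_mem hst).2 hfs (h ▸ hgt)
    · refine card_biUnion_le.trans ?_
      show ∑ g ∈ (pairs r).erase f, codeg A g ≤ _
      have hsplit : ∀ g ∈ (pairs r).erase f,
          codeg A g ≤ M + (if g ∈ heavyEdges M A ∧ s ∈ near g then codeg A g else 0) := by
        intro g hg
        by_cases hh : codeg A g ≤ M
        · omega
        · obtain ⟨hgf, hgr⟩ := mem_erase.1 hg
          have h1 : g ∈ heavyEdges M A := mem_filter.2 ⟨tri_sub hrA hgr, by omega⟩
          have h2 : s ∈ near g := mem_biUnion.2 ⟨f, mem_biUnion.2 ⟨r, mem_filter.2 ⟨hrA, hgr⟩,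
            mem_filter.2 ⟨mem_erase.2 ⟨Ne.symm hgf, hfr⟩, hle f hfs⟩⟩,
            mem_filter.2 ⟨hsA, hfs⟩⟩
          rw [if_pos ⟨h1, h2⟩]; omega
      refine (sum_le_sum hsplit).trans ?_
      rw [sum_add_distrib, sum_const, card_erase_of_mem hfr, pairs_card hrA, smul_eq_mul]
      gcongr
      simp only [ite_and]
      rw [← sum_filter]
      refine sum_le_sum_of_subset fun g hg => ?_
      exact (mem_filter.1 hg).2
  rw [e1]
  refine (sum_le_sum hs).trans ?_
  rw [sum_add_distrib, sum_const, smul_eq_mul, mul_comm _ (2 * M), sum_comm, mul_sum]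
  gcongr with g
  · exact filter_subset _ _
  · rw [← sum_filter, sum_const, smul_eq_mul, sq, ← mul_assoc]
    gcongr
    exact (card_le_card fun s hs => (mem_filter.1 hs).2).trans (hnear g)

/-- The drop of the heavy codegree pays for the heavy creations. -/
theorem sum_heavy_drop (A : Finset (Finset V)) (M : ℕ) :
    (∑ t ∈ tri A, heavySum M (A \ pairs t)) + ∑ g ∈ heavyEdges M A, (codeg A g : ℝ) ^ 2
      ≤ (tri A).card * heavySum M A := by
  have h1 : ∀ t ∈ tri A, heavySum M (A \ pairs t)
      + ∑ g ∈ heavyEdges M A, (if g ∈ pairs t then (codeg A g : ℝ) else 0) ≤ heavySum M A := by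
    intro t _
    rw [← sum_filter]
    have h := sum_filter_add_sum_filter_not (heavyEdges M A) (fun g => g ∈ pairs t)
      (fun g => (codeg A g : ℝ))
    have h2 : heavySum M (A \ pairs t)
        ≤ ∑ g ∈ (heavyEdges M A).filter (fun g => ¬ g ∈ pairs t), (codeg A g : ℝ) := by
      refine (sum_le_sum fun g _ => Nat.cast_le.2 (codeg_mono sdiff_subset g)).trans
        (sum_le_sum_of_subset_of_nonneg (fun g hg => ?_) fun _ _ _ => Nat.cast_nonneg _)
      obtain ⟨hg1, hg2⟩ := mem_filter.1 hg
      exact mem_filter.2 ⟨mem_filter.2 ⟨(mem_sdiff.1 hg1).1,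
        hg2.trans_le (codeg_mono sdiff_subset g)⟩, (mem_sdiff.1 hg1).2⟩
    unfold heavySum at h h2 ⊢
    linarith
  have h := sum_le_sum h1
  rw [sum_add_distrib, sum_const, nsmul_eq_mul, sum_comm] at h
  refine le_trans (le_of_eq ?_) h
  congr 1
  refine sum_congr rfl fun g _ => ?_
  rw [← sum_filter, sum_const, nsmul_eq_mul, sq]
  rfl

/-- The potential net of isolated triangles and of heavy edges. -/
noncomputable def netPot' (M : ℕ) (A : Finset (Finset V)) : ℝ :=
  netPot M A - 36 / 5 * heavySum M A

theorem netPot'_drift (A : Finset (Finset V)) (M : ℕ) :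
    (tri A).card * netPot' M A ≤ ∑ t ∈ tri A, netPot' M (A \ pairs t) := by
  have h1 : (∑ t ∈ tri A, ((isoSet (A \ pairs t)).card : ℝ)) + (isoSet A).card
      ≤ (tri A).card * ((isoSet A).card : ℝ) + 2 * (M : ℝ) * (lowSet A).card
        + 6 * ∑ g ∈ heavyEdges M A, (codeg A g : ℝ) ^ 2 := by
    have h := sum_le_sum fun t (_ : t ∈ tri A) => isoSet_step A t
    have hc := sum_created_heavy (A := A) M
    have hfil : (tri A).filter (fun t => t ∈ isoSet A) = isoSet A := by
      rw [filter_mem_eq_inter]; exact inter_eq_right.2 (filter_subset _ _)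
    have e : ∑ t ∈ tri A, (if t ∈ isoSet A then 1 else 0) = (isoSet A).card := by
      rw [sum_boole, hfil]; simp
    rw [sum_add_distrib, e, sum_add_distrib, sum_const, smul_eq_mul] at h
    have : ∑ t ∈ tri A, (isoSet (A \ pairs t)).card + (isoSet A).card
        ≤ (tri A).card * (isoSet A).card + 2 * M * (lowSet A).card
          + 6 * ∑ g ∈ heavyEdges M A, codeg A g ^ 2 := by omega
    exact_mod_cast this
  have h2 : ((tri A).card : ℝ) * (zeroSet A).card + (lowSet A).card
      ≤ ∑ t ∈ tri A, ((zeroSet (A \ pairs t)).card : ℝ) := by exact_mod_cast sum_zero_ge A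
  have h3 : 0 ≤ 6 / 5 * ((isoSet A).card : ℝ)
      + ((∑ t ∈ tri A, total (A \ pairs t)) - (tri A).card * total A) := by
    have h := drift A
    rw [sum_add_distrib, sum_sub_distrib, sum_const, nsmul_eq_mul, ← sum_filter, sum_const,
      nsmul_eq_mul] at h
    rw [isoSet]
    linarith
  have h4 := mul_le_mul_of_nonneg_left h2 (show (0 : ℝ) ≤ 12 / 5 * M by positivity)
  have h5 := sum_heavy_drop A M
  unfold netPot' netPot
  rw [sum_sub_distrib, sum_sub_distrib, sum_add_distrib, ← mul_sum, ← mul_sum, ← mul_sum]
  linarith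

theorem netPot'_terminal {A : Finset (Finset V)} (M : ℕ) (h : tri A = ∅) :
    netPot' M A = (1 + 12 / 5 * (M : ℝ)) * A.card := by
  have h0 : heavyEdges M A = ∅ := filter_false_of_mem fun e _ => by simp [codeg, h]
  simp [netPot', heavySum, h0, netPot_terminal M h]

/-- The triangles lost by the removal of `t`. -/
def lostTri (A : Finset (Finset V)) (t : Finset V) : Finset (Finset V) :=
  (tri A).filter fun s => ¬ Disjoint (pairs s) (pairs t)

theorem lostTri_add (A : Finset (Finset V)) (t : Finset V) :
    (tri (A \ pairs t)).card + (lostTri A t).card = (tri A).card := by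
  rw [tri_sdiff, lostTri]
  exact card_filter_add_card_filter_not _

theorem lostTri_le {A : Finset (Finset V)} {t : Finset V} {B : ℕ} (ht : t ∈ tri A)
    (hB : ∀ e, codeg A e ≤ B) : (lostTri A t).card ≤ 3 * B := by
  refine le_trans (card_le_card
    (t := (pairs t).biUnion fun f => (tri A).filter fun s => f ∈ pairs s) fun s hs => ?_) ?_
  · obtain ⟨hsA, hnd⟩ := mem_filter.1 hs
    obtain ⟨f, hfs, hft⟩ := not_disjoint_iff.1 hnd
    exact mem_biUnion.2 ⟨f, hft, mem_filter.2 ⟨hsA, hfs⟩⟩
  · exact (card_biUnion_le_card_mul _ _ B fun f _ => hB f).trans (by rw [pairs_card ht])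

theorem touched_le (A : Finset (Finset V)) (t : Finset V) :
    (touched A t).card ≤ 3 * (lostTri A t).card := by
  refine (card_le_card sdiff_subset).trans ?_
  refine (card_biUnion_le_card_mul _ _ 3 fun s hs => (pairs_card (mem_filter.1 hs).1).le).trans ?_
  rw [lostTri, mul_comm]

theorem netPot'_increment {A : Finset (Finset V)} {t : Finset V} (M : ℕ)
    (h2 : ∀ e ∈ A, e.card = 2) (ht : t ∈ tri A) :
    |netPot' M (A \ pairs t) - netPot' M A| ≤ 90 * ((M : ℝ) + 1) * (lostTri A t).card := by
  set A' := A \ pairs t with hA'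
  set L := (lostTri A t).card with hLdef
  have hsubA : A' ⊆ A := sdiff_subset
  have hL : 1 ≤ L := card_pos.2 ⟨t, mem_filter.2 ⟨ht, fun h => by
    rw [disjoint_self_iff_empty] at h
    have := pairs_card ht
    rw [h, card_empty] at this; omega⟩⟩
  have hLr : (1 : ℝ) ≤ L := by exact_mod_cast hL
  have hTr : ((touched A t).card : ℝ) ≤ 3 * L := by exact_mod_cast touched_le A t
  have h1 : |total A' - total A| ≤ 6 * (L : ℝ) := by
    have e1 : total A = total A' + ((∑ e ∈ A', (pot (codeg A e) - pot (codeg A' e)))
        + ∑ e ∈ pairs t, pot (codeg A e)) := by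
      rw [total, total, ← sum_sdiff (tri_sub ht), ← hA', sum_sub_distrib]; ring
    have e2 : ∑ e ∈ A', (pot (codeg A e) - pot (codeg A' e))
        = ∑ e ∈ A'.filter (fun e => e ∈ touched A t), (pot (codeg A e) - pot (codeg A' e)) := by
      refine (sum_filter_of_ne fun e he hne => ?_).symm
      by_contra hc
      refine hne ?_
      rw [hA', codeg_untouched (mem_sdiff.1 he).2 hc, sub_self]
    have hb : |∑ e ∈ A'.filter (fun e => e ∈ touched A t), (pot (codeg A e) - pot (codeg A' e))|
        ≤ 3 * (L : ℝ) := by
      refine (abs_sum_le_sum_abs _ _).trans ((sum_le_card_nsmul _ _ 1 fun e _ => ?_).trans ?_)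
      · obtain ⟨a1, a2⟩ := pot_le_one (codeg A e)
        obtain ⟨b1, b2⟩ := pot_le_one (codeg A' e)
        exact abs_le.2 ⟨by linarith, by linarith⟩
      · rw [nsmul_eq_mul, mul_one]
        refine le_trans ?_ hTr
        exact_mod_cast card_le_card fun e he => (mem_filter.1 he).2
    have hp0 : 0 ≤ ∑ e ∈ pairs t, pot (codeg A e) := sum_nonneg fun e _ => (pot_le_one _).1
    have hp1 : ∑ e ∈ pairs t, pot (codeg A e) ≤ 3 := by
      refine (sum_le_card_nsmul _ _ 1 fun e _ => (pot_le_one _).2).trans ?_
      rw [pairs_card ht]; norm_num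
    rw [abs_le] at hb ⊢
    rw [e1, e2]
    constructor <;> linarith
  have h3 : |((zeroSet A').card : ℝ) - (zeroSet A).card| ≤ 3 * (L : ℝ) := by
    have ha : zeroSet A ⊆ zeroSet A' := by
      intro e he
      obtain ⟨he1, he2⟩ := mem_filter.1 he
      refine mem_filter.2 ⟨mem_sdiff.2 ⟨he1, fun hc => ?_⟩, ?_⟩
      · have := codeg_pos ht hc; omega
      · have := codeg_mono hsubA e; omega
    have hb : zeroSet A' ⊆ zeroSet A ∪ touched A t := by
      intro e he
      obtain ⟨he1, he2⟩ := mem_filter.1 he
      by_cases hc : e ∈ touched A t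
      · exact mem_union_right _ hc
      · rw [hA', codeg_untouched (mem_sdiff.1 he1).2 hc] at he2
        exact mem_union_left _ (mem_filter.2 ⟨(mem_sdiff.1 he1).1, he2⟩)
    have hb' : ((zeroSet A').card : ℝ) ≤ (zeroSet A).card + (touched A t).card := by
      exact_mod_cast (card_le_card hb).trans (card_union_le _ _)
    have ha' : ((zeroSet A).card : ℝ) ≤ (zeroSet A').card := by exact_mod_cast card_le_card ha
    rw [abs_le]; constructor <;> linarith
  have h4 : |((isoSet A').card : ℝ) - (isoSet A).card| ≤ 4 * (L : ℝ) := by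
    have hc : (created A t).card ≤ (touched A t).card := by
      have hex : ∀ s ∈ created A t, ∃ e ∈ pairs s, e ∈ touched A t := by
        intro s hs
        obtain ⟨hs1, hs2⟩ := mem_sdiff.1 hs
        obtain ⟨hst, hs'⟩ := mem_filter.1 hs1
        obtain ⟨hsA, hdis⟩ := tri_sdiff_mem hst
        by_contra hc
        push Not at hc
        refine hs2 (mem_filter.2 ⟨hsA, fun e he => ?_⟩)
        rw [← codeg_untouched (disjoint_left.1 hdis he) (hc e he)]
        exact hs' e he
      choose g hg1 hg2 using hex
      refine card_le_card_of_injOn (fun s => if h : s ∈ created A t then g s h else ∅)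
        (fun s hs => by simp [mem_coe.1 hs, hg2]) fun s hs s' hs' he => ?_
      simp only [mem_coe] at hs hs'
      simp only [dif_pos hs, dif_pos hs'] at he
      obtain ⟨hst, hs1⟩ := mem_filter.1 (mem_sdiff.1 hs).1
      have hst' := (mem_filter.1 (mem_sdiff.1 hs').1).1
      exact (card_le_one.1 (hs1 _ (hg1 s hs)).le) s (mem_filter.2 ⟨hst, hg1 s hs⟩) s'
        (mem_filter.2 ⟨hst', he ▸ hg1 s' hs'⟩)
    have ha : isoSet A ⊆ insert t (isoSet A') := by
      intro s hs
      by_cases hst : s = t
      · exact hst ▸ mem_insert_self _ _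
      refine mem_insert_of_mem ?_
      obtain ⟨hsA, hs'⟩ := mem_filter.1 hs
      have hd : Disjoint (pairs s) (pairs t) := disjoint_left.2 fun e hes het => hst <| by
        exact card_le_one.1 (hs' e hes).le s (mem_filter.2 ⟨hsA, hes⟩) t
          (mem_filter.2 ⟨ht, het⟩)
      have hs2 : s ∈ tri A' := tri_sdiff A t ▸ mem_filter.2 ⟨hsA, hd⟩
      refine mem_filter.2 ⟨hs2, fun e he => ?_⟩
      have := codeg_mono hsubA e
      have := hs' e he
      have := codeg_pos hs2 he
      omega
    have hs : ((isoSet A').card : ℝ) ≤ (isoSet A).card + (touched A t).card := by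
      have := isoSet_step A t
      rw [← hA'] at this
      exact_mod_cast (by omega : (isoSet A').card ≤ (isoSet A).card + (touched A t).card)
    have ha' : ((isoSet A).card : ℝ) ≤ (isoSet A').card + 1 := by
      exact_mod_cast (card_le_card ha).trans (card_insert_le _ _)
    rw [abs_le]; constructor <;> linarith
  have h5 : 0 ≤ heavySum M A - heavySum M A' ∧
      heavySum M A - heavySum M A' ≤ (3 * (M : ℝ) + 9) * L := by
    let v : Finset (Finset V) → Finset V → ℝ := fun B e =>
      if e ∈ heavyEdges M B then (codeg B e : ℝ) else 0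
    have hsum : ∀ B ⊆ A, heavySum M B = ∑ e ∈ A, v B e := by
      intro B hB
      rw [heavySum, ← sum_filter, filter_mem_eq_inter,
        inter_eq_right.2 (show heavyEdges M B ⊆ A from (filter_subset _ B).trans hB)]
    have hmono : ∀ e, v A' e ≤ v A e := by
      intro e
      simp only [v]
      split_ifs with ha hb
      · exact_mod_cast codeg_mono hsubA e
      · exact absurd (mem_filter.2 ⟨hsubA (mem_filter.1 ha).1,
          (mem_filter.1 ha).2.trans_le (codeg_mono hsubA e)⟩) hb
      · exact Nat.cast_nonneg _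
      · rfl
    rw [hsum A subset_rfl, hsum A' hsubA, ← sum_sub_distrib]
    refine ⟨sum_nonneg fun e _ => sub_nonneg.2 (hmono e), ?_⟩
    have hbound : ∀ e ∈ A, v A e - v A' e
        ≤ (if e ∈ pairs t then (L : ℝ) else 0)
          + (if e ∈ touched A t then (M : ℝ) + 2 else 0) := by
      intro e he
      by_cases het : e ∈ pairs t
      · have h0 : v A' e = 0 := if_neg fun h => (mem_sdiff.1 (mem_filter.1 h).1).2 het
        have hce : (codeg A e : ℝ) ≤ L := by
          rw [hLdef]
          exact_mod_cast card_le_card fun s hs => mem_filter.2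
            ⟨(mem_filter.1 hs).1, not_disjoint_iff.2 ⟨e, (mem_filter.1 hs).2, het⟩⟩
        have hv : v A e ≤ L := by simp only [v]; split_ifs <;> linarith
        rw [if_pos het, h0]
        split_ifs <;> linarith [(Nat.cast_nonneg M : (0 : ℝ) ≤ M)]
      · rw [if_neg het, zero_add]
        by_cases htc : e ∈ touched A t
        · rw [if_pos htc]
          have hl := lost_card_le_two (A := A) (tri_card ht) (h2 e he) het
          have hlc := lost_card A t e
          rw [← hA'] at hlc
          have hlc' : (codeg A e : ℝ) ≤ (codeg A' e : ℝ) + 2 := by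
            exact_mod_cast (by omega : codeg A e ≤ codeg A' e + 2)
          have hM0 : (0 : ℝ) ≤ M := Nat.cast_nonneg _
          have hc0 : (0 : ℝ) ≤ (codeg A' e : ℝ) := Nat.cast_nonneg _
          simp only [v]
          split_ifs with ha hb
          · linarith
          · have : (codeg A' e : ℝ) ≤ M := by
              exact_mod_cast not_lt.1 fun h => hb (mem_filter.2 ⟨mem_sdiff.2 ⟨he, het⟩, h⟩)
            linarith
          · linarith
          · linarith
        · rw [if_neg htc]
          have hce : codeg A' e = codeg A e := codeg_untouched het htc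
          have : v A' e = v A e := by
            have hiff : e ∈ heavyEdges M A' ↔ e ∈ heavyEdges M A := by
              simp only [heavyEdges, mem_filter, hce]
              exact and_congr_left fun _ => ⟨fun h => hsubA h, fun h => mem_sdiff.2 ⟨h, het⟩⟩
            simp only [v, hiff, hce]
          linarith
    refine (sum_le_sum hbound).trans ?_
    rw [sum_add_distrib, ← sum_filter, ← sum_filter, sum_const, sum_const, nsmul_eq_mul,
      nsmul_eq_mul]
    have hp : ((A.filter fun e => e ∈ pairs t).card : ℝ) ≤ 3 := by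
      have := card_le_card (s := A.filter fun e => e ∈ pairs t) (t := pairs t)
        fun e he => (mem_filter.1 he).2
      rw [pairs_card ht] at this
      exact_mod_cast this
    have hq : ((A.filter fun e => e ∈ touched A t).card : ℝ) ≤ 3 * L := by
      refine le_trans ?_ hTr
      exact_mod_cast card_le_card fun e he => (mem_filter.1 he).2
    have h6 := mul_le_mul_of_nonneg_right hp (show (0 : ℝ) ≤ L by linarith)
    have h7 := mul_le_mul_of_nonneg_right hq (show (0 : ℝ) ≤ (M : ℝ) + 2 by positivity)
    linarith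
  obtain ⟨a1, a2⟩ := abs_le.1 h1
  obtain ⟨b1, b2⟩ := abs_le.1 h3
  obtain ⟨c1, c2⟩ := abs_le.1 h4
  obtain ⟨d1, d2⟩ := h5
  have b1' := mul_le_mul_of_nonneg_left b1 (show (0 : ℝ) ≤ 12 / 5 * M by positivity)
  have b2' := mul_le_mul_of_nonneg_left b2 (show (0 : ℝ) ≤ 12 / 5 * M by positivity)
  have hML : (0 : ℝ) ≤ (M : ℝ) * L := by positivity
  unfold netPot' netPot
  rw [abs_le]
  constructor <;> linarith

/-- With high probability the leave is a `1 / M` fraction of the potential: the variance is paid
by the triangles, each of which is lost once. -/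
theorem lower_tail' {A : Finset (Finset V)} {M B : ℕ} {a : ℝ} (h2 : ∀ e ∈ A, e.card = 2)
    (hB : ∀ e, codeg A e ≤ B) (ha : 0 < a) (hA : 2 * a ≤ netPot' M A) :
    probLT (a / (1 + 12 / 5 * (M : ℝ))) A
      ≤ 24300 * ((M : ℝ) + 1) ^ 2 * B * (tri A).card / a ^ 2 := by
  set K := 24300 * ((M : ℝ) + 1) ^ 2 * (B : ℝ) with hK
  let W : Finset (Finset V) → ℝ := fun X =>
    (max (netPot' M A - netPot' M X) 0 ^ 2 + K * (tri X).card) / a ^ 2
  refine le_trans (procVal_le _ W A (fun X _ h => ?_) (fun X hX _ => ?_)) (le_of_eq ?_)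
  · simp only [W]
    split_ifs with hl
    · rw [lt_div_iff₀ (by positivity), mul_comm, ← netPot'_terminal M h] at hl
      rw [le_div_iff₀ (by positivity), one_mul, h, card_empty, Nat.cast_zero, mul_zero, add_zero]
      exact pow_le_pow_left₀ ha.le (le_max_of_le_left (by linarith)) 2
    · positivity
  · simp only [W]
    rw [← sum_div, mul_div_assoc']
    refine div_le_div_of_nonneg_right ?_ (sq_nonneg a)
    set x := netPot' M A - netPot' M X with hx
    have hpt : ∀ t ∈ tri X, max (netPot' M A - netPot' M (X \ pairs t)) 0 ^ 2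
        + K * ((tri (X \ pairs t)).card : ℝ)
        ≤ (max x 0 ^ 2 + K * (tri X).card)
          - 2 * max x 0 * (netPot' M (X \ pairs t) - netPot' M X) := by
      intro t ht
      set d := netPot' M (X \ pairs t) - netPot' M X with hd
      set L := ((lostTri X t).card : ℝ) with hLdef
      have h1 := sq_pos_part_sub x d
      have hL3 : L ≤ 3 * (B : ℝ) := by
        rw [hLdef]
        exact_mod_cast lostTri_le ht fun e => (codeg_mono hX e).trans (hB e)
      have hL0 : 0 ≤ L := Nat.cast_nonneg _
      have h3 : d ^ 2 ≤ K * L := by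
        have h := netPot'_increment M (fun e he => h2 e (hX he)) ht
        rw [← hd, ← hLdef] at h
        have hsq : d ^ 2 ≤ (90 * ((M : ℝ) + 1) * L) ^ 2 := by
          rw [← sq_abs d]; exact pow_le_pow_left₀ (abs_nonneg d) h 2
        refine hsq.trans ?_
        have := mul_le_mul_of_nonneg_left hL3
          (show 0 ≤ (90 * ((M : ℝ) + 1)) ^ 2 * L by positivity)
        rw [hK]; linarith
      have h4 : ((tri (X \ pairs t)).card : ℝ) = (tri X).card - L := by
        have : ((tri (X \ pairs t)).card : ℝ) + L = (tri X).card := by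
          rw [hLdef]; exact_mod_cast lostTri_add X t
        linarith
      rw [show netPot' M A - netPot' M (X \ pairs t) = x - d by rw [hx, hd]; ring, h4]
      linarith
    refine (sum_le_sum hpt).trans ?_
    rw [sum_sub_distrib, sum_const, nsmul_eq_mul, ← mul_sum, sum_sub_distrib, sum_const,
      nsmul_eq_mul]
    have h5 := mul_nonneg (show 0 ≤ 2 * max x 0 by positivity)
      (sub_nonneg.2 (netPot'_drift X M))
    linarith
  · simp only [W, hK, sub_self, max_self]; ring

end Vale.Agent.P046.Gap
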