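import Vale.Agent.P046.Track.Recursion
import Vale.Agent.P046.Track.Count
import Vale.Agent.P046.Collapse

/-!
P046, exact order: a second potential that makes the Lyapunov function contract.

At a vertex `v` the link quadratic form is the sum, over the triangles `s` through `v`, of
`x y + τ (x² + y²)`, where `x, y` are the weights of the two other vertices. `psiSum τ A` is the
sum over the vertices of the largest value of minus this form on a box. `avgPot` averages it over
independent thinnings of `A`.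
-/

namespace Vale.Agent.P046.Gap

open Finset Vale.Agent.P046.Track

variable {V : Type} [Fintype V] [DecidableEq V]

/-- The sum of the three deviations of a triangle. -/
noncomputable def usum (A : Finset (Finset V)) (s : Finset V) : ℝ := ∑ e ∈ pairs s, dev A e

/-- A square near zero, linear far away. -/
noncomputable def hU (x : ℝ) : ℝ := min (x ^ 2) |x|

/-- The triangle part of the dissipation. -/
noncomputable def usq (A : Finset (Finset V)) : ℝ := ∑ s ∈ tri A, hU (usum A s)

/-- The edges with codegree below three quarters of the prediction. -/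
noncomputable def lowEdges (A : Finset (Finset V)) : Finset (Finset V) :=
  A.filter fun e => dev A e ≤ -(1 / 4)

/-- The dissipation of the Lyapunov function, per unit of `log E`. -/
noncomputable def diss (A : Finset (Finset V)) : ℝ :=
  (usq A + dd A * (lowEdges A).card) / A.card + dd A * tw A ^ 2

/-- The term of the triangle `s` in the link form at `v`: `x y + τ (x² + y²)`. -/
noncomputable def phi (τ : ℝ) (z : V → ℝ) (v : V) (s : Finset V) : ℝ :=
  τ * ∑ u ∈ s.erase v, z u ^ 2
    + ((∑ u ∈ s.erase v, z u) ^ 2 - ∑ u ∈ s.erase v, z u ^ 2) / 2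

/-- The triangles through a vertex. -/
def triAt (A : Finset (Finset V)) (v : V) : Finset (Finset V) := (tri A).filter fun s => v ∈ s

/-- Minus the link form at `v`. -/
noncomputable def qAt (τ : ℝ) (A : Finset (Finset V)) (v : V) (z : V → ℝ) : ℝ :=
  -∑ s ∈ triAt A v, phi τ z v s

/-- The box of admissible weights. -/
def box (V : Type) : Set (V → ℝ) := Set.Icc (fun _ => -4) fun _ => 4

theorem exists_opt (τ : ℝ) (A : Finset (Finset V)) (v : V) :
    ∃ z ∈ box V, IsMaxOn (qAt τ A v) (box V) z := by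
  refine isCompact_Icc.exists_isMaxOn ⟨0, fun _ => by simp, fun _ => by simp⟩ ?_
  unfold qAt phi
  fun_prop

/-- A maximiser of minus the link form. -/
noncomputable def zOpt (τ : ℝ) (A : Finset (Finset V)) (v : V) : V → ℝ :=
  (exists_opt τ A v).choose

theorem zOpt_mem (τ : ℝ) (A : Finset (Finset V)) (v : V) : zOpt τ A v ∈ box V :=
  (exists_opt τ A v).choose_spec.1

/-- The largest value of minus the link form. -/
noncomputable def psiAt (τ : ℝ) (A : Finset (Finset V)) (v : V) : ℝ :=
  qAt τ A v (zOpt τ A v)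

theorem qAt_le_psiAt (τ : ℝ) (A : Finset (Finset V)) (v : V) {z : V → ℝ} (hz : z ∈ box V) :
    qAt τ A v z ≤ psiAt τ A v :=
  (exists_opt τ A v).choose_spec.2 hz

theorem psiAt_nonneg (τ : ℝ) (A : Finset (Finset V)) (v : V) : 0 ≤ psiAt τ A v := by
  have h := qAt_le_psiAt τ A v (z := 0) ⟨fun _ => by simp, fun _ => by simp⟩
  simpa [qAt, phi] using h

/-- The total defect of the link forms. -/
noncomputable def psiSum (τ : ℝ) (A : Finset (Finset V)) : ℝ := ∑ v, psiAt τ A v

theorem psiSum_nonneg (τ : ℝ) (A : Finset (Finset V)) : 0 ≤ psiSum τ A :=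
  sum_nonneg fun v _ => psiAt_nonneg τ A v

/-- The mean of `f` over the random subset of `A` that keeps each element with probability `r`. -/
noncomputable def ex {α : Type} (r : ℝ) (A : Finset α) (f : Finset α → ℝ) : ℝ :=
  ∑ B ∈ A.powerset, r ^ B.card * (1 - r) ^ (A.card - B.card) * f B

/-- The defect averaged over thinnings. -/
noncomputable def avgPot (τ : ℝ) (A : Finset (Finset V)) : ℝ :=
  ∫ r in (0 : ℝ)..(1 / 2), ex r A (psiSum τ)

/-- The margins of the family of potentials; they decrease from `1/5` to `1/10`. -/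
noncomputable def level (j : ℕ) : ℝ := 1 / 5 - (1 - (39 / 40) ^ j) / 10

/-- The number of potentials. -/
def depth (n : ℕ) : ℕ := 20 * (Nat.log 2 n + 1)

/-- The second potential. -/
noncomputable def pot2 (A : Finset (Finset V)) : ℝ :=
  (∑ j ∈ range (depth (Fintype.card V) + 1), (19 / 20) ^ j * avgPot (level j) A) / A.card

/-- The drift of the Lyapunov function with its dissipation. -/
def LyapMargin : Prop :=
  ∃ K c : ℝ, 0 ≤ K ∧ 0 < c ∧
    ∀ (V : Type) [Fintype V] [DecidableEq V] (A : Finset (Finset V)),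
      (∀ e ∈ A, e.card = 2) → 100 ≤ A.card → 1 ≤ dd A → err A ≤ 1 / 4 →
        ∑ t ∈ tri A, lyap (A \ pairs t)
          ≤ (tri A).card * (lyap A * (1 + K * |tw A| / A.card) + (K - c * diss A) / A.card)

/-- Thinning contracts the defect, up to a term of the size of the edge count. -/
def ThinBound : Prop :=
  ∃ C : ℝ, 0 ≤ C ∧
    ∀ (V : Type) [Fintype V] [DecidableEq V] (A : Finset (Finset V)),
      (∀ e ∈ A, e.card = 2) → ∀ τ δ r : ℝ, 0 < δ → δ ≤ τ → τ ≤ 1 / 4 → 0 ≤ r → r ≤ 1 / 2 →
        ex r A (psiSum τ) ≤ r ^ 3 * psiSum (τ - δ) A + C * r * A.card / δ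

/-- The drift of the averaged defect at one margin. -/
def AvgStep : Prop :=
  ∃ C : ℝ, 0 ≤ C ∧
    ∀ (V : Type) [Fintype V] [DecidableEq V] (A : Finset (Finset V)),
      (∀ e ∈ A, e.card = 2) → 100 ≤ A.card → 1 ≤ dd A → |tw A| ≤ 1 / 4 →
        ∀ τ δ : ℝ, 0 < δ → 1 / 20 + δ ≤ τ → τ ≤ 1 / 4 → δ ≤ 1 →
          ∑ t ∈ tri A, avgPot τ (A \ pairs t) / ((A.card : ℝ) - 3)
            ≤ (tri A).card * (avgPot τ A / A.card)
              + dd A / ((A.card : ℝ) - 3) * ((97 / 5 : ℝ) / 64 * psiSum (τ - δ) A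
                - (104 / 5 : ℝ) / 64 * psiSum τ A + C * (A.card + usq A) / δ)

/-- The drift of the second potential. -/
def PotStep : Prop :=
  ∃ C c : ℝ, 0 ≤ C ∧ 0 < c ∧
    ∀ (V : Type) [Fintype V] [DecidableEq V] (A : Finset (Finset V)),
      (∀ e ∈ A, e.card = 2) → 100 ≤ A.card → 1 ≤ dd A → |tw A| ≤ 1 / 4 →
        ∑ t ∈ tri A, pot2 (A \ pairs t)
          ≤ (tri A).card * (pot2 A * (1 - c / A.card)
              + (C * (1 + diss A) - c * (psiSum (1 / 5) A / A.card)) / A.card)

/-- The Lyapunov function is controlled by its dissipation and the defect. -/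
def GapRel : Prop :=
  ∃ C : ℝ, 0 ≤ C ∧
    ∀ (V : Type) [Fintype V] [DecidableEq V] (A : Finset (Finset V)),
      (∀ e ∈ A, e.card = 2) → 100 ≤ A.card → 1 ≤ dd A → err A ≤ 1 / 4 →
        lyap A ≤ C * (diss A + psiSum (1 / 5) A / A.card)

/-- The Lyapunov function with the second potential. -/
noncomputable def full (ε : ℝ) (A : Finset (Finset V)) : ℝ := lyap A + ε * pot2 A

/-- The full Lyapunov function contracts up to a bounded source. -/
def OrderStep : Prop :=
  ∃ ε K c θ : ℝ, 0 < ε ∧ 0 ≤ K ∧ 0 < c ∧ c ≤ 1 ∧ 0 < θ ∧ θ ≤ 1 / 64 ∧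
    ∀ (V : Type) [Fintype V] [DecidableEq V] (A : Finset (Finset V)),
      (∀ e ∈ A, e.card = 2) → 100 ≤ A.card → 1 ≤ dd A → err A ≤ θ →
        ∑ t ∈ tri A, full ε (A \ pairs t)
          ≤ (tri A).card * (full ε A * (1 - c / A.card) + K / A.card)

/-- The second potential is bounded at the complete graph. -/
def PotInit : Prop := ∃ C : ℝ, ∀ n : ℕ, 4 ≤ n → pot2 (complete n) ≤ C

/-- The upper bound of exact order. -/
def OrderUpper : Prop :=
  ∃ C : ℝ, ∀ n : ℕ, 3 ≤ n →
    expLeave (complete n) ≤ C * (n : ℝ) ^ ((3 : ℝ) / 2) ∧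
    ∀ M : ℝ, 1 ≤ M → probGT (M * (n : ℝ) ^ ((3 : ℝ) / 2)) (complete n) ≤ C / M ^ 2

/-- The lower bound of exact order. -/
def OrderLower : Prop :=
  (∃ c : ℝ, 0 < c ∧ ∃ n₀ : ℕ, ∀ n : ℕ, n₀ ≤ n →
      c * (n : ℝ) ^ ((3 : ℝ) / 2) ≤ expLeave (complete n)) ∧
  ∀ η : ℝ, 0 < η → ∃ c : ℝ, 0 < c ∧ ∃ n₀ : ℕ, ∀ n : ℕ, n₀ ≤ n →
    probLT (c * (n : ℝ) ^ ((3 : ℝ) / 2)) (complete n) ≤ η

end Vale.Agent.P046.Gap
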