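import Vale.Agent.P046.Gap.Defs

/-!
P046, exact order: the mean over a random subset keeping each element independently.
-/

namespace Vale.Agent.P046.Gap

open Finset

variable {α : Type} [DecidableEq α] {r : ℝ}

omit [DecidableEq α] in
@[simp] theorem ex_empty (r : ℝ) (f : Finset α → ℝ) : ex r (∅ : Finset α) f = f ∅ := by
  simp [ex]

theorem ex_insert (r : ℝ) {A : Finset α} {a : α} (ha : a ∉ A) (f : Finset α → ℝ) :
    ex r (insert a A) f = (1 - r) * ex r A f + r * ex r A (fun B => f (insert a B)) := by
  have hinj : Set.InjOn (insert a) (A.powerset : Set (Finset α)) := by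
    intro B hB C hC h
    have hB' : a ∉ B := fun h => ha (mem_powerset.1 hB h)
    have hC' : a ∉ C := fun h => ha (mem_powerset.1 hC h)
    rw [← erase_insert hB', h, erase_insert hC']
  have hdis : Disjoint A.powerset (A.powerset.image (insert a)) := by
    refine disjoint_left.2 fun B hB hB' => ?_
    obtain ⟨C, -, rfl⟩ := mem_image.1 hB'
    exact ha (mem_powerset.1 hB (mem_insert_self a C))
  rw [ex, powerset_insert, sum_union hdis, sum_image hinj, ex, ex, mul_sum, mul_sum]
  refine congrArg₂ (· + ·) (sum_congr rfl fun B hB => ?_) (sum_congr rfl fun B hB => ?_)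
  · have := card_le_card (mem_powerset.1 hB)
    rw [card_insert_of_notMem ha, show A.card + 1 - B.card = (A.card - B.card) + 1 by omega,
      pow_succ]
    ring
  · rw [card_insert_of_notMem ha, card_insert_of_notMem fun h => ha (mem_powerset.1 hB h),
      Nat.add_sub_add_right, pow_succ]
    ring

section Linear

variable (A : Finset α) (f g : Finset α → ℝ)

omit [DecidableEq α] in
theorem ex_add : ex r A (fun B => f B + g B) = ex r A f + ex r A g := by
  simp [ex, mul_add, sum_add_distrib]

omit [DecidableEq α] in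
theorem ex_sub : ex r A (fun B => f B - g B) = ex r A f - ex r A g := by
  simp [ex, mul_sub, sum_sub_distrib]

omit [DecidableEq α] in
theorem ex_neg : ex r A (fun B => -f B) = -ex r A f := by
  simp [ex]

omit [DecidableEq α] in
theorem ex_mul_left (c : ℝ) : ex r A (fun B => c * f B) = c * ex r A f := by
  simp only [ex, mul_sum]
  exact sum_congr rfl fun B _ => by ring

omit [DecidableEq α] in
theorem ex_mul_right (c : ℝ) : ex r A (fun B => f B * c) = ex r A f * c := by
  simp only [ex, sum_mul]
  exact sum_congr rfl fun B _ => by ring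

omit [DecidableEq α] in
theorem ex_sum {ι : Type} (s : Finset ι) (F : ι → Finset α → ℝ) :
    ex r A (fun B => ∑ i ∈ s, F i B) = ∑ i ∈ s, ex r A (F i) := by
  simp only [ex, mul_sum]
  rw [sum_comm]

theorem ex_const (c : ℝ) : ex r A (fun _ => c) = c := by
  induction A using Finset.induction_on with
  | empty => simp
  | insert a A ha ih => rw [ex_insert r ha, ih]; ring

omit [DecidableEq α] in
theorem ex_congr {f g : Finset α → ℝ} (h : ∀ B ⊆ A, f B = g B) : ex r A f = ex r A g :=
  sum_congr rfl fun B hB => by rw [h B (mem_powerset.1 hB)]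

omit [DecidableEq α] in
theorem ex_mono (h0 : 0 ≤ r) (h1 : r ≤ 1) {f g : Finset α → ℝ} (h : ∀ B ⊆ A, f B ≤ g B) :
    ex r A f ≤ ex r A g := by
  refine sum_le_sum fun B hB => mul_le_mul_of_nonneg_left (h B (mem_powerset.1 hB)) ?_
  have : 0 ≤ 1 - r := by linarith
  positivity

omit [DecidableEq α] in
theorem ex_nonneg (h0 : 0 ≤ r) (h1 : r ≤ 1) {f : Finset α → ℝ} (h : ∀ B ⊆ A, 0 ≤ f B) :
    0 ≤ ex r A f := by
  have := ex_mono A h0 h1 (f := fun _ => 0) h
  simpa [ex] using this

omit [DecidableEq α] in
theorem abs_ex_le (h0 : 0 ≤ r) (h1 : r ≤ 1) :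
    |ex r A f| ≤ ex r A (fun B => |f B|) := by
  refine (abs_sum_le_sum_abs _ _).trans (le_of_eq (sum_congr rfl fun B _ => ?_))
  have : 0 ≤ 1 - r := by linarith
  rw [abs_mul, abs_of_nonneg (show 0 ≤ r ^ B.card * (1 - r) ^ (A.card - B.card) by positivity)]

end Linear

/-- A random subset of a disjoint union is a pair of independent random subsets. -/
theorem ex_union (r : ℝ) {A A' : Finset α} (h : Disjoint A A') (f : Finset α → ℝ) :
    ex r (A ∪ A') f = ex r A (fun B => ex r A' fun B' => f (B ∪ B')) := by
  induction A using Finset.induction_on generalizing f with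
  | empty => simp
  | insert a A ha ih =>
    obtain ⟨h1, h2⟩ := disjoint_insert_left.1 h
    rw [insert_union, ex_insert r (by simp [ha, h1]), ex_insert r ha, ih h2, ih h2]
    simp only [insert_union]

/-- A function that looks only at `B ∩ A'` has the same mean over the subsets of `A'`. -/
theorem ex_inter (r : ℝ) {A A' : Finset α} (h : A' ⊆ A) (f : Finset α → ℝ) :
    ex r A (fun B => f (B ∩ A')) = ex r A' f := by
  conv_lhs => rw [← union_sdiff_of_subset h, ex_union r disjoint_sdiff]
  refine ex_congr A' fun B hB => ?_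
  rw [ex_congr (g := fun _ => f B) (A \ A') fun B' hB' => ?_, ex_const]
  congr 1
  ext x
  simp only [mem_inter, mem_union]
  exact ⟨fun ⟨h1, h2⟩ => h1.resolve_right fun h3 => (mem_sdiff.1 (hB' h3)).2 h2,
    fun h1 => ⟨Or.inl h1, hB h1⟩⟩

/-- The probability of keeping all of `S`. -/
theorem ex_contains (r : ℝ) {A : Finset α} {S : Finset α} (h : S ⊆ A) :
    ex r A (fun B => if S ⊆ B then 1 else 0) = r ^ S.card := by
  rw [← union_sdiff_of_subset h, ex_union r disjoint_sdiff,
    ex_congr (g := fun B => if B = S then 1 else 0) S fun B hB => ?_]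
  · rw [ex, sum_eq_single S (fun B _ hne => by simp [hne]) (by simp)]
    simp
  · rw [ex_congr (g := fun _ => if B = S then 1 else 0) (A \ S) fun B' hB' => ?_, ex_const]
    refine if_congr ⟨fun hs => Subset.antisymm hB fun x hx => ?_, fun e => ?_⟩ rfl rfl
    · exact (mem_union.1 (hs hx)).resolve_right fun h' => (mem_sdiff.1 (hB' h')).2 hx
    · rw [e]; exact subset_union_left

end Vale.Agent.P046.Gap
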