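import Vale.Agent.P046.Gap.Expect

/-!
P046, exact order: how the mean over random subsets changes when elements are forbidden, and
with the retention probability.
-/

namespace Vale.Agent.P046.Gap

open Finset

variable {α : Type} [DecidableEq α] {r : ℝ}

/-- The likelihood ratio of the random subset that avoids `a` to the unrestricted one. -/
noncomputable def wgt (r : ℝ) (B : Finset α) (a : α) : ℝ :=
  if a ∈ B then 0 else (1 - r)⁻¹

/-- Removing one element from the random subset is the same as reweighting it. -/
theorem ex_erase (hr : r ≠ 1) {A : Finset α} {a : α} (ha : a ∈ A) (g : Finset α → ℝ) :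
    ex r A (fun B => g (B.erase a)) = ex r A (fun B => wgt r B a * g B) := by
  have h1 : 1 - r ≠ 0 := sub_ne_zero.2 (Ne.symm hr)
  rw [← insert_erase ha, ex_insert r (notMem_erase a A), ex_insert r (notMem_erase a A)]
  have e1 : ∀ B ⊆ A.erase a, a ∉ B := fun B hB h => notMem_erase a A (hB h)
  rw [ex_congr (g := g) (A.erase a) fun B hB => by rw [erase_eq_of_notMem (e1 B hB)],
    ex_congr (f := fun B => g ((insert a B).erase a)) (g := g) (A.erase a) fun B hB => by
      rw [erase_insert (e1 B hB)],
    ex_congr (f := fun B => wgt r B a * g B) (g := fun B => (1 - r)⁻¹ * g B) (A.erase a)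
      fun B hB => by rw [wgt, if_neg (e1 B hB)],
    ex_congr (f := fun B => wgt r (insert a B) a * g (insert a B)) (g := fun _ => (0 : ℝ))
      (A.erase a) fun B _ => by rw [wgt, if_pos (mem_insert_self a B), zero_mul],
    ex_mul_left, ex_const, mul_inv_cancel_left₀ h1]
  ring

/-- Removing a set of elements from the random subset. -/
theorem ex_sdiff (hr : r ≠ 1) {A P : Finset α} (hP : P ⊆ A) (g : Finset α → ℝ) :
    ex r A (fun B => g (B \ P)) = ex r A (fun B => (∏ a ∈ P, wgt r B a) * g B) := by
  induction P using Finset.induction_on generalizing g with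
  | empty => simp
  | insert a P ha ih =>
    obtain ⟨h1, h2⟩ := insert_subset_iff.1 hP
    rw [ex_congr (g := fun B => (fun C => g (C.erase a)) (B \ P)) A
        (fun B _ => by simp only; rw [sdiff_insert]),
      ih h2 (fun C => g (C.erase a)),
      ex_congr (g := fun B => (fun C => (∏ b ∈ P, wgt r C b) * g C) (B.erase a)) A
        (fun B _ => by
          simp only
          congr 1
          refine prod_congr rfl fun b hb => ?_
          simp only [wgt, mem_erase, ne_of_mem_of_not_mem hb ha, ne_eq, not_false_eq_true,
            true_and]),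
      ex_erase hr h1 (fun C => (∏ b ∈ P, wgt r C b) * g C)]
    refine ex_congr A fun B _ => ?_
    rw [prod_insert ha]
    ring

theorem ex_prod_wgt (hr : r ≠ 1) {A P : Finset α} (hP : P ⊆ A) :
    ex r A (fun B => ∏ a ∈ P, wgt r B a) = 1 := by
  have h := ex_sdiff hr hP fun _ => (1 : ℝ)
  simp only [ex_const, mul_one] at h
  exact h.symm

theorem ex_prod_wgt_sq (hr : r ≠ 1) {A P : Finset α} (hP : P ⊆ A) :
    ex r A (fun B => (∏ a ∈ P, wgt r B a) * ∏ a ∈ P, wgt r B a) = (1 - r)⁻¹ ^ P.card := by
  rw [← ex_sdiff hr hP fun B => ∏ a ∈ P, wgt r B a,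
    ex_congr (g := fun _ => (1 - r)⁻¹ ^ P.card) A fun B _ => ?_, ex_const]
  rw [← prod_const]
  refine prod_congr rfl fun a ha => ?_
  rw [wgt, if_neg fun h => (mem_sdiff.1 h).2 ha]

/-- The telescoping of the removal of `P` along the order given by `rk`. -/
theorem ex_sdiff_telescope (hr : r ≠ 1) (rk : α → ℕ) (hrk : Function.Injective rk)
    {A P : Finset α} (hP : P ⊆ A) (g : Finset α → ℝ) :
    ex r A (fun B => g (B \ P)) - ex r A g
      = ∑ e ∈ P, ex r A (fun B =>
          (g (B.erase e) - g B) * ∏ a ∈ P.filter (fun a => rk a < rk e), wgt r B a) := by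
  induction P using Finset.induction_on_max_value rk with
  | empty => simp
  | insert a P ha hmax ih =>
    obtain ⟨h1, h2⟩ := insert_subset_iff.1 hP
    have hlt : ∀ b ∈ P, rk b < rk a := fun b hb =>
      lt_of_le_of_ne (hmax b hb) fun h => ha (hrk h ▸ hb)
    have e1 : ∀ e ∈ P, (insert a P).filter (fun b => rk b < rk e)
        = P.filter (fun b => rk b < rk e) := fun e he => by
      rw [filter_insert, if_neg (not_lt.2 (hlt e he).le)]
    have e2 : (insert a P).filter (fun b => rk b < rk a) = P := by
      rw [filter_insert, if_neg (lt_irrefl _), filter_true_of_mem hlt]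
    rw [sum_insert ha, e2, sum_congr rfl fun e he => by rw [e1 e he], ← ih h2]
    have e3 : ex r A (fun B => (g (B.erase a) - g B) * ∏ b ∈ P, wgt r B b)
        = ex r A (fun B => g (B \ insert a P)) - ex r A (fun B => g (B \ P)) := by
      rw [ex_congr (g := fun B => (∏ b ∈ P, wgt r B b) * (g (B.erase a) - g B)) A
          (fun B _ => mul_comm _ _),
        ← ex_sdiff hr h2 fun B => g (B.erase a) - g B, ex_sub]
      congr 1
      exact ex_congr A fun B _ => by rw [sdiff_insert]
    rw [e3]
    ring

omit [DecidableEq α] in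
theorem continuous_ex {A : Finset α} (f : Finset α → ℝ) : Continuous fun r => ex r A f := by
  unfold ex
  fun_prop

/-- The derivative of the mean in the retention probability. -/
theorem hasDeriv_ex (A : Finset α) (f : Finset α → ℝ) (r : ℝ) :
    ∃ D : ℝ, HasDerivAt (fun x => ex x A f) D r ∧
      r * D = -∑ e ∈ A, ex r A (fun B => f (B.erase e) - f B) := by
  induction A using Finset.induction_on generalizing f with
  | empty => exact ⟨0, by simpa using hasDerivAt_const r (f ∅), by simp⟩
  | insert a A ha ih =>
    obtain ⟨D₀, hd₀, he₀⟩ := ih f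
    obtain ⟨D₁, hd₁, he₁⟩ := ih fun B => f (insert a B)
    refine ⟨-ex r A f + (1 - r) * D₀ + (ex r A (fun B => f (insert a B)) + r * D₁), ?_, ?_⟩
    · have h := (((hasDerivAt_id r).const_sub 1).mul hd₀).add ((hasDerivAt_id r).mul hd₁)
      simp only [id_eq, neg_mul, one_mul] at h
      refine h.congr_of_eventuallyEq (Filter.Eventually.of_forall fun x => ?_)
      simp [ex_insert x ha]
    · have na : ∀ B ⊆ A, a ∉ B := fun B hB h => ha (hB h)
      rw [sum_insert ha, ex_insert r ha,
        ex_congr (f := fun B => f (B.erase a) - f B) (g := fun _ => (0 : ℝ)) A (fun B hB => by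
          rw [erase_eq_of_notMem (na B hB), sub_self]),
        ex_congr (f := fun B => f ((insert a B).erase a) - f (insert a B))
          (g := fun B => f B - f (insert a B)) A (fun B hB => by rw [erase_insert (na B hB)]),
        ex_const, ex_sub]
      have e1 : ∀ e ∈ A, ex r (insert a A) (fun B => f (B.erase e) - f B)
          = (1 - r) * ex r A (fun B => f (B.erase e) - f B)
            + r * ex r A (fun B => f (insert a (B.erase e)) - f (insert a B)) := fun e he => by
        rw [ex_insert r ha]
        congr 2
        refine ex_congr A fun B _ => ?_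
        rw [erase_insert_of_ne (ne_of_mem_of_not_mem he ha).symm]
      rw [sum_congr rfl e1, sum_add_distrib, ← mul_sum, ← mul_sum]
      linear_combination (1 - r) * he₀ + r * he₁

/-- Integration by parts in the retention probability. -/
theorem integral_ex_erase (A : Finset α) (f : Finset α → ℝ) :
    ∫ r in (0 : ℝ)..(1 / 2), ∑ e ∈ A, ex r A (fun B => f (B.erase e) - f B)
      = (∫ r in (0 : ℝ)..(1 / 2), ex r A f) - ex (1 / 2) A f / 2 := by
  have hc : Continuous fun r => ∑ e ∈ A, ex r A (fun B => f (B.erase e) - f B) :=
    continuous_finsetSum _ fun e _ => continuous_ex _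
  have hf := continuous_ex (A := A) f
  have h : ∀ r ∈ Set.uIcc (0 : ℝ) (1 / 2), HasDerivAt (fun x => x * ex x A f)
      (ex r A f - ∑ e ∈ A, ex r A (fun B => f (B.erase e) - f B)) r := by
    intro r _
    obtain ⟨D, hD, he⟩ := hasDeriv_ex A f r
    have h := (hasDerivAt_id r).mul hD
    simp only [id_eq, one_mul, he, ← sub_eq_add_neg] at h
    exact h
  have h2 := intervalIntegral.integral_eq_sub_of_hasDerivAt h ((hf.sub hc).intervalIntegrable _ _)
  rw [intervalIntegral.integral_sub (hf.intervalIntegrable _ _) (hc.intervalIntegrable _ _)] at h2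
  linarith

end Vale.Agent.P046.Gap
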