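import Vale.Agent.P046.Gap.Defs
import Vale.Agent.P046.Track.Core

/-!
P046, exact order: the pointwise drift inequality with a margin.
-/

namespace Vale.Agent.P046.Gap

open Finset Vale.Agent.P046.Track

/-- The weight of a low deviation. -/
noncomputable def lowW (y : ℝ) : ℝ := if y ≤ -(1 / 4) then 1 / (1 + y) else 0

theorem hU_le_abs (x : ℝ) : hU x ≤ |x| := min_le_right _ _

theorem hU_le_sq (x : ℝ) : hU x ≤ x ^ 2 := min_le_left _ _

theorem hU_nonneg (x : ℝ) : 0 ≤ hU x := le_min (sq_nonneg x) (abs_nonneg x)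

theorem ll_nonneg {x : ℝ} (h0 : 0 ≤ x) (h1 : x < 1) : 0 ≤ ll x := by
  rcases le_total x (1 / 8) with g | g
  · exact le_trans (by positivity) (ll_small h0 g)
  · rw [ll_big g]; exact div_nonneg (by linarith) (by linarith)

theorem lowW_le {x : ℝ} (h0 : 0 ≤ x) (h1 : x < 1) : lowW (-x) ≤ 32 * ll x := by
  unfold lowW
  split_ifs with h
  · rw [ll_big (by linarith), ← sub_eq_add_neg, mul_div_assoc',
      div_le_div_iff₀ (by linarith) (by nlinarith)]
    nlinarith
  · have := ll_nonneg h0 h1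
    linarith

theorem lowW_zero {x : ℝ} (h : -(1 / 4) < x) : lowW x = 0 := if_neg (not_le.2 h)

theorem hh_dev {x : ℝ} (h0 : 0 ≤ x) (h : x ≤ 1 / 8) : |hh x - 2 * x| ≤ 3 * x ^ 2 := by
  rw [hh_small h0 h, abs_le]
  constructor <;> nlinarith [mul_nonneg h0 (mul_nonneg h0 h0),
    mul_le_mul_of_nonneg_left h (mul_nonneg h0 h0)]

/-- The coupling term is bounded below. -/
theorem coupling_low {x1 x2 P G : ℝ} (a0 : 0 ≤ x1) (b0 : 0 ≤ x2) (a1 : x1 < 1) (b1 : x2 < 1)
    (hP : 0 ≤ P) (hG1 : gg P ≤ G) (hG2 : G ≤ 2 * P) :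
    -8 ≤ (P - (x1 + x2)) * (G - (hh x1 + hh x2)) := by
  have hH : hh x1 + hh x2 ≤ 13 / 32 := by linarith [hh_le a0, hh_le b0]
  have hH0 := add_nonneg (hh_nonneg a0) (hh_nonneg b0)
  have hg := gg_nonneg hP
  rcases le_total (x1 + x2) P with hU | hU
  · rcases le_total 1 P with h | h
    · have h1 := gg_mono (show (0 : ℝ) ≤ 1 by norm_num) h
      rw [show gg 1 = 3 / 4 by norm_num [gg]] at h1
      linarith [mul_nonneg (sub_nonneg.2 hU) (show 0 ≤ G - (hh x1 + hh x2) by linarith)]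
    · nlinarith [mul_le_mul_of_nonneg_left (show -1 ≤ G - (hh x1 + hh x2) by linarith)
        (sub_nonneg.2 hU)]
  · nlinarith [mul_le_mul_of_nonneg_left (show G - (hh x1 + hh x2) ≤ 4 by linarith)
        (sub_nonneg.2 hU)]

/-- The case of small deviations. -/
theorem coupling_small {x1 x2 P G : ℝ} (b0 : 0 ≤ x2) (hx : x2 ≤ x1) (g1 : x1 ≤ 1 / 8)
    (hP : 0 ≤ P) (h1 : P ≤ 1) (hG1 : gg P ≤ G) (hG2 : G ≤ 2 * P) :
    (P - (x1 + x2)) ^ 2 / 8
      ≤ (P - (x1 + x2)) * (G - (hh x1 + hh x2)) + 50000 * (x1 ^ 4 + x2 ^ 4) := by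
  have a0 : 0 ≤ x1 := b0.trans hx
  have g2 := hx.trans g1
  have h4 : 0 ≤ x1 ^ 4 + x2 ^ 4 := by positivity
  obtain ⟨u1, u2⟩ := abs_le.1 (hh_dev a0 g1)
  obtain ⟨v1, v2⟩ := abs_le.1 (hh_dev b0 g2)
  have hQ4 : (x1 ^ 2 + x2 ^ 2) ^ 2 ≤ 2 * (x1 ^ 4 + x2 ^ 4) := by
    linarith [sq_nonneg (x1 ^ 2 - x2 ^ 2)]
  have hSQ : (x1 + x2) ^ 2 ≤ 2 * (x1 ^ 2 + x2 ^ 2) := by linarith [sq_nonneg (x1 - x2)]
  have hS : x1 + x2 ≤ 1 / 4 := by linarith
  have hS0 : 0 ≤ x1 + x2 := by linarith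
  have w1 : 2 * (x1 + x2) - 3 * (x1 ^ 2 + x2 ^ 2) ≤ hh x1 + hh x2 := by linarith
  have w2 : hh x1 + hh x2 ≤ 2 * (x1 + x2) + 3 * (x1 ^ 2 + x2 ^ 2) := by linarith
  clear u1 u2 v1 v2
  generalize hh x1 = H1 at *
  generalize hh x2 = H2 at *
  generalize x1 ^ 4 + x2 ^ 4 = R at *
  generalize hQ : x1 ^ 2 + x2 ^ 2 = Q at *
  generalize x1 + x2 = S at *
  have hQ0 : 0 ≤ Q := by rw [← hQ]; positivity
  rcases le_total S P with hU' | hU'
  · have hgS : 2 * S - 3 * S ^ 2 ≤ gg S := by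
      rw [gg, le_div_iff₀ (by positivity)]
      linarith [pow_nonneg hS0 3, pow_nonneg hS0 4]
    have hd : 32 / 100 * (P - S) ≤ gg P - gg S := by
      rw [gg_sub hP hS0, le_div_iff₀ (by positivity)]
      have hp4 : (1 + P) ^ 2 ≤ 2 ^ 2 := pow_le_pow_left₀ (by linarith) (by linarith) 2
      have hs4 : (1 + S) ^ 2 ≤ (5 / 4) ^ 2 := pow_le_pow_left₀ (by linarith) (by linarith) 2
      have := mul_le_mul hp4 hs4 (sq_nonneg _) (by norm_num)
      calc 32 / 100 * (P - S) * ((1 + P) ^ 2 * (1 + S) ^ 2)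
          ≤ 32 / 100 * (P - S) * (2 ^ 2 * (5 / 4) ^ 2) :=
            mul_le_mul_of_nonneg_left this (by linarith)
        _ = (P - S) * 2 := by ring
        _ ≤ _ := mul_le_mul_of_nonneg_left (by linarith) (by linarith)
    have := mul_le_mul_of_nonneg_left (show 32 / 100 * (P - S) - 9 * Q ≤ G - (H1 + H2) by linarith)
      (sub_nonneg.2 hU')
    linarith [sq_nonneg ((P - S) - 30 * Q), sq_nonneg (P - S)]
  · have := mul_le_mul_of_nonneg_left (show G - (H1 + H2) ≤ 2 * (P - S) + 3 * Q by linarith)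
      (sub_nonneg.2 hU')
    linarith [sq_nonneg ((P - S) + 3 * Q), sq_nonneg (P - S)]

/-- The coupling term controls the total deviation up to fourth powers. -/
theorem coupling_hU {x1 x2 P G : ℝ} (b0 : 0 ≤ x2) (hx : x2 ≤ x1) (a1 : x1 < 1)
    (hP : 0 ≤ P) (hG1 : gg P ≤ G) (hG2 : G ≤ 2 * P) :
    hU (P - (x1 + x2)) / 8
      ≤ (P - (x1 + x2)) * (G - (hh x1 + hh x2)) + 50000 * (x1 ^ 4 + x2 ^ 4) := by
  have a0 : 0 ≤ x1 := b0.trans hx
  have hH : hh x1 + hh x2 ≤ 13 / 32 := by linarith [hh_le a0, hh_le b0]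
  have h4 : 0 ≤ x1 ^ 4 + x2 ^ 4 := by positivity
  have habs := hU_le_abs (P - (x1 + x2))
  rcases le_total 1 P with h1 | h1
  · rcases le_total (x1 + x2) P with hU' | hU'
    · have h := gg_mono (show (0 : ℝ) ≤ 1 by norm_num) h1
      rw [show gg 1 = 3 / 4 by norm_num [gg]] at h
      rw [abs_of_nonneg (sub_nonneg.2 hU')] at habs
      linarith [mul_le_mul_of_nonneg_left (show (1 : ℝ) / 8 ≤ G - (hh x1 + hh x2) by linarith)
        (sub_nonneg.2 hU')]
    · have hb : (1 / 2 : ℝ) ^ 4 ≤ x1 ^ 4 := pow_le_pow_left₀ (by norm_num) (by linarith) 4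
      rw [abs_of_nonpos (sub_nonpos.2 hU')] at habs
      linarith [coupling_low a0 b0 a1 (hx.trans_lt a1) hP hG1 hG2, pow_nonneg b0 4]
  rcases le_total x1 (1 / 8) with g1 | g1
  · linarith [coupling_small b0 hx g1 hP h1 hG1 hG2, hU_le_sq (P - (x1 + x2))]
  · have hb : (1 / 8 : ℝ) ^ 4 ≤ x1 ^ 4 := pow_le_pow_left₀ (by norm_num) g1 4
    have : |P - (x1 + x2)| ≤ 2 := by rw [abs_le]; constructor <;> linarith
    linarith [coupling_low a0 b0 a1 (hx.trans_lt a1) hP hG1 hG2, pow_nonneg b0 4]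

/-- The margin in the cases with deviations of both signs. -/
theorem mixed_margin {x1 x2 P G t : ℝ} (b0 : 0 ≤ x2) (hx : x2 ≤ x1) (a1 : x1 < 1)
    (hP : 0 ≤ P) (hG1 : gg P ≤ G) (hG2 : G ≤ 2 * P) (ht : t ≤ 8 / 2500 * (x1 ^ 4 + x2 ^ 4)) :
    (hU (P - (x1 + x2)) + (lowW (-x1) + lowW (-x2))) / 1000000000
      ≤ ll x1 + ll x2 + (P - (x1 + x2)) * (G - (hh x1 + hh x2)) - t := by
  have a0 : 0 ≤ x1 := b0.trans hx
  have b1 : x2 < 1 := hx.trans_lt a1
  have hb := base b0 hx a1 hG1 hG2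
  have hc := coupling_hU b0 hx a1 hP hG1 hG2
  have hl := coupling_low a0 b0 a1 b1 hP hG1 hG2
  have l1 := lowW_le a0 a1
  have l2 := lowW_le b0 b1
  have n1 := ll_nonneg a0 a1
  have n2 := ll_nonneg b0 b1
  have h4 : 0 ≤ x1 ^ 4 + x2 ^ 4 := by positivity
  have hu := hU_nonneg (P - (x1 + x2))
  rcases lt_or_ge x1 (1 / 4) with g | g
  · rw [lowW_zero (show -(1 / 4) < -x1 by linarith), lowW_zero (show -(1 / 4) < -x2 by linarith)]
    linarith
  · have hb4 : (1 / 4 : ℝ) ^ 4 ≤ x1 ^ 4 := pow_le_pow_left₀ (by norm_num) g 4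
    have ht1 : x1 ^ 4 ≤ 1 := pow_le_one₀ a0 a1.le
    have ht2 : x2 ^ 4 ≤ 1 := pow_le_one₀ b0 b1.le
    linarith [pow_nonneg b0 4]

/-- The margin for sorted arguments. -/
theorem core_margin_sorted {a b c : ℝ} (ha : -1 < a) (hb : -1 < b) (hc : -1 < c) (hab : a ≤ b)
    (hbc : b ≤ c) : own a + own b + own c - (a + b + c) * (dpsi a + dpsi b + dpsi c)
      + (hU (a + b + c) + (lowW a + lowW b + lowW c)) / 1000000000 ≤ 0 := by
  have hu := hU_nonneg (a + b + c)
  by_cases a0 : 0 ≤ a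
  · obtain ⟨e1, f1⟩ := own_pos a0
    have b0 : 0 ≤ b := a0.trans hab
    obtain ⟨e2, f2⟩ := own_pos b0
    have c0 : 0 ≤ c := b0.trans hbc
    obtain ⟨e3, f3⟩ := own_pos c0
    rw [e1, e2, e3, f1, f2, f3, lowW_zero (show -(1 / 4) < a by linarith),
      lowW_zero (show -(1 / 4) < b by linarith), lowW_zero (show -(1 / 4) < c by linarith)]
    have ab0 : 0 ≤ a + b := by linarith
    have hs : gg (a + b + c) ≤ gg a + gg b + gg c := by
      linarith [gg_subadd ab0 c0, gg_subadd a0 b0]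
    have hU0 : 0 ≤ a + b + c := by linarith
    have hsmall : hU (a + b + c) / 2 ≤ (a + b + c) * gg (a + b + c) := by
      rcases le_total 1 (a + b + c) with h | h
      · have h1 := gg_mono (show (0 : ℝ) ≤ 1 by norm_num) h
        rw [show gg 1 = 3 / 4 by norm_num [gg]] at h1
        have := hU_le_abs (a + b + c)
        rw [abs_of_nonneg hU0] at this
        nlinarith [mul_le_mul_of_nonneg_left h1 hU0]
      · have h1 : (a + b + c) / 2 ≤ gg (a + b + c) := by
          rw [gg, le_div_iff₀ (by positivity)]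
          nlinarith [mul_le_mul_of_nonneg_left h hU0, mul_le_mul_of_nonneg_left h (sq_nonneg (a + b + c))]
        nlinarith [hU_le_sq (a + b + c), mul_le_mul_of_nonneg_left h1 hU0]
    have hr1 := mul_nonneg (rr_nonneg a0) (show 0 ≤ a / 2 + b + c by linarith)
    have hr2 := mul_nonneg (rr_nonneg b0) (show 0 ≤ a + b / 2 + c by linarith)
    have hr3 := mul_nonneg (rr_nonneg c0) (show 0 ≤ a + b + c / 2 by linarith)
    nlinarith [mul_le_mul_of_nonneg_left hs hU0]
  have ha' : 0 < -a := by linarith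
  obtain ⟨e1, f1⟩ := own_neg ha' (by linarith)
  rw [neg_neg] at e1 f1
  by_cases b0 : 0 ≤ b
  · obtain ⟨e2, f2⟩ := own_pos b0
    have c0 : 0 ≤ c := b0.trans hbc
    obtain ⟨e3, f3⟩ := own_pos c0
    have t2 := Track.tail_le b0 ha'.le (show b - -a ≤ a + b + c by linarith)
    have t3 := Track.tail_le c0 ha'.le (show c - -a ≤ a + b + c by linarith)
    have h4 : 0 ≤ (-a) ^ 4 := by positivity
    have hB := mixed_margin (x1 := -a) (x2 := 0) (P := b + c) (G := gg b + gg c)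
      (t := 2 * ((-a) ^ 4 / 2500)) le_rfl ha'.le (by linarith) (by linarith)
      (gg_subadd b0 c0) (by linarith [gg_le b0, gg_le c0]) (by linarith)
    rw [hh_zero.1, hh_zero.2, neg_neg, neg_zero, lowW_zero (show -(1 / 4) < (0 : ℝ) by norm_num),
      show b + c - (-a + 0) = a + b + c by ring] at hB
    rw [e1, e2, e3, f1, f2, f3, lowW_zero (show -(1 / 4) < b by linarith),
      lowW_zero (show -(1 / 4) < c by linarith)]
    linarith [show (a + b + c) * (-hh (-a) + (gg b + rr b) + (gg c + rr c))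
        = (a + b + c) * (gg b + gg c - (hh (-a) + 0))
          + ((a + b + c) * rr b + (a + b + c) * rr c) by ring,
      show b * rr b / 2 - (a + b + c) * rr b = rr b * (b / 2 - (a + b + c)) by ring,
      show c * rr c / 2 - (a + b + c) * rr c = rr c * (c / 2 - (a + b + c)) by ring]
  have hb' : 0 < -b := by linarith
  obtain ⟨e2, f2⟩ := own_neg hb' (by linarith)
  rw [neg_neg] at e2 f2
  by_cases c0 : 0 ≤ c
  · obtain ⟨e3, f3⟩ := own_pos c0
    have t3 := Track.tail_le c0 (show 0 ≤ -a + -b by linarith)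
      (show c - (-a + -b) ≤ a + b + c by linarith)
    have hs : (-a + -b) ^ 4 ≤ 8 * ((-a) ^ 4 + (-b) ^ 4) := by
      have u1 : (-a + -b) ^ 2 ≤ 2 * ((-a) ^ 2 + (-b) ^ 2) := by nlinarith [sq_nonneg (a - b)]
      have u2 := pow_le_pow_left₀ (sq_nonneg _) u1 2
      nlinarith [sq_nonneg (a ^ 2 - b ^ 2)]
    have hB := mixed_margin (x1 := -a) (x2 := -b) (P := c) (G := gg c)
      (t := (-a + -b) ^ 4 / 2500) hb'.le (by linarith) (by linarith) c0
      le_rfl (gg_le c0) (by linarith)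
    rw [neg_neg, neg_neg, show c - (-a + -b) = a + b + c by ring] at hB
    rw [e1, e2, e3, f1, f2, f3, lowW_zero (show -(1 / 4) < c by linarith)]
    linarith [show (a + b + c) * (-hh (-a) + -hh (-b) + (gg c + rr c))
        = (a + b + c) * (gg c - (hh (-a) + hh (-b))) + (a + b + c) * rr c by ring,
      show c * rr c / 2 - (a + b + c) * rr c = rr c * (c / 2 - (a + b + c)) by ring]
  have hc' : 0 < -c := by linarith
  obtain ⟨e3, f3⟩ := own_neg hc' (by linarith)
  rw [neg_neg] at e3 f3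
  have hlin : ∀ x : ℝ, 0 ≤ x → x < 1 → x / 8 ≤ hh x := fun x u v => by
    rcases le_total x (1 / 8) with g | g
    · linarith [(abs_le.1 (hh_dev u g)).1, mul_le_mul_of_nonneg_left g u, show x ^ 2 = x * x by ring]
    · rw [hh_big g]; linarith
  have hUabs := hU_le_abs (a + b + c)
  have hUsq := hU_le_sq (a + b + c)
  have l1 := lowW_le ha'.le (by linarith)
  have l2 := lowW_le hb'.le (by linarith)
  have l3 := lowW_le hc'.le (by linarith)
  rw [neg_neg] at l1 l2 l3
  have n1 := ll_nonneg ha'.le (by linarith)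
  have n2 := ll_nonneg hb'.le (by linarith)
  have n3 := ll_nonneg hc'.le (by linarith)
  have hk := mul_le_mul_of_nonneg_left
    (add_le_add (add_le_add (hlin _ ha'.le (by linarith)) (hlin _ hb'.le (by linarith)))
      (hlin _ hc'.le (by linarith))) (show 0 ≤ -(a + b + c) by linarith)
  rw [e1, e2, e3, f1, f2, f3]
  linarith [show -(a + b + c) * (-a / 8 + -b / 8 + -c / 8) = (a + b + c) ^ 2 / 8 by ring]

/-- **The pointwise drift inequality with a margin.** -/
theorem core_margin {a b c : ℝ} (ha : -1 < a) (hb : -1 < b) (hc : -1 < c) :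
    own a + own b + own c - (a + b + c) * (dpsi a + dpsi b + dpsi c)
      + (hU (a + b + c) + (lowW a + lowW b + lowW c)) / 1000000000 ≤ 0 := by
  have key : ∀ x y z : ℝ, -1 < x → -1 < y → -1 < z → x ≤ y → y ≤ z →
      own x + own y + own z - (x + y + z) * (dpsi x + dpsi y + dpsi z)
        + (hU (x + y + z) + (lowW x + lowW y + lowW z)) / 1000000000 ≤ 0 :=
    fun x y z h1 h2 h3 h4 h5 => core_margin_sorted h1 h2 h3 h4 h5
  rcases le_total a b with h1 | h1 <;> rcases le_total b c with h2 | h2 <;>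
    rcases le_total a c with h3 | h3
  all_goals
    first
      | linarith [key a b c ha hb hc h1 h2]
      | (have := key a c b ha hc hb h3 h2; ring_nf at this ⊢; linarith)
      | (have := key c a b hc ha hb h3 h1; ring_nf at this ⊢; linarith)
      | (have := key b a c hb ha hc h1 h3; ring_nf at this ⊢; linarith)
      | (have := key b c a hb hc ha h2 h3; ring_nf at this ⊢; linarith)
      | (have := key c b a hc hb ha h2 h1; ring_nf at this ⊢; linarith)

end Vale.Agent.P046.Gap
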