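import Vale.Agent.P046.Gap.Expect

/-!
P046, exact order: symmetrisation and contraction for suprema of random sums.
-/

namespace Vale.Agent.P046.Gap

open Finset

variable {ι Θ : Type} [DecidableEq ι] [Nonempty Θ]

/-- A function bounded in absolute value. -/
def IsBd (g : Θ → ℝ) : Prop := ∃ C, ∀ θ, |g θ| ≤ C

omit [Nonempty Θ] in
theorem IsBd.add {f g : Θ → ℝ} (hf : IsBd f) (hg : IsBd g) : IsBd (fun θ => f θ + g θ) := by
  obtain ⟨C, hC⟩ := hf
  obtain ⟨D, hD⟩ := hg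
  exact ⟨C + D, fun θ => (abs_add_le _ _).trans (add_le_add (hC θ) (hD θ))⟩

omit [Nonempty Θ] in
theorem IsBd.mul_left {f : Θ → ℝ} (hf : IsBd f) (c : ℝ) : IsBd (fun θ => c * f θ) := by
  obtain ⟨C, hC⟩ := hf
  exact ⟨|c| * C, fun θ => by rw [abs_mul]; exact mul_le_mul_of_nonneg_left (hC θ) (abs_nonneg c)⟩

omit [Nonempty Θ] in
theorem isBd_sum {s : Finset ι} {f : ι → Θ → ℝ} (hf : ∀ i ∈ s, IsBd (f i)) :
    IsBd (fun θ => ∑ i ∈ s, f i θ) := by
  induction s using Finset.induction_on with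
  | empty => exact ⟨0, fun θ => by simp⟩
  | insert a s ha ih =>
    simp only [sum_insert ha]
    exact (hf a (mem_insert_self a s)).add (ih fun i hi => hf i (mem_insert_of_mem hi))

theorem IsBd.le_sup {g : Θ → ℝ} (hg : IsBd g) (θ : Θ) : g θ ≤ ⨆ θ, g θ := by
  obtain ⟨C, hC⟩ := hg
  refine le_ciSup ⟨C, ?_⟩ θ
  rintro x ⟨θ', rfl⟩
  exact (le_abs_self _).trans (hC θ')

/-- The supremum of a mixture is at most the mixture of the suprema. -/
theorem sup_convex {f g : Θ → ℝ} (hf : IsBd f) (hg : IsBd g) {a b : ℝ} (ha : 0 ≤ a) (hb : 0 ≤ b) :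
    ⨆ θ, (a * f θ + b * g θ) ≤ a * (⨆ θ, f θ) + b * ⨆ θ, g θ :=
  ciSup_le fun θ => add_le_add (mul_le_mul_of_nonneg_left (hf.le_sup θ) ha)
    (mul_le_mul_of_nonneg_left (hg.le_sup θ) hb)

/-- `1` on `P` and `-1` off it. -/
noncomputable def sgn (P : Finset ι) (i : ι) : ℝ := if i ∈ P then 1 else -1

/-- The indicator of `B`. -/
noncomputable def ind (B : Finset ι) (i : ι) : ℝ := if i ∈ B then 1 else 0

omit [Nonempty Θ] in
theorem isBd_signed {s : Finset ι} {f : ι → Θ → ℝ} {G : Θ → ℝ} (c : ι → ℝ)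
    (hf : ∀ i ∈ s, IsBd (f i)) (hG : IsBd G) :
    IsBd (fun θ => (∑ i ∈ s, c i * f i θ) + G θ) :=
  (isBd_sum fun i hi => (hf i hi).mul_left (c i)).add hG

theorem sum_insert_coeff {s B : Finset ι} {a : ι} (ha : a ∉ s) (g : Finset ι → ι → ℝ)
    (hg : ∀ B i, i ≠ a → g (insert a B) i = g B i) (f : ι → ℝ) :
    ∑ i ∈ insert a s, g (insert a B) i * f i
      = g (insert a B) a * f a + ∑ i ∈ s, g B i * f i := by
  rw [sum_insert ha]
  congr 1
  exact sum_congr rfl fun i hi => by rw [hg B i (ne_of_mem_of_not_mem hi ha)]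

theorem sgn_insert_ne (B : Finset ι) {a i : ι} (h : i ≠ a) : sgn (insert a B) i = sgn B i := by
  simp [sgn, h]

theorem ind_insert_ne (B : Finset ι) {a i : ι} (h : i ≠ a) : ind (insert a B) i = ind B i := by
  simp [ind, h]

/-- The sign-averaged supremum. -/
noncomputable def radSup (s : Finset ι) (f : ι → Θ → ℝ) (G : Θ → ℝ) : ℝ :=
  ex (1 / 2) s fun P => ⨆ θ, (∑ i ∈ s, sgn P i * f i θ) + G θ

/-- The supremum averaged over thinnings and signs. -/
noncomputable def thinRadSup (r : ℝ) (s : Finset ι) (f : ι → Θ → ℝ) (G : Θ → ℝ) : ℝ :=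
  ex r s fun B => radSup s (fun i θ => ind B i * f i θ) G

theorem radSup_insert {s : Finset ι} {a : ι} (ha : a ∉ s) (f : ι → Θ → ℝ) (G : Θ → ℝ) :
    radSup (insert a s) f G = 1 / 2 * radSup s f (fun θ => -f a θ + G θ)
      + 1 / 2 * radSup s f (fun θ => f a θ + G θ) := by
  rw [radSup, ex_insert _ ha, show (1 : ℝ) - 1 / 2 = 1 / 2 by norm_num]
  refine congrArg₂ (fun x y => 1 / 2 * x + 1 / 2 * y) (ex_congr _ fun P hP => ?_)
    (ex_congr _ fun P hP => ?_)
  · refine iSup_congr fun θ => ?_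
    have : a ∉ P := fun h => ha (hP h)
    rw [sum_insert ha, sgn, if_neg this]; ring
  · refine iSup_congr fun θ => ?_
    rw [sum_insert_coeff ha sgn (fun B i h => sgn_insert_ne B h), sgn,
      if_pos (mem_insert_self a P)]
    ring

theorem thinRadSup_insert (r : ℝ) {s : Finset ι} {a : ι} (ha : a ∉ s) (f : ι → Θ → ℝ)
    (G : Θ → ℝ) :
    thinRadSup r (insert a s) f G = (1 - r) * thinRadSup r s f G
      + r * (1 / 2 * thinRadSup r s f (fun θ => -f a θ + G θ)
        + 1 / 2 * thinRadSup r s f (fun θ => f a θ + G θ)) := by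
  simp only [thinRadSup]
  rw [ex_insert r ha, ← ex_mul_left s _ (1 / 2), ← ex_mul_left s _ (1 / 2), ← ex_add]
  refine congrArg₂ (fun x y => (1 - r) * x + r * y) (ex_congr _ fun B hB => ?_)
    (ex_congr _ fun B hB => ?_)
  · have hz : ind B a = 0 := by simp [ind, show a ∉ B from fun h => ha (hB h)]
    rw [radSup_insert ha]
    simp only [hz, zero_mul, neg_zero, zero_add]
    ring
  · have h1 : ind (insert a B) a = 1 := by simp [ind]
    have h2 : ∀ G', radSup s (fun i θ => ind (insert a B) i * f i θ) G'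
        = radSup s (fun i θ => ind B i * f i θ) G' := fun G' => by
      refine ex_congr _ fun P _ => iSup_congr fun θ => ?_
      congr 1
      exact sum_congr rfl fun i hi => by simp only [ind_insert_ne B (ne_of_mem_of_not_mem hi ha)]
    rw [radSup_insert ha]
    simp only [h1, one_mul, h2]

/-- The sign average is convex in the shift. -/
theorem radSup_convex {s : Finset ι} {f : ι → Θ → ℝ} {G G' : Θ → ℝ}
    (hf : ∀ i ∈ s, IsBd (f i)) (hG : IsBd G) (hG' : IsBd G') {a b : ℝ} (ha : 0 ≤ a) (hb : 0 ≤ b)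
    (hab : a + b = 1) :
    radSup s f (fun θ => a * G θ + b * G' θ) ≤ a * radSup s f G + b * radSup s f G' := by
  simp only [radSup]
  rw [← ex_mul_left, ← ex_mul_left, ← ex_add]
  refine ex_mono _ (by norm_num) (by norm_num) fun P _ => ?_
  refine le_trans (le_of_eq (iSup_congr fun θ => ?_))
    (sup_convex (isBd_signed _ hf hG) (isBd_signed _ hf hG') ha hb)
  linear_combination -(∑ i ∈ s, sgn P i * f i θ) * hab

theorem thinRadSup_convex {r : ℝ} (h0 : 0 ≤ r) (h1 : r ≤ 1) {s : Finset ι} {f : ι → Θ → ℝ}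
    {G G' : Θ → ℝ} (hf : ∀ i ∈ s, IsBd (f i)) (hG : IsBd G) (hG' : IsBd G') {a b : ℝ}
    (ha : 0 ≤ a) (hb : 0 ≤ b) (hab : a + b = 1) :
    thinRadSup r s f (fun θ => a * G θ + b * G' θ)
      ≤ a * thinRadSup r s f G + b * thinRadSup r s f G' := by
  simp only [thinRadSup]
  rw [← ex_mul_left, ← ex_mul_left, ← ex_add]
  exact ex_mono _ h0 h1 fun B _ =>
    radSup_convex (fun i hi => (hf i hi).mul_left _) hG hG' ha hb hab

/-- **Symmetrisation.** -/
theorem symm_sup {r : ℝ} (h0 : 0 ≤ r) (h1 : r ≤ 1) :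
    ∀ (s : Finset ι) (f : ι → Θ → ℝ) (G : Θ → ℝ), (∀ i ∈ s, IsBd (f i)) → IsBd G →
      ex r s (fun B => ⨆ θ, (∑ i ∈ s, (ind B i - r) * f i θ) + G θ)
        ≤ 2 * thinRadSup r s f (fun θ => G θ / 2) := by
  intro s
  induction s using Finset.induction_on with
  | empty =>
    intro f G _ hG
    simp only [thinRadSup, radSup, ex_empty, sum_empty, zero_add]
    refine ciSup_le fun θ => ?_
    have hh : IsBd fun θ => G θ / 2 := by
      simpa only [div_eq_inv_mul] using hG.mul_left (2 : ℝ)⁻¹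
    linarith [hh.le_sup θ]
  | insert a s ha ih =>
    intro f G hf hG
    have hfa := hf a (mem_insert_self a s)
    have hfs : ∀ i ∈ s, IsBd (f i) := fun i hi => hf i (mem_insert_of_mem hi)
    have hG2 : IsBd fun θ => G θ / 2 := by
      simpa only [div_eq_inv_mul] using hG.mul_left (2 : ℝ)⁻¹
    have hneg : IsBd fun θ => -f a θ := by simpa using hfa.mul_left (-1)
    have e0 : ex r s (fun B => ⨆ θ, (∑ i ∈ insert a s, (ind B i - r) * f i θ) + G θ)
        = ex r s (fun B => ⨆ θ, (∑ i ∈ s, (ind B i - r) * f i θ) + ((-r) * f a θ + G θ)) := by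
      refine ex_congr _ fun B hB => iSup_congr fun θ => ?_
      rw [sum_insert ha, ind, if_neg fun h => ha (hB h)]
      ring
    have e1 : ex r s (fun B => ⨆ θ, (∑ i ∈ insert a s, (ind (insert a B) i - r) * f i θ) + G θ)
        = ex r s (fun B => ⨆ θ, (∑ i ∈ s, (ind B i - r) * f i θ) + ((1 - r) * f a θ + G θ)) := by
      refine ex_congr _ fun B _ => iSup_congr fun θ => ?_
      rw [sum_insert_coeff ha (fun B i => ind B i - r) (fun B i h => by rw [ind_insert_ne B h]),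
        ind, if_pos (mem_insert_self a B)]
      ring
    rw [ex_insert r ha, e0, e1, thinRadSup_insert r ha]
    have i0 := ih f _ hfs ((hfa.mul_left (-r)).add hG)
    have i1 := ih f _ hfs ((hfa.mul_left (1 - r)).add hG)
    have c0 := thinRadSup_convex h0 h1 hfs hG2 (hneg.add hG2) (a := 1 - r / 2) (b := r / 2)
      (by linarith) (by linarith) (by ring)
    have c1 := thinRadSup_convex h0 h1 hfs hG2 (hfa.add hG2) (a := (1 + r) / 2)
      (b := (1 - r) / 2) (by linarith) (by linarith) (by ring)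
    rw [show (fun θ => (1 - r / 2) * (G θ / 2) + r / 2 * (-f a θ + G θ / 2))
      = fun θ => (-r * f a θ + G θ) / 2 from funext fun θ => by ring] at c0
    rw [show (fun θ => (1 + r) / 2 * (G θ / 2) + (1 - r) / 2 * (f a θ + G θ / 2))
      = fun θ => ((1 - r) * f a θ + G θ) / 2 from funext fun θ => by ring] at c1
    have h1r : 0 ≤ 1 - r := by linarith
    have j0 := mul_le_mul_of_nonneg_left (i0.trans (mul_le_mul_of_nonneg_left c0 two_pos.le)) h1r
    have j1 := mul_le_mul_of_nonneg_left (i1.trans (mul_le_mul_of_nonneg_left c1 two_pos.le)) h0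
    have hc := mul_le_mul_of_nonneg_left
      (thinRadSup_convex h0 h1 hfs (hneg.add hG2) (hfa.add hG2) (a := 1 / 2) (b := 1 / 2)
        (by norm_num) (by norm_num) (by ring)) (sq_nonneg r)
    rw [show (fun θ => 1 / 2 * (-f a θ + G θ / 2) + 1 / 2 * (f a θ + G θ / 2))
      = fun θ => G θ / 2 from funext fun θ => by ring] at hc
    linarith

/-- One step of the contraction. -/
theorem contract_step {G ψ g g' : Θ → ℝ} (hG : IsBd G) (hg : IsBd g) (hg' : IsBd g')
    {L : ℝ} (hL : 0 ≤ L) (h : ∀ θ θ', |ψ θ - ψ θ'| ≤ L * (|g θ - g θ'| + |g' θ - g' θ'|)) :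
    2 * ((⨆ θ, -ψ θ + G θ) + ⨆ θ, ψ θ + G θ)
      ≤ (⨆ θ, -(2 * L * g θ) + -(2 * L * g' θ) + G θ)
        + (⨆ θ, -(2 * L * g θ) + 2 * L * g' θ + G θ)
        + (⨆ θ, 2 * L * g θ + -(2 * L * g' θ) + G θ)
        + ⨆ θ, 2 * L * g θ + 2 * L * g' θ + G θ := by
  have hn : ∀ {k : Θ → ℝ}, IsBd k → IsBd fun θ => -(2 * L * k θ) := fun {k} hk => by
    simpa [neg_mul] using hk.mul_left (-(2 * L))
  set R := (⨆ θ, -(2 * L * g θ) + -(2 * L * g' θ) + G θ)
        + (⨆ θ, -(2 * L * g θ) + 2 * L * g' θ + G θ)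
        + (⨆ θ, 2 * L * g θ + -(2 * L * g' θ) + G θ)
        + ⨆ θ, 2 * L * g θ + 2 * L * g' θ + G θ
  suffices ∀ θ θ', 2 * ((-ψ θ + G θ) + (ψ θ' + G θ')) ≤ R by
    have h2 : ∀ θ, (⨆ θ', ψ θ' + G θ') ≤ R / 2 - (-ψ θ + G θ) := fun θ =>
      ciSup_le fun θ' => by linarith [this θ θ']
    have : (⨆ θ, -ψ θ + G θ) ≤ R / 2 - ⨆ θ', ψ θ' + G θ' :=
      ciSup_le fun θ => by linarith [h2 θ]
    linarith
  intro θ θ'
  have p1 := IsBd.le_sup (((hn hg).add (hn hg')).add hG)
  have p2 := IsBd.le_sup (((hn hg).add (hg'.mul_left (2 * L))).add hG)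
  have p3 := IsBd.le_sup (((hg.mul_left (2 * L)).add (hn hg')).add hG)
  have p4 := IsBd.le_sup (((hg.mul_left (2 * L)).add (hg'.mul_left (2 * L))).add hG)
  have k := (le_abs_self _).trans (h θ' θ)
  have m1 := mul_nonneg hL (abs_nonneg (g θ' - g θ))
  have m2 := mul_nonneg hL (abs_nonneg (g' θ' - g' θ))
  rcases abs_cases (g θ' - g θ) with ⟨e1, -⟩ | ⟨e1, -⟩ <;>
    rcases abs_cases (g' θ' - g' θ) with ⟨e2, -⟩ | ⟨e2, -⟩ <;>
    rw [e1] at k m1 <;> rw [e2] at k m2
  · linarith [p1 θ, p4 θ', p2 θ, p3 θ', p2 θ', p3 θ]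
  · linarith [p1 θ, p4 θ', p2 θ, p3 θ', p1 θ', p4 θ]
  · linarith [p1 θ, p4 θ', p2 θ, p3 θ', p2 θ', p3 θ, p1 θ', p4 θ]
  · linarith [p1 θ', p4 θ, p2 θ', p3 θ, p2 θ, p3 θ']

/-- The supremum of a doubly signed linear sum. -/
noncomputable def radSup2 (L : ℝ) (s : Finset ι) (g g' : ι → Θ → ℝ) (G : Θ → ℝ) : ℝ :=
  ex (1 / 2) s fun P => radSup s (fun i θ => 2 * L * g' i θ)
    fun θ => (∑ i ∈ s, sgn P i * (2 * L * g i θ)) + G θ

theorem radSup2_insert (L : ℝ) {s : Finset ι} {a : ι} (ha : a ∉ s) (g g' : ι → Θ → ℝ)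
    (G : Θ → ℝ) :
    radSup2 L (insert a s) g g' G = 1 / 4 *
      (radSup2 L s g g' (fun θ => -(2 * L * g a θ) + -(2 * L * g' a θ) + G θ)
      + radSup2 L s g g' (fun θ => -(2 * L * g a θ) + 2 * L * g' a θ + G θ)
      + radSup2 L s g g' (fun θ => 2 * L * g a θ + -(2 * L * g' a θ) + G θ)
      + radSup2 L s g g' (fun θ => 2 * L * g a θ + 2 * L * g' a θ + G θ)) := by
  simp only [radSup2]
  rw [ex_insert _ ha, ← ex_add, ← ex_add, ← ex_add, show (1 : ℝ) - 1 / 2 = 1 / 2 by norm_num,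
    ← mul_add, ← ex_add, ← ex_mul_left, ← ex_mul_left]
  refine ex_congr _ fun P hP => ?_
  rw [radSup_insert ha, radSup_insert ha]
  have hm : a ∉ P := fun h => ha (hP h)
  have e0 : ∀ θ, (∑ i ∈ insert a s, sgn P i * (2 * L * g i θ))
      = -(2 * L * g a θ) + ∑ i ∈ s, sgn P i * (2 * L * g i θ) := fun θ => by
    rw [sum_insert ha, sgn, if_neg hm]; ring
  have e1 : ∀ θ, (∑ i ∈ insert a s, sgn (insert a P) i * (2 * L * g i θ))
      = 2 * L * g a θ + ∑ i ∈ s, sgn P i * (2 * L * g i θ) := fun θ => by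
    rw [sum_insert_coeff ha sgn (fun B i h => sgn_insert_ne B h), sgn,
      if_pos (mem_insert_self a P)]
    ring
  simp only [e0, e1]
  have c : ∀ x y z : Θ → ℝ, (fun θ => x θ + (y θ + (∑ i ∈ s, sgn P i * (2 * L * g i θ)) + z θ))
      = fun θ => (∑ i ∈ s, sgn P i * (2 * L * g i θ)) + (y θ + x θ + z θ) :=
    fun x y z => funext fun θ => by ring
  rw [c (fun θ => -(2 * L * g' a θ)) (fun θ => -(2 * L * g a θ)) G,
    c (fun θ => 2 * L * g' a θ) (fun θ => -(2 * L * g a θ)) G,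
    c (fun θ => -(2 * L * g' a θ)) (fun θ => 2 * L * g a θ) G,
    c (fun θ => 2 * L * g' a θ) (fun θ => 2 * L * g a θ) G]
  ring

/-- **Contraction.** -/
theorem contract_sup {L : ℝ} (hL : 0 ≤ L) :
    ∀ (s : Finset ι) (ψ g g' : ι → Θ → ℝ) (G : Θ → ℝ), IsBd G → (∀ i ∈ s, IsBd (g i)) →
      (∀ i ∈ s, IsBd (g' i)) →
      (∀ i ∈ s, ∀ θ θ', |ψ i θ - ψ i θ'| ≤ L * (|g i θ - g i θ'| + |g' i θ - g' i θ'|)) →
      radSup s ψ G ≤ radSup2 L s g g' G := by
  intro s
  induction s using Finset.induction_on with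
  | empty => intro ψ g g' G _ _ _ _; simp [radSup, radSup2]
  | insert a s ha ih =>
    intro ψ g g' G hG hg hg' h
    have hb : ∀ i ∈ insert a s, IsBd (ψ i) := fun i hi => by
      obtain ⟨C, hC⟩ := hg i hi
      obtain ⟨D, hD⟩ := hg' i hi
      obtain ⟨θ₀⟩ := (inferInstance : Nonempty Θ)
      refine ⟨|ψ i θ₀| + L * ((C + C) + (D + D)), fun θ => ?_⟩
      have h1 := h i hi θ θ₀
      have h2 : |g i θ - g i θ₀| ≤ C + C := (abs_sub _ _).trans (add_le_add (hC θ) (hC θ₀))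
      have h3 : |g' i θ - g' i θ₀| ≤ D + D := (abs_sub _ _).trans (add_le_add (hD θ) (hD θ₀))
      have h4 := abs_sub_abs_le_abs_sub (ψ i θ) (ψ i θ₀)
      have h5 := mul_le_mul_of_nonneg_left (add_le_add h2 h3) hL
      linarith
    have hga := (hg a (mem_insert_self a s)).mul_left (2 * L)
    have hga' := (hg' a (mem_insert_self a s)).mul_left (2 * L)
    have hψa := hb a (mem_insert_self a s)
    have hψn : IsBd fun θ => -ψ a θ := by simpa using hψa.mul_left (-1)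
    have hs : ∀ {p : ι → Prop}, (∀ i ∈ insert a s, p i) → ∀ i ∈ s, p i :=
      fun hp i hi => hp i (mem_insert_of_mem hi)
    rw [radSup_insert ha, radSup2_insert L ha]
    refine (add_le_add
      (mul_le_mul_of_nonneg_left (ih ψ g g' _ (hψn.add hG) (hs hg) (hs hg') (hs h)) (by norm_num))
      (mul_le_mul_of_nonneg_left (ih ψ g g' _ (hψa.add hG) (hs hg) (hs hg') (hs h))
        (by norm_num))).trans ?_
    simp only [radSup2, radSup, ← ex_add, ← ex_mul_left]
    refine ex_mono _ (by norm_num) (by norm_num) fun P _ =>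
      ex_mono _ (by norm_num) (by norm_num) fun Q _ => ?_
    let W : Θ → ℝ := fun θ => (∑ i ∈ s, sgn Q i * (2 * L * g' i θ))
      + ((∑ i ∈ s, sgn P i * (2 * L * g i θ)) + G θ)
    have hW : IsBd W := isBd_signed _ (fun i hi => (hs hg' i hi).mul_left _)
      (isBd_signed _ (fun i hi => (hs hg i hi).mul_left _) hG)
    have key := contract_step hW (hg a (mem_insert_self a s)) (hg' a (mem_insert_self a s)) hL
      (h a (mem_insert_self a s))
    have e : ∀ k : Θ → ℝ, (⨆ θ, (∑ i ∈ s, sgn Q i * (2 * L * g' i θ))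
        + ((∑ i ∈ s, sgn P i * (2 * L * g i θ)) + (k θ + G θ))) = ⨆ θ, k θ + W θ :=
      fun k => iSup_congr fun θ => by simp only [W]; ring
    rw [e (fun θ => -ψ a θ), e (fun θ => ψ a θ), e (fun θ => -(2 * L * g a θ) + -(2 * L * g' a θ)),
      e (fun θ => -(2 * L * g a θ) + 2 * L * g' a θ),
      e (fun θ => 2 * L * g a θ + -(2 * L * g' a θ)), e (fun θ => 2 * L * g a θ + 2 * L * g' a θ)]
    linarith

omit [Nonempty Θ] in
/-- The mean square of a signed sum. -/
theorem rad_sq (s : Finset ι) (a : ι → ℝ) :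
    ex (1 / 2) s (fun P => (∑ i ∈ s, sgn P i * a i) ^ 2) = ∑ i ∈ s, a i ^ 2 := by
  suffices h : ∀ c, ex (1 / 2) s (fun P => (c + ∑ i ∈ s, sgn P i * a i) ^ 2)
      = c ^ 2 + ∑ i ∈ s, a i ^ 2 by simpa using h 0
  induction s using Finset.induction_on with
  | empty => intro c; simp
  | insert x s hx ih =>
    intro c
    rw [ex_insert _ hx,
      ex_congr (g := fun P => ((c - a x) + ∑ i ∈ s, sgn P i * a i) ^ 2) s fun P hP => ?_,
      ex_congr (f := fun P => (c + ∑ i ∈ insert x s, sgn (insert x P) i * a i) ^ 2)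
        (g := fun P => ((c + a x) + ∑ i ∈ s, sgn P i * a i) ^ 2) s fun P _ => ?_,
      ih, ih, sum_insert hx]
    · ring
    · rw [sum_insert hx, sgn, if_pos (mem_insert_self x P)]
      rw [sum_congr rfl fun i hi => by rw [sgn_insert_ne P (ne_of_mem_of_not_mem hi hx)]]
      ring
    · rw [sum_insert hx, sgn, if_neg fun h => hx (hP h)]
      ring

/-- A linear function minus a diagonal square. -/
theorem lin_quad {κ : Type} (s : Finset κ) (R p z : κ → ℝ) (hp : ∀ i ∈ s, 0 < p i) :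
    ∑ i ∈ s, (R i * z i - p i * z i ^ 2) ≤ ∑ i ∈ s, R i ^ 2 / (4 * p i) :=
  sum_le_sum fun i hi => by
    rw [le_div_iff₀ (by linarith [hp i hi])]
    nlinarith [sq_nonneg (R i - 2 * p i * z i)]

end Vale.Agent.P046.Gap
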